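import Vale.Agent.P134.H891.Mono

set_option linter.all false

open MeasureTheory Filter Topology

namespace Vale.Agent.P134.H891

variable {n : ℕ} {u χ w : (Fin n → ℝ) → ℝ}

/-- The primitive of `√(2W)`. -/
noncomputable def Psi (t : ℝ) : ℝ := (t - t ^ 3 / 3 + 2 / 3) / √2

lemma sqrt2_pos : (0:ℝ) < √2 := Real.sqrt_pos.mpr (by norm_num)

lemma sqrt2_sq : (√2 : ℝ) ^ 2 = 2 := Real.sq_sqrt (by norm_num)

lemma one_lt_sqrt2 : (1:ℝ) < √2 := by
  have := sqrt2_sq
  have h := sqrt2_pos
  nlinarith

lemma sqrt2_lt : (√2 : ℝ) < 3 / 2 := by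
  have := sqrt2_sq
  have h := sqrt2_pos
  nlinarith

lemma hasDerivAt_Psi (t : ℝ) : HasDerivAt Psi ((1 - t ^ 2) / √2) t := by
  have h1 := (((hasDerivAt_id t).sub ((hasDerivAt_pow 3 t).div_const 3)).add_const (2/3)).div_const (√2)
  refine h1.congr_deriv ?_
  simp

lemma contDiff_Psi {k : WithTop ℕ∞} : ContDiff ℝ k Psi := by
  unfold Psi
  fun_prop

lemma continuous_Psi : Continuous Psi := contDiff_Psi (k := 0) |>.continuous

lemma Psi_eq (t : ℝ) : Psi t = (1 + t) ^ 2 * (2 - t) / (3 * √2) := by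
  unfold Psi
  have := sqrt2_pos
  field_simp
  ring

lemma Psi_one_sub (t : ℝ) : Psi 1 - Psi t = (1 - t) ^ 2 * (2 + t) / (3 * √2) := by
  unfold Psi
  have := sqrt2_pos
  field_simp
  ring

lemma Psi_neg_one : Psi (-1) = 0 := by rw [Psi_eq]; norm_num

lemma Psi_nonneg {t : ℝ} (h : |t| ≤ 1) : 0 ≤ Psi t := by
  rw [Psi_eq]
  have := abs_le.mp h
  have h2 := sqrt2_pos
  apply div_nonneg _ (by positivity)
  apply mul_nonneg (sq_nonneg _); linarith

lemma Psi_le_sq {t : ℝ} (h : |t| ≤ 1) : Psi t ≤ (1 + t) ^ 2 := by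
  rw [Psi_eq]
  have := abs_le.mp h
  have h2 := one_lt_sqrt2
  rw [div_le_iff₀ (by positivity)]
  apply mul_le_mul_of_nonneg_left _ (sq_nonneg _); linarith

lemma Psi_one_sub_le_sq {t : ℝ} (h : |t| ≤ 1) : Psi 1 - Psi t ≤ (1 - t) ^ 2 := by
  rw [Psi_one_sub]
  have := abs_le.mp h
  have h2 := one_lt_sqrt2
  rw [div_le_iff₀ (by positivity)]
  apply mul_le_mul_of_nonneg_left _ (sq_nonneg _); linarith

lemma Psi_le_Psi_one {t : ℝ} (h : |t| ≤ 1) : Psi t ≤ Psi 1 := by
  have h1 := Psi_one_sub t
  have := abs_le.mp h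
  have h2 := sqrt2_pos
  have : 0 ≤ (1 - t) ^ 2 * (2 + t) / (3 * √2) := by
    apply div_nonneg _ (by positivity)
    apply mul_nonneg (sq_nonneg _); linarith
  linarith

lemma Psi_one_le : Psi 1 ≤ 1 := by
  rw [Psi_eq]
  have h2 := one_lt_sqrt2
  have h3 := sqrt2_sq
  rw [div_le_iff₀ (by positivity)]
  nlinarith

lemma Psi_le_one {t : ℝ} (h : |t| ≤ 1) : Psi t ≤ 1 := (Psi_le_Psi_one h).trans Psi_one_le

lemma Psi_mono {s t : ℝ} (hs : -1 ≤ s) (hst : s ≤ t) (ht : t ≤ 1) : Psi s ≤ Psi t := by
  have e : Psi t - Psi s = (t - s) * ((1 - s^2) + (1 - t ^ 2) + (1 - s * t)) / (3 * √2) := by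
    unfold Psi
    have := sqrt2_pos
    field_simp
    ring
  have h2 := sqrt2_pos
  have : 0 ≤ (t - s) * ((1 - s^2) + (1 - t ^ 2) + (1 - s * t)) / (3 * √2) := by
    apply div_nonneg _ (by positivity)
    apply mul_nonneg (by linarith)
    nlinarith [mul_nonneg (by linarith : 0 ≤ 1 - s) (by linarith : 0 ≤ 1 + s),
      mul_nonneg (by linarith : 0 ≤ 1 - t) (by linarith : 0 ≤ 1 + t)]
  linarith

lemma pd_Psi (hu : Sol u) (q : Fin n) (x : Fin n → ℝ) :
    pd q (fun x => Psi (u x)) x = psi u x / √2 * pd q u x := by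
  rw [pd_comp (h := Psi) (hasDerivAt_Psi _).differentiableAt (hu.c2.differentiable (by norm_num) x),
    (hasDerivAt_Psi _).deriv]
  rfl

lemma Psi_comp_contDiff (hu : Sol u) : ContDiff ℝ 1 (fun x => Psi (u x)) :=
  contDiff_Psi.comp (hu.c2.of_le (by norm_num))

/-- `|∇u · v| ≤ ψ/√2 · D` if `|v| ≤ D`. -/
lemma inner_le (hu : Sol u) (x : Fin n → ℝ) {v : Fin n → ℝ} {D : ℝ} (hD0 : 0 ≤ D)
    (hD : ∑ j, v j ^ 2 ≤ D ^ 2) : |∑ j, pd j u x * v j| ≤ psi u x / √2 * D := by
  have h0 := hu.psi_nonneg x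
  have h2 := sqrt2_pos
  apply abs_le_of_sq_le_sq _ (by positivity)
  refine (Finset.sum_mul_sq_le_sq_mul_sq _ _ _).trans ?_
  rw [mul_pow, div_pow, sqrt2_sq]
  exact mul_le_mul (gr_le hu x) hD (Finset.sum_nonneg fun _ _ => sq_nonneg _) (by positivity)

theorem flux {q : Fin n} (hu : Sol u) (hpos : ∀ x, 0 < pd q u x) {σ : ℝ} (hσ : σ ^ 2 = 1)
    (hχ : ContDiff ℝ 1 χ) (hc : HasCompactSupport χ) (hχ0 : ∀ x, 0 ≤ χ x)
    {D : (Fin n → ℝ) → ℝ} (hDc : Continuous D) (hDs : HasCompactSupport D) (hD0 : ∀ x, 0 ≤ D x)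
    (hDχ : ∀ x, ∑ j, pd j χ x ^ 2 ≤ D x ^ 2) {E U : (Fin n → ℝ) → ℝ}
    (hlimE : ∀ x, Tendsto (fun t : ℝ => en u (x + (σ * t) • Pi.single q 1)) atTop (𝓝 (E x)))
    (hlimU : ∀ x, Tendsto (fun t : ℝ => u (x + (σ * t) • Pi.single q 1)) atTop (𝓝 (U x))) :
    ∫ x, (en u x * χ x + σ * (Psi (u x) * D x)) ≤ ∫ x, (E x * χ x + σ * (Psi (U x) * D x)) := by
  obtain ⟨C, hC, hC1, hC2, -⟩ := hu.exists_bound
  have hC0 : 0 ≤ C := hC.le
  set e : Fin n → ℝ := Pi.single q 1 with he
  have hcen : Continuous (en u) := (en_contDiff hu.c2).continuous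
  have hden : Differentiable ℝ (en u) := (en_contDiff hu.c2).differentiable (by norm_num)
  have hdP : Differentiable ℝ (fun x => Psi (u x)) := (Psi_comp_contDiff hu).differentiable (by norm_num)
  have hcP : Continuous (fun x => Psi (u x)) := (Psi_comp_contDiff hu).continuous
  have hcu : Continuous u := hu.c2.continuous
  set F : ℝ → (Fin n → ℝ) → ℝ := fun τ x =>
    en u (x + (σ * τ) • e) * χ x + σ * (Psi (u (x + (σ * τ) • e)) * D x) with hF
  set F' : ℝ → (Fin n → ℝ) → ℝ := fun τ x =>
    (pd q (en u) (x + (σ * τ) • e) * σ) * χ x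
      + σ * ((psi u (x + (σ * τ) • e) / √2 * pd q u (x + (σ * τ) • e) * σ) * D x) with hF'
  have hFc : ∀ τ, Continuous (F τ) := fun τ => by
    have h1 : Continuous fun x : Fin n → ℝ => x + (σ * τ) • e := by fun_prop
    exact ((hcen.comp h1).mul hχ.continuous).add (continuous_const.mul ((hcP.comp h1).mul hDc))
  have hFi : ∀ τ, Integrable (F τ) := fun τ => by
    apply (hFc τ).integrable_of_hasCompactSupport
    exact (hc.mul_left).add (hDs.mul_left.mul_left)
  have hF'c : ∀ τ, Continuous (F' τ) := fun τ => by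
    have h1 : Continuous fun x : Fin n → ℝ => x + (σ * τ) • e := by fun_prop
    exact ((((continuous_pd (en_contDiff hu.c2)).comp h1).mul continuous_const).mul hχ.continuous).add
      (continuous_const.mul (((((hu.psi_contDiff.continuous.comp h1).div_const _).mul
        ((contDiff_pd_one hu.c2).continuous.comp h1)).mul continuous_const).mul hDc))
  have hσ1 : |σ| = 1 := by
    have : |σ| ^ 2 = 1 := by rw [sq_abs, hσ]
    have h0 := abs_nonneg σ
    nlinarith
  have hKb : ∀ y, |pd q (en u) y| ≤ n * C ^ 2 + 2 * C := by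
    intro y
    rw [pd_en hu.c2]
    have h1 : |∑ j, pd j u y * pd q (pd j u) y| ≤ n * C ^ 2 := by
      refine (Finset.abs_sum_le_sum_abs _ _).trans ?_
      have : ∀ j ∈ (Finset.univ : Finset (Fin n)), |pd j u y * pd q (pd j u) y| ≤ C ^ 2 := by
        intro j _
        rw [abs_mul, sq]
        exact mul_le_mul (hC1 _ _) (hC2 _ _ _) (abs_nonneg _) hC0
      refine (Finset.sum_le_sum this).trans (le_of_eq ?_)
      simp only [Finset.sum_const, Finset.card_univ, Fintype.card_fin, nsmul_eq_mul]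
    have h2 : |(u y ^ 3 - u y) * pd q u y| ≤ 2 * C := by
      rw [abs_mul]
      have hb := abs_le.mp (hu.bd y)
      have h3 : |u y ^ 3 - u y| ≤ 2 := by
        rw [abs_le]
        have : u y ^ 3 - u y = u y * (u y ^ 2 - 1) := by ring
        constructor <;> nlinarith only [hb, mul_nonneg (by linarith : 0 ≤ 1 - u y) (by linarith : 0 ≤ 1 + u y)]
      exact mul_le_mul h3 (hC1 _ _) (abs_nonneg _) (by norm_num)
    exact (abs_add_le _ _).trans (add_le_add h1 h2)
  have hlin : ∀ t : ℝ, HasDerivAt (fun τ : ℝ => σ * τ) σ t := fun t => by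
    simpa using (hasDerivAt_id t).const_mul σ
  have hder : ∀ τ, HasDerivAt (fun τ => ∫ x, F τ x) (∫ x, F' τ x) τ := by
    intro τ
    refine (hasDerivAt_integral_of_dominated_loc_of_deriv_le (μ := volume) (s := Set.univ)
      (F := F) (F' := F')
      (bound := fun x => (n * C ^ 2 + 2 * C) * χ x + C * D x) Filter.univ_mem
      (Eventually.of_forall fun τ => (hFc τ).aestronglyMeasurable) (hFi τ)
      (hF'c τ).aestronglyMeasurable ?_ ?_ ?_).2
    · filter_upwards with x
      intro t _
      simp only [hF']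
      rw [Real.norm_eq_abs]
      refine (abs_add_le _ _).trans (add_le_add ?_ ?_)
      · rw [abs_mul, abs_mul, hσ1, mul_one, abs_of_nonneg (hχ0 x)]
        exact mul_le_mul_of_nonneg_right (hKb _) (hχ0 x)
      · rw [abs_mul, abs_mul, abs_mul, hσ1, one_mul, mul_one, abs_of_nonneg (hD0 x), abs_mul]
        refine mul_le_mul_of_nonneg_right ?_ (hD0 x)
        have h1 := hu.psi_nonneg (x + (σ * t) • e)
        have h2 := psi_le_one u (x + (σ * t) • e)
        have h3 := one_lt_sqrt2
        rw [abs_of_nonneg (by positivity)]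
        have h4 : psi u (x + (σ * t) • e) / √2 ≤ 1 := by
          rw [div_le_iff₀ (by positivity)]; linarith
        calc psi u (x + (σ * t) • e) / √2 * |pd q u (x + (σ * t) • e)|
            ≤ 1 * C := mul_le_mul h4 (hC1 _ _) (abs_nonneg _) (by norm_num)
          _ = C := one_mul _
    · apply Integrable.add
      · exact (hχ.continuous.integrable_of_hasCompactSupport hc).const_mul _
      · exact ((hDc.integrable_of_hasCompactSupport hDs).const_mul _)
    · filter_upwards with x
      intro t _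
      have a1 := (hasDerivAt_ln hden x q (σ * t)).comp t (hlin t)
      have a2 := (hasDerivAt_ln hdP x q (σ * t)).comp t (hlin t)
      rw [pd_Psi hu] at a2
      exact (a1.mul_const _).add ((a2.mul_const _).const_mul _)
  have hnonneg : ∀ τ, 0 ≤ ∫ x, F' τ x := by
    intro τ
    have hv := hu.translate ((σ * τ) • e)
    set v : (Fin n → ℝ) → ℝ := fun x => u (x + (σ * τ) • e) with hvdef
    have pv : ∀ j x, pd j v x = pd j u (x + (σ * τ) • e) := fun j x => pd_translate _
    have psv : ∀ x, psi v x = psi u (x + (σ * τ) • e) := fun x => rfl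
    have ev : ∀ x, en v x = en u (x + (σ * τ) • e) := fun x => by
      unfold en; simp_rw [pv, hvdef]
    have ev' : en v = fun x => en u (x + (σ * τ) • e) := funext ev
    have pev : ∀ x, pd q (en v) x = pd q (en u) (x + (σ * τ) • e) := fun x => by
      rw [ev']; exact pd_translate _
    have h1 := integral_pd_en hv q hχ hc
    have i1 : Integrable (fun x => pd q (en v) x * χ x) :=
      ((continuous_pd (en_contDiff hv.c2)).mul hχ.continuous).integrable_of_hasCompactSupport
        hc.mul_left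
    have i2 : Integrable (fun x => psi v x / √2 * pd q v x * D x) :=
      (((hv.psi_contDiff.continuous.div_const _).mul (contDiff_pd_one hv.c2).continuous).mul
        hDc).integrable_of_hasCompactSupport hDs.mul_left
    have i3 : Integrable (fun x => pd q v x * ∑ j, pd j v x * pd j χ x) := by
      have : (fun x => pd q v x * ∑ j, pd j v x * pd j χ x)
          = fun x => ∑ j, (pd q v x * pd j v x) * pd j χ x := by
        ext x; rw [Finset.mul_sum]
        apply Finset.sum_congr rfl; intro j _; ring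
      rw [this]
      exact integrable_sum_mul (fun j => (contDiff_pd_one hv.c2).continuous.mul
        (contDiff_pd_one hv.c2).continuous)
        (fun j => continuous_pd hχ) (fun j => hasCompactSupport_pd hc)
    have h2 : ∫ x, F' τ x = ∫ x, (psi v x / √2 * pd q v x * D x
        - σ * (pd q v x * ∑ j, pd j v x * pd j χ x)) := by
      have h3 : ∫ x, F' τ x = σ * (∫ x, pd q (en v) x * χ x)
          + ∫ x, psi v x / √2 * pd q v x * D x := by
        rw [← integral_const_mul, ← integral_add (i1.const_mul _) i2]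
        congr 1; ext x
        simp only [hF', pv, pev, psv]
        linear_combination (psi u (x + (σ * τ) • e) / √2 * pd q u (x + (σ * τ) • e) * D x) * hσ
      rw [h3, h1, integral_sub i2 (i3.const_mul _), integral_const_mul]; ring
    rw [h2]
    apply integral_nonneg
    intro x
    simp only [Pi.zero_apply]
    have h4 := inner_le hv x (hD0 x) (hDχ x)
    have h5 : 0 < pd q v x := by rw [pv]; exact hpos _
    have h6 : σ * ∑ j, pd j v x * pd j χ x ≤ psi v x / √2 * D x := by
      refine (le_abs_self _).trans ?_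
      rw [abs_mul, hσ1, one_mul]; exact h4
    have h7 := mul_le_mul_of_nonneg_left h6 h5.le
    linarith
  have hmono : Monotone (fun τ => ∫ x, F τ x) :=
    monotone_of_deriv_nonneg (fun τ => (hder τ).differentiableAt) fun τ => by
      rw [(hder τ).deriv]; exact hnonneg τ
  have hlimF : Tendsto (fun τ => ∫ x, F τ x) atTop
      (𝓝 (∫ x, (E x * χ x + σ * (Psi (U x) * D x)))) := by
    apply tendsto_integral_filter_of_dominated_convergence (fun x => χ x + D x)
    · exact Eventually.of_forall fun τ => (hFc τ).aestronglyMeasurable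
    · filter_upwards with τ
      filter_upwards with x
      simp only [hF]
      rw [Real.norm_eq_abs]
      refine (abs_add_le _ _).trans (add_le_add ?_ ?_)
      · rw [abs_mul, abs_of_nonneg (hχ0 x), abs_of_nonneg (en_nonneg _ _)]
        have h1 := hu.en_le (x + (σ * τ) • e)
        have h2 := hu.psi_sq_le (x + (σ * τ) • e)
        have h3 : en u (x + (σ * τ) • e) ≤ 1 := by linarith
        calc _ ≤ 1 * χ x := mul_le_mul_of_nonneg_right h3 (hχ0 x)
          _ = χ x := one_mul _
      · rw [abs_mul, hσ1, one_mul, abs_mul, abs_of_nonneg (hD0 x),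
          abs_of_nonneg (Psi_nonneg (hu.bd _))]
        calc _ ≤ 1 * D x := mul_le_mul_of_nonneg_right (Psi_le_one (hu.bd _)) (hD0 x)
          _ = D x := one_mul _
    · exact (hχ.continuous.integrable_of_hasCompactSupport hc).add
        (hDc.integrable_of_hasCompactSupport hDs)
    · filter_upwards with x
      have h2 : Tendsto (fun t : ℝ => Psi (u (x + (σ * t) • e))) atTop (𝓝 (Psi (U x))) :=
        (continuous_Psi.tendsto _).comp (hlimU x)
      exact ((hlimE x).mul_const _).add ((h2.mul_const _).const_mul _)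
  have hfin : ∫ x, F 0 x ≤ ∫ x, (E x * χ x + σ * (Psi (U x) * D x)) := by
    apply ge_of_tendsto hlimF
    filter_upwards [eventually_ge_atTop 0] with τ hτ using hmono hτ
  have hF0 : F 0 = fun x => en u x * χ x + σ * (Psi (u x) * D x) := by
    ext x
    simp only [hF, mul_zero, zero_smul, add_zero]
  rw [hF0] at hfin
  exact hfin

end Vale.Agent.P134.H891
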