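import Vale.Agent.P134.H891.Slab

set_option linter.all false

open MeasureTheory Filter Topology

namespace Vale.Agent.P134.H891

variable {n : ℕ} {u v χ w : (Fin n → ℝ) → ℝ} {p q : Fin n}

/-- Affine weight. -/
def aw (p : Fin n) (c : ℝ) (x : Fin n → ℝ) : ℝ := x p + c

lemma continuous_aw (p : Fin n) (c : ℝ) : Continuous (aw p c) :=
  (continuous_apply p).add continuous_const

lemma ident_aff (hu : Sol u) {r : ℝ} (hr : 0 < r) (p : Fin n) (c : ℝ) :
    ∫ x, aw p c x * ((((n : ℝ) - 1) * en u x + defi u x / 2) * ph r x)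
      = ∫ x, aw p c x * (4 * mm r x / r ^ 2 * (esq x * en u x - rd u x ^ 2)) := by
  have cen : Continuous (en u) := (en_contDiff hu.c2).continuous
  have cph : Continuous (ph r : (Fin n → ℝ) → ℝ) := (ph_contDiff r).continuous
  have cA : Continuous (fun x : Fin n → ℝ => (((n : ℝ) - 1) * en u x + defi u x / 2) * ph r x) :=
    ((continuous_const.mul cen).add (hu.defi_continuous.div_const _)).mul cph
  have sA : HasCompactSupport (fun x : Fin n → ℝ => (((n : ℝ) - 1) * en u x + defi u x / 2) * ph r x) :=
    (ph_hasCompactSupport hr).mul_left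
  have s4 : HasCompactSupport (fun x : Fin n → ℝ => 4 * mm r x / r ^ 2) :=
    HasCompactSupport.comp_left (mm_hasCompactSupport hr) (g := fun t => 4 * t / r ^ 2) (by simp)
  have c4 : Continuous (fun x : Fin n → ℝ => 4 * mm r x / r ^ 2) :=
    (continuous_const.mul (continuous_mm r)).div_const _
  have cB : Continuous (fun x : Fin n → ℝ => 4 * mm r x / r ^ 2 * (esq x * en u x - rd u x ^ 2)) :=
    c4.mul ((continuous_esq.mul cen).sub ((rd_continuous hu.c2).pow 2))
  have sB : HasCompactSupport (fun x : Fin n → ℝ => 4 * mm r x / r ^ 2 * (esq x * en u x - rd u x ^ 2)) :=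
    s4.mul_right
  have cx : Continuous (fun x : Fin n → ℝ => x p) := continuous_apply p
  have i1 : Integrable (fun x : Fin n → ℝ => x p * ((((n : ℝ) - 1) * en u x + defi u x / 2) * ph r x)) :=
    (cx.mul cA).integrable_of_hasCompactSupport sA.mul_left
  have i2 : Integrable (fun x : Fin n → ℝ => c * ((((n : ℝ) - 1) * en u x + defi u x / 2) * ph r x)) :=
    (continuous_const.mul cA).integrable_of_hasCompactSupport sA.mul_left
  have i3 : Integrable (fun x : Fin n → ℝ => x p * (4 * mm r x / r ^ 2 * (esq x * en u x - rd u x ^ 2))) :=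
    (cx.mul cB).integrable_of_hasCompactSupport sB.mul_left
  have i4 : Integrable (fun x : Fin n → ℝ => c * (4 * mm r x / r ^ 2 * (esq x * en u x - rd u x ^ 2))) :=
    (continuous_const.mul cB).integrable_of_hasCompactSupport sB.mul_left
  unfold aw
  simp_rw [add_mul (_ : ℝ) c]
  rw [integral_add i1 i2, integral_add i3 i4,
    integral_const_mul, integral_const_mul, ident_one hu hr, ident_lin hu hr p]

lemma hasDerivAt_TT_aff (hu : Sol u) (p : Fin n) (c : ℝ) {r : ℝ} (hr : 0 < r) :
    HasDerivAt (TT (aw p c) u) (QQ (aw p c) u r / r ^ n) r :=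
  hasDerivAt_TT (by have := p.2; omega) hr
    (hasDerivAt_II hu (continuous_aw p c) hr (ident_aff hu hr p c))

lemma hasDerivAt_TT_one (hu : Sol u) (p : Fin n) {r : ℝ} (hr : 0 < r) :
    HasDerivAt (TT (fun _ => 1) u) (QQ (fun _ => 1) u r / r ^ n) r :=
  hasDerivAt_TT (by have := p.2; omega) hr (hasDerivAt_II_one hu hr)

lemma QQ_one_nonneg (hu : Sol u) {r : ℝ} : 0 ≤ QQ (fun _ => 1) u r := by
  unfold QQ
  apply integral_nonneg
  intro x
  simp only [Pi.zero_apply, one_mul]
  exact PP_nonneg hu x

lemma Th_mono (hu : Sol u) (p : Fin n) : MonotoneOn (TT (fun _ => 1) u) (Set.Ioi 0) := by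
  apply monotoneOn_of_deriv_nonneg (convex_Ioi 0)
  · exact fun r hr => (hasDerivAt_TT_one hu p hr).continuousAt.continuousWithinAt
  · intro r hr
    rw [interior_Ioi] at hr
    exact (hasDerivAt_TT_one hu p hr).differentiableAt.differentiableWithinAt
  · intro r hr
    rw [interior_Ioi] at hr
    rw [(hasDerivAt_TT_one hu p hr).deriv]
    have hr' : 0 < r := hr
    exact div_nonneg (QQ_one_nonneg hu) (by positivity)

lemma abs_le_of_mm_ne {r : ℝ} (hr : 0 < r) {x : Fin n → ℝ} (h : mm r x ≠ 0) (i : Fin n) :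
    |x i| ≤ r := by
  by_contra hcon
  push Not at hcon
  exact h (mm_eq_zero_of_abs hr hcon.le)

lemma mem_box_of_mm_ne {r : ℝ} (hr : 0 < r) {x : Fin n → ℝ} (h : mm r x ≠ 0) : x ∈ box n r :=
  mem_box.mpr (abs_le_of_mm_ne hr h)

lemma T_le (hu : Sol u) (p : Fin n) {R0 R : ℝ} (h0 : 0 < R0) (hR : R0 ≤ R) :
    TT (aw p 0) u R ≤ TT (aw p 0) u R0 + R * (TT (fun _ => 1) u R - TT (fun _ => 1) u R0) := by
  have hd : ∀ r, 0 < r → HasDerivAt (fun r => TT (aw p 0) u r - R * TT (fun _ => 1) u r)
      (QQ (aw p 0) u r / r ^ n - R * (QQ (fun _ => 1) u r / r ^ n)) r := fun r hr =>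
    (hasDerivAt_TT_aff hu p 0 hr).sub ((hasDerivAt_TT_one hu p hr).const_mul R)
  have hanti : AntitoneOn (fun r => TT (aw p 0) u r - R * TT (fun _ => 1) u r) (Set.Icc R0 R) := by
    apply antitoneOn_of_deriv_nonpos (convex_Icc R0 R)
    · intro r hr
      exact (hd r (lt_of_lt_of_le h0 hr.1)).continuousAt.continuousWithinAt
    · intro r hr
      rw [interior_Icc] at hr
      exact (hd r (h0.trans hr.1)).differentiableAt.differentiableWithinAt
    · intro r hr
      rw [interior_Icc] at hr
      have hr0 : 0 < r := h0.trans hr.1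
      rw [(hd r hr0).deriv]
      have h1 : QQ (aw p 0) u r ≤ R * QQ (fun _ => 1) u r := by
        unfold QQ
        rw [← integral_const_mul]
        apply integral_mono (QQ_integrable hu (continuous_aw p 0) hr0)
          ((QQ_integrable hu continuous_const hr0).const_mul _)
        intro x
        simp only [aw, add_zero, one_mul]
        by_cases hm : mm r x = 0
        · rw [PP_eq_zero hm]; simp
        · have h2 := abs_le.mp (abs_le_of_mm_ne hr0 hm p)
          exact mul_le_mul_of_nonneg_right (h2.2.trans hr.2.le) (PP_nonneg hu x)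
      have h3 : 0 < r ^ n := by positivity
      rw [← mul_div_assoc, sub_nonpos]
      exact div_le_div_of_nonneg_right h1 h3.le
  have := hanti (Set.left_mem_Icc.mpr hR) (Set.right_mem_Icc.mpr hR) hR
  simp only at this
  linarith

lemma psi_translate (z x : Fin n → ℝ) : psi (fun x => u (x + z)) x = psi u (x + z) := rfl

lemma en_translate (z x : Fin n → ℝ) : en (fun x => u (x + z)) x = en u (x + z) := by
  unfold en
  simp_rw [pd_translate]

/-- Lower bound for the weighted production. -/
lemma QQ_lower (hu : Sol u) (hle : ∀ x, u x ≤ gp (x p)) (z : Fin n → ℝ) {r : ℝ} (hr : 0 < r) :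
    -(1920 * (2 * r) ^ (n - 1)) ≤ QQ (aw p (z p)) (fun x => u (x + z)) r := by
  have hv := hu.translate z
  have h1 : ∫ x, -(aw p (z p) x * PP (fun x => u (x + z)) r x)
      ≤ (4 * 480 + 0 * 0) * (2 * r) ^ (n - 1) := by
    apply slab (p := p) (a := -(z p)) (by norm_num) le_rfl le_rfl hr.le
      (QQ_integrable hv (continuous_aw p _) hr).neg
    · intro x hx
      show -(aw p (z p) x * PP (fun x => u (x + z)) r x) ≤ 0
      rw [PP_eq_zero (mm_eq_zero_of_notMem hr le_rfl hx)]; simp
    · intro x _
      refine le_trans ?_ (maj_ge_left le_rfl)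
      show -(aw p (z p) x * PP (fun x => u (x + z)) r x) ≤ _
      have h2 := PP_le hv hr x
      have h3 := PP_nonneg hv (r := r) x
      have h4 := neg_part_le hu hle (x + z)
      have h5 := le_pp (-((x + z) p))
      have h6 := pp_nonneg (-((x + z) p))
      rw [psi_translate] at h2
      simp only [aw, Pi.add_apply] at *
      calc -((x p + z p) * PP (fun x => u (x + z)) r x)
          = -(x p + z p) * PP (fun x => u (x + z)) r x := by ring
        _ ≤ pp (-(x p + z p)) * PP (fun x => u (x + z)) r x := mul_le_mul_of_nonneg_right h5 h3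
        _ ≤ pp (-(x p + z p)) * (3 * psi u (x + z) ^ 2) := mul_le_mul_of_nonneg_left h2 h6
        _ = 3 * (pp (-(x p + z p)) * psi u (x + z) ^ 2) := by ring
        _ ≤ 3 * (160 / (1 + (x p + z p) ^ 2)) := by linarith
        _ = 480 / (1 + (x p - -z p) ^ 2) := by ring
  rw [integral_neg] at h1
  unfold QQ
  linarith

/-- `K`-constant of the monotonicity formula. -/
noncomputable def KK (n : ℕ) : ℝ := 1920 * 2 ^ (n - 1)

lemma KK_nonneg : 0 ≤ KK n := by unfold KK; positivity

lemma mono_aff (hu : Sol u) (hle : ∀ x, u x ≤ gp (x p)) (z : Fin n → ℝ) :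
    MonotoneOn (fun r => TT (aw p (z p)) (fun x => u (x + z)) r + KK n * Real.log r)
      (Set.Ioi 0) := by
  have hv := hu.translate z
  have hd : ∀ r, 0 < r → HasDerivAt
      (fun r => TT (aw p (z p)) (fun x => u (x + z)) r + KK n * Real.log r)
      (QQ (aw p (z p)) (fun x => u (x + z)) r / r ^ n + KK n * r⁻¹) r := fun r hr =>
    (hasDerivAt_TT_aff hv p _ hr).add ((Real.hasDerivAt_log hr.ne').const_mul _)
  apply monotoneOn_of_deriv_nonneg (convex_Ioi 0)
  · exact fun r hr => (hd r hr).continuousAt.continuousWithinAt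
  · intro r hr
    rw [interior_Ioi] at hr
    exact (hd r hr).differentiableAt.differentiableWithinAt
  · intro r hr
    rw [interior_Ioi] at hr
    have hr' : 0 < r := hr
    rw [(hd r hr).deriv]
    have h1 := QQ_lower hu hle z hr'
    have h2 : KK n * r⁻¹ = 1920 * (2 * r) ^ (n - 1) / r ^ n := by
      unfold KK
      obtain ⟨m, rfl⟩ : ∃ m, n = m + 1 := ⟨n - 1, by have := p.2; omega⟩
      simp only [Nat.add_sub_cancel, mul_pow, pow_succ]
      field_simp
    rw [h2, ← add_div]
    apply div_nonneg _ (by positivity)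
    linarith

/-- Uniform lower energy bound. -/
lemma en_lower (p : Fin n) : ∃ c : ℝ, 0 < c ∧ ∀ v : (Fin n → ℝ) → ℝ, Sol v → |v 0| ≤ 3 / 4 →
    c ≤ ∫ x, en v x * ph 1 x := by
  have hn : (1:ℝ) ≤ n := by
    have := p.2
    exact_mod_cast (by omega : 1 ≤ n)
  set ρ : ℝ := 1 / (8 * (n * (n + 1))) with hρ
  have hρ0 : 0 < ρ := by positivity
  refine ⟨1 / 400 * (2 * ρ) ^ n, by positivity, ?_⟩
  intro v hv h0
  have hρn : n * (n + 1) * ρ = 1 / 8 := by rw [hρ]; field_simp
  have hρ2 : n * ρ ^ 2 ≤ 1 / 2 := by
    have h1 : n * ρ ≤ 1 / 8 := by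
      rw [← hρn]
      nlinarith [mul_nonneg (by linarith : (0:ℝ) ≤ n) hρ0.le, mul_nonneg (by positivity : (0:ℝ) ≤ n * n) hρ0.le]
    have h2 : ρ ≤ 1 / 8 := by nlinarith
    nlinarith
  have cen : Continuous (en v) := (en_contDiff hv.c2).continuous
  have hi : Integrable (fun x => en v x * ph 1 x) :=
    (cen.mul (ph_contDiff 1).continuous).integrable_of_hasCompactSupport
      (ph_hasCompactSupport (by norm_num)).mul_left
  have h1 : ∫ x, (1 / 400 : ℝ) * ind (box n ρ) x ≤ ∫ x, en v x * ph 1 x := by
    apply integral_mono_of_nonneg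
    · exact Eventually.of_forall fun x => mul_nonneg (by norm_num) (ind_nonneg _ _)
    · exact hi
    · refine Eventually.of_forall fun x => ?_
      simp only
      by_cases hx : x ∈ box n ρ
      · rw [ind_mem hx, mul_one]
        rw [mem_box] at hx
        have h2 : |v x - v 0| ≤ 1 / 8 := by
          have := hv.diff_le 0 x
          rw [zero_add] at this
          refine this.trans ?_
          rw [← hρn]
          apply mul_le_mul_of_nonneg_left _ (by positivity)
          rw [pi_norm_le_iff_of_nonneg hρ0.le]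
          intro i
          rw [Real.norm_eq_abs]; exact hx i
        have h3 := abs_le.mp h2
        have h4 := abs_le.mp h0
        have h5 : 15 / 64 ≤ psi v x := by
          unfold psi
          have h6 : |v x| ≤ 7 / 8 := abs_le.mpr ⟨by linarith, by linarith⟩
          have h7 : v x ^ 2 ≤ (7 / 8) ^ 2 := by
            rw [← sq_abs]; exact pow_le_pow_left₀ (abs_nonneg _) h6 2
          norm_num at h7 ⊢
          linarith
        have h6 := en_ge v x
        have h7 : 1 / 100 ≤ en v x := by nlinarith
        have h8 : 1 / 2 ≤ mm 1 x := by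
          unfold mm
          refine le_trans ?_ (le_pp _)
          have : esq x ≤ n * ρ ^ 2 := by
            unfold esq
            calc ∑ i, x i ^ 2 ≤ ∑ _i : Fin n, ρ ^ 2 := Finset.sum_le_sum fun i _ => by
                  rw [← sq_abs]; exact pow_le_pow_left₀ (abs_nonneg _) (hx i) 2
              _ = n * ρ ^ 2 := by simp
          norm_num
          linarith
        have h9 : 1 / 4 ≤ ph 1 x := by unfold ph; nlinarith
        nlinarith
      · rw [ind_notMem hx, mul_zero]
        exact mul_nonneg (en_nonneg _ _) (ph_nonneg _ _)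
  refine le_trans (le_of_eq ?_) h1
  have hm : MeasurableSet (box n ρ) := measurableSet_Icc
  rw [integral_const_mul]
  have h2 : ∫ x, ind (box n ρ) x = (2 * ρ) ^ n := by
    have h3 := integral_mul_ind (F := fun _ => (1:ℝ)) hm
    simp only [one_mul] at h3
    rw [h3, setIntegral_const, smul_eq_mul, mul_one]
    exact volume_box hρ0.le
  rw [h2]

lemma pp_eq (t : ℝ) : pp t = t + pp (-t) := by
  rcases le_total 0 t with h | h
  · rw [pp_of_nonneg h, pp_of_nonpos (by linarith)]; ring
  · rw [pp_of_nonpos h, pp_of_nonneg (by linarith)]; ring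

/-- Negative part of the weighted energy. -/
lemma neg_energy (hu : Sol u) (hle : ∀ x, u x ≤ gp (x p)) {r : ℝ} (hr : 0 < r) :
    ∫ x, pp (-(x p)) * (en u x * ph r x) ≤ 320 * (2 * r) ^ (n - 1) := by
  have cp : Continuous (fun x : Fin n → ℝ => pp (-(x p))) :=
    continuous_pp.comp (continuous_apply p).neg
  have h1 := slab (p := p) (F := fun x => pp (-(x p)) * (en u x * ph r x)) (K := 80) (a := 0)
    (M := 0) (L := 0) (by norm_num) le_rfl le_rfl hr.le (II_integrable hu cp hr)
    (by
      intro x hx
      simp only [ph]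
      rw [mm_eq_zero_of_notMem hr le_rfl hx]; simp)
    (by
      intro x _
      refine le_trans ?_ (maj_ge_left le_rfl)
      have h2 := hu.en_le x
      have h3 := ph_le_one r x
      have h4 := ph_nonneg r x
      have h5 := neg_part_le hu hle x
      have h6 := pp_nonneg (-(x p))
      have h7 := en_nonneg u x
      rw [sub_zero]
      calc pp (-(x p)) * (en u x * ph r x) ≤ pp (-(x p)) * (psi u x ^ 2 / 2 * 1) :=
            mul_le_mul_of_nonneg_left (mul_le_mul h2 h3 h4 (by positivity)) h6
        _ = (pp (-(x p)) * psi u x ^ 2) / 2 := by ring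
        _ ≤ (160 / (1 + x p ^ 2)) / 2 := by linarith
        _ = 80 / (1 + x p ^ 2) := by ring)
  norm_num at h1
  exact h1

lemma II_pp_le (hu : Sol u) (hle : ∀ x, u x ≤ gp (x p)) {r : ℝ} (hr : 0 < r) :
    ∫ x, pp (x p) * (en u x * ph r x) ≤ II (aw p 0) u r + 320 * (2 * r) ^ (n - 1) := by
  have cp : Continuous (fun x : Fin n → ℝ => pp (-(x p))) :=
    continuous_pp.comp (continuous_apply p).neg
  have h1 := neg_energy hu hle hr
  have h2 : ∫ x, pp (x p) * (en u x * ph r x)
      = II (aw p 0) u r + ∫ x, pp (-(x p)) * (en u x * ph r x) := by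
    unfold II
    rw [← integral_add (II_integrable hu (continuous_aw p 0) hr) (II_integrable hu cp hr)]
    congr 1; ext x
    rw [pp_eq (x p)]
    simp only [aw, add_zero]
    ring
  rw [h2]
  linarith

/-- The scale factor. -/
noncomputable def kap (n : ℕ) : ℝ := 4 * (n + 1)

lemma one_le_kap : 1 ≤ kap n := by unfold kap; have : (0:ℝ) ≤ n := Nat.cast_nonneg n; linarith

/-- Comparison of cut-offs. -/
lemma ph_shift_le {R : ℝ} (hR : 0 < R) {z : Fin n → ℝ} (hz : z ∈ box n R) (y : Fin n → ℝ) :
    ph R (y - z) ≤ 16 / 9 * ph (kap n * R) y := by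
  have hk := one_le_kap (n := n)
  by_cases hm : mm R (y - z) = 0
  · have : ph R (y - z) = 0 := by unfold ph; rw [hm]; ring
    rw [this]
    exact mul_nonneg (by norm_num) (ph_nonneg _ _)
  · have h1 := esq_lt_of_mm_ne hR hm
    have hz' : esq z ≤ n * R ^ 2 := by
      rw [mem_box] at hz
      unfold esq
      calc ∑ i, z i ^ 2 ≤ ∑ _i : Fin n, R ^ 2 := Finset.sum_le_sum fun i _ => by
            rw [← sq_abs]; exact pow_le_pow_left₀ (abs_nonneg _) (hz i) 2
        _ = n * R ^ 2 := by simp
    have h2 : esq y ≤ 2 * esq (y - z) + 2 * esq z := by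
      unfold esq
      rw [Finset.mul_sum, Finset.mul_sum, ← Finset.sum_add_distrib]
      apply Finset.sum_le_sum
      intro i _
      simp only [Pi.sub_apply]
      nlinarith [sq_nonneg (y i - z i - z i)]
    have h3 : esq y ≤ 2 * (n + 1) * R ^ 2 := by nlinarith
    have h4 : 3 / 4 ≤ mm (kap n * R) y := by
      unfold mm
      refine le_trans ?_ (le_pp _)
      have h5 : esq y / (kap n * R) ^ 2 ≤ 1 / 4 := by
        rw [div_le_iff₀ (by positivity)]
        unfold kap
        have hn : (0:ℝ) ≤ n := Nat.cast_nonneg n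
        nlinarith [mul_nonneg hn (sq_nonneg R), mul_nonneg (mul_nonneg hn hn) (sq_nonneg R)]
      linarith
    have h5 : 9 / 16 ≤ ph (kap n * R) y := by unfold ph; nlinarith
    have h6 := ph_le_one R (y - z)
    linarith

/-- The translated weighted energy is controlled by the centred one. -/
lemma TT_shift_le (hu : Sol u) (hle : ∀ x, u x ≤ gp (x p)) {R : ℝ} (hR : 0 < R)
    {z : Fin n → ℝ} (hz : z ∈ box n R) :
    TT (aw p (z p)) (fun x => u (x + z)) R
      ≤ 16 / 9 * kap n ^ (n - 1) * (TT (aw p 0) u (kap n * R) + 320 * 2 ^ (n - 1)) := by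
  have hk := one_le_kap (n := n)
  have hk0 : 0 < kap n * R := by positivity
  have cen : Continuous (en u) := (en_contDiff hu.c2).continuous
  have cp : Continuous (fun x : Fin n → ℝ => pp (x p)) := continuous_pp.comp (continuous_apply p)
  have h1 : II (aw p (z p)) (fun x => u (x + z)) R = ∫ y, y p * (en u y * ph R (y - z)) := by
    unfold II
    rw [← integral_add_right_eq_self (μ := (volume : Measure (Fin n → ℝ)))
      (fun y => y p * (en u y * ph R (y - z))) z]
    congr 1; ext x
    simp only [aw, Pi.add_apply, en_translate, add_sub_cancel_right]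
  have h2 : ∫ y, y p * (en u y * ph R (y - z))
      ≤ ∫ y, 16 / 9 * (pp (y p) * (en u y * ph (kap n * R) y)) := by
    apply integral_mono
    · have : Continuous (fun y : Fin n → ℝ => ph R (y - z)) :=
        (ph_contDiff R).continuous.comp (continuous_id.sub continuous_const)
      refine ((continuous_apply p).mul (cen.mul this)).integrable_of_hasCompactSupport ?_
      have hs : HasCompactSupport (fun y : Fin n → ℝ => ph R (y - z)) :=
        (ph_hasCompactSupport hR).comp_homeomorph (Homeomorph.subRight z)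
      exact hs.mul_left.mul_left
    · exact (II_integrable hu cp hk0).const_mul _
    · intro y
      simp only
      have a1 := ph_shift_le hR hz y
      have a2 := ph_nonneg R (y - z)
      have a3 := en_nonneg u y
      have a4 := le_pp (y p)
      have a5 := pp_nonneg (y p)
      calc y p * (en u y * ph R (y - z)) ≤ pp (y p) * (en u y * ph R (y - z)) :=
            mul_le_mul_of_nonneg_right a4 (mul_nonneg a3 a2)
        _ ≤ pp (y p) * (en u y * (16 / 9 * ph (kap n * R) y)) :=
            mul_le_mul_of_nonneg_left (mul_le_mul_of_nonneg_left a1 a3) a5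
        _ = _ := by ring
  have h3 := II_pp_le hu hle hk0
  rw [integral_const_mul] at h2
  unfold TT
  rw [h1, div_le_iff₀ (by positivity)]
  refine h2.trans ?_
  have h4 : 16 / 9 * kap n ^ (n - 1) * (II (aw p 0) u (kap n * R) / (kap n * R) ^ (n - 1)
      + 320 * 2 ^ (n - 1)) * R ^ (n - 1)
      = 16 / 9 * (II (aw p 0) u (kap n * R) + 320 * (2 * (kap n * R)) ^ (n - 1)) := by
    have : kap n ≠ 0 := by positivity
    simp only [mul_pow]
    field_simp
  rw [h4]
  linarith

/-- The monotone height functional. -/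
noncomputable def SS (p : Fin n) (u : (Fin n → ℝ) → ℝ) (r : ℝ) : ℝ :=
  TT (aw p 0) u r + KK n * Real.log r + (320 * 2 ^ (n - 1) + 1)

lemma SS_mono (hu : Sol u) (hle : ∀ x, u x ≤ gp (x p)) : MonotoneOn (SS p u) (Set.Ioi 0) := by
  have h := mono_aff hu hle (0 : Fin n → ℝ)
  simp only [Pi.zero_apply, add_zero] at h
  intro a ha b hb hab
  have := h ha hb hab
  unfold SS
  simp only at this
  linarith

lemma TT_lower (hu : Sol u) (hle : ∀ x, u x ≤ gp (x p)) {r : ℝ} (hr : 0 < r) :
    -(320 * 2 ^ (n - 1)) ≤ TT (aw p 0) u r := by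
  have h1 := II_pp_le hu hle hr
  have h2 : 0 ≤ ∫ x, pp (x p) * (en u x * ph r x) := integral_nonneg fun x =>
    mul_nonneg (pp_nonneg _) (mul_nonneg (en_nonneg _ _) (ph_nonneg _ _))
  unfold TT
  rw [le_div_iff₀ (by positivity)]
  have : -(320 * 2 ^ (n - 1)) * r ^ (n - 1) = -(320 * (2 * r) ^ (n - 1)) := by
    rw [mul_pow]; ring
  rw [this]
  linarith

lemma SS_ge_one (hu : Sol u) (hle : ∀ x, u x ≤ gp (x p)) {r : ℝ} (hr : 1 ≤ r) :
    1 ≤ SS p u r := by
  have h1 := TT_lower hu hle (by linarith : 0 < r)
  have h2 := Real.log_nonneg hr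
  have h3 := mul_nonneg (KK_nonneg (n := n)) h2
  unfold SS
  linarith

/-- Height bound. -/
theorem height (p : Fin n) : ∃ C : ℝ, 1 ≤ C ∧ ∀ u : (Fin n → ℝ) → ℝ, Sol u →
    (∀ x, u x ≤ gp (x p)) → ∀ R : ℝ, 1 ≤ R → ∀ z ∈ box n R, |u z| ≤ 3 / 4 →
      z p ≤ C * SS p u (kap n * R) := by
  obtain ⟨c, hc, hcl⟩ := en_lower p
  set A : ℝ := 16 / 9 * kap n ^ (n - 1) with hA
  have hk := one_le_kap (n := n)
  have hA0 : 0 ≤ A := by positivity
  refine ⟨1 + (A + 1) / c, by have : 0 ≤ (A + 1) / c := by positivity
                              linarith, ?_⟩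
  intro u hu hle R hR z hz huz
  have hR0 : 0 < R := by linarith
  have hkR : 1 ≤ kap n * R := by nlinarith
  have hS1 := SS_ge_one hu hle hkR
  have hq : 0 ≤ (A + 1) / c := by positivity
  rcases lt_or_ge (z p) 1 with h1 | h1
  · nlinarith
  · have hv := hu.translate z
    have h2 := mono_aff hu hle z (Set.mem_Ioi.mpr one_pos) (Set.mem_Ioi.mpr hR0) hR
    simp only [Real.log_one, mul_zero, add_zero] at h2
    have h3 := TT_shift_le hu hle hR0 hz
    rw [← hA] at h3
    have h4 : (z p - 1) * c ≤ TT (aw p (z p)) (fun x => u (x + z)) 1 := by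
      unfold TT II
      rw [one_pow, div_one]
      have h5 := hcl _ hv (by simpa using huz)
      calc (z p - 1) * c ≤ (z p - 1) * ∫ x, en (fun x => u (x + z)) x * ph 1 x :=
            mul_le_mul_of_nonneg_left h5 (by linarith)
        _ = ∫ x, (z p - 1) * (en (fun x => u (x + z)) x * ph 1 x) := by
            rw [integral_const_mul]
        _ ≤ _ := by
            apply integral_mono (II_integrable hv continuous_const one_pos)
              (II_integrable hv (continuous_aw p _) one_pos)
            intro x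
            simp only [aw]
            by_cases hm : mm 1 x = 0
            · simp [ph, hm]
            · have h6 := abs_le.mp (abs_le_of_mm_ne one_pos hm p)
              exact mul_le_mul_of_nonneg_right (by linarith)
                (mul_nonneg (en_nonneg _ _) (ph_nonneg _ _))
    have h5 : (z p - 1) * c ≤ (A + 1) * SS p u (kap n * R) := by
      have h6 : TT (aw p 0) u (kap n * R) + 320 * 2 ^ (n - 1) ≤ SS p u (kap n * R) := by
        unfold SS
        have := mul_nonneg (KK_nonneg (n := n)) (Real.log_nonneg hkR)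
        linarith
      have h7 : KK n * Real.log R ≤ SS p u (kap n * R) := by
        unfold SS
        have h8 := TT_lower hu hle (by linarith : 0 < kap n * R)
        have h9 : Real.log R ≤ Real.log (kap n * R) := by
          apply Real.log_le_log hR0; nlinarith
        have := mul_le_mul_of_nonneg_left h9 (KK_nonneg (n := n))
        linarith
      have h8 := mul_le_mul_of_nonneg_left h6 hA0
      linarith
    have h6 : z p - 1 ≤ (A + 1) * SS p u (kap n * R) / c := by
      rw [le_div_iff₀ hc]; exact h5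
    have h7 : (A + 1) * SS p u (kap n * R) / c = (A + 1) / c * SS p u (kap n * R) := by ring
    rw [h7] at h6
    linarith

end Vale.Agent.P134.H891
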