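import Vale.Agent.P134.H891.Step2
import Vale.Agent.P134.H3.NPFinal
import Vale.Agent.P134.H787.P2

set_option linter.all false

/-! The improvement step for every solution with the sharp energy bound; Part 2 of M4'. -/

namespace Vale.Agent.P134.H891

open Vale.Agent.P134 Vale.Agent.P134.SM MeasureTheory Filter Topology
open Vale.Agent.P134.H787 (rot LI)
open Vale.Agent.P134.H370 (Flat gap J0 JJ TL TILT PA)

variable {n : ℕ} {p : Fin n}

lemma C20.mono {C C' : ℝ} (h : C20 n p C) (hC : C ≤ C') : C20 n p C' := by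
  intro u hu a R H hR hH ha hF
  obtain ⟨h1, h2⟩ := h u hu a R H hR hH ha hF
  constructor
  · exact h1.trans (by gcongr)
  · exact h2.trans (by gcongr)

lemma C20'.mono {C C' : ℝ} (h : C20' n p C) (hC : C ≤ C') : C20' n p C' := by
  intro u hu a R H hR hH ha hHR hF
  have h1 := h u hu a R H hR hH ha hHR hF
  have h2 := H370.J0_nonneg u p a R
  have h3 := Real.log_nonneg hR
  exact h1.trans (by gcongr)

lemma C21.mono {K C C' : ℝ} (h : C21 n p K C) (hC : C ≤ C') : C21 n p K C' := by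
  intro u hu a R hR
  have h1 := h u hu a R hR
  have h2 := H370.J0_nonneg u p a R
  have h3 := H370.JJ_nonneg u p a R
  exact h1.trans (by gcongr)

lemma C22.mono {C C' : ℝ} (h : C22 n p C) (hC : C ≤ C') : C22 n p C' := by
  intro u hu a R H hR hH ha hHR hF
  have h1 := h u hu a R H hR hH ha hHR hF
  have h2 := H370.TILT_nonneg u p R
  have h3 := H370.JJ_nonneg u p a R
  exact h1.trans (by gcongr)

lemma C23.mono {C C' : ℝ} (h : C23 n p C) (hC : C ≤ C') : C23 n p C' := by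
  intro u hu a R hR z hz huz
  have h1 := h u hu a R hR z hz huz
  have h2 := H370.PA_nonneg u p a (kap n * R)
  exact h1.trans (by gcongr)

lemma exists_C20 (hn : 1 ≤ n) (p : Fin n) : ∃ C : ℝ, C20 n p C := by
  refine ⟨max (2 ^ (n - 1) * (H370.DD n * (80 + 2 * n ^ 2))) (2 ^ (n - 1) * (H370.DD n * (24 + n))),
    fun u hu a R H hR hH ha hF => ⟨?_, ?_⟩⟩
  · refine (H370.JJ_le hn hu (by linarith) ha hH hF).trans ?_
    have := le_max_left (2 ^ (n - 1) * (H370.DD n * (80 + 2 * (n:ℝ) ^ 2)))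
      (2 ^ (n - 1) * (H370.DD n * (24 + n)))
    gcongr
  · refine (H370.J0_le hn hu (by linarith) hH hF).trans ?_
    have := le_max_right (2 ^ (n - 1) * (H370.DD n * (80 + 2 * (n:ℝ) ^ 2)))
      (2 ^ (n - 1) * (H370.DD n * (24 + n)))
    gcongr

lemma exists_C20' (hn : 1 ≤ n) (p : Fin n) : ∃ C : ℝ, C20' n p C := by
  refine ⟨max (2 ^ (n - 1) * (H370.DD n * (176 + 2 * n ^ 2))) 2,
    fun u hu a R H hR hH ha hHR hF => ?_⟩
  refine (H370.JJ_le_J0 hn hu hR ha hH hHR hF).trans ?_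
  have h0 := H370.J0_nonneg u p a R
  have h3 := Real.log_nonneg hR
  have h1 := le_max_left (2 ^ (n - 1) * (H370.DD n * (176 + 2 * (n:ℝ) ^ 2))) 2
  have h2 := le_max_right (2 ^ (n - 1) * (H370.DD n * (176 + 2 * (n:ℝ) ^ 2))) 2
  set M := max (2 ^ (n - 1) * (H370.DD n * (176 + 2 * (n:ℝ) ^ 2))) 2 with hM
  have h4 : H + 2 * Real.log R ≤ M * (1 + H + Real.log R) := by nlinarith
  have h5 : 0 ≤ R ^ (n - 1) := by positivity
  exact add_le_add (mul_le_mul_of_nonneg_right h4 h0) (mul_le_mul_of_nonneg_right h1 h5)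

lemma exists_C21 (p : Fin n) {K : ℝ} (hK : 0 ≤ K) : ∃ C : ℝ, C21 n p K C := by
  refine ⟨2 * K + 384 * 2 ^ (n - 1) + 8, fun u hu a R hR => ?_⟩
  refine (H370.tilt_le hu.1 p a (by linarith : 0 < R) (hu.2 R hR)).trans ?_
  have h0 := H370.J0_nonneg u p a R
  have h3 := H370.JJ_nonneg u p a R
  have hR2 : 0 < R ^ 2 := by positivity
  have hX : 0 ≤ R ^ (n - 1) := by positivity
  have h2 : (0:ℝ) ≤ 384 * 2 ^ (n - 1) := by positivity
  rw [one_div, ← div_eq_inv_mul, div_mul_eq_mul_div, div_le_div_iff_of_pos_right hR2]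
  have e1 : 0 ≤ |a| * J0 u p a R := by positivity
  have e2 : 0 ≤ a ^ 2 * R ^ (n - 1) := by positivity
  set A := R ^ (n - 1) with hA
  set B := a ^ 2 * A with hB
  set D := |a| * J0 u p a R with hD
  set Z := JJ u p a R with hZ
  set Q := (384:ℝ) * 2 ^ (n - 1) with hQ
  have f1 : (2 * K + Q * a ^ 2) * A + 8 * Z + 8 * |a| * J0 u p a R
      = 2 * K * A + Q * B + 8 * Z + 8 * D := by rw [hB, hD]; ring
  have f2 : (2 * K + Q + 8) * ((1 + a ^ 2) * A + Z + D)
      = (2 * K + Q + 8) * A + (2 * K + Q + 8) * B + (2 * K + Q + 8) * Z + (2 * K + Q + 8) * D := by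
    rw [hB]; ring
  rw [f1, f2]
  have g1 : 0 ≤ (Q + 8) * A := by positivity
  have g2 : 0 ≤ (2 * K + 8) * B := by positivity
  have g3 : 0 ≤ (2 * K + Q) * Z := by positivity
  have g4 : 0 ≤ (2 * K + Q) * D := by positivity
  linarith

lemma exists_C22 (hn : 1 ≤ n) (p : Fin n) : ∃ C : ℝ, C22 n p C :=
  ⟨H370.C22 n, fun u hu a R H hR hH ha hHR hF => H370.PA_le hn hu hR ha hH hHR hF⟩

lemma exists_C23 (p : Fin n) : ∃ C : ℝ, C23 n p C := by
  obtain ⟨C, -, hC⟩ := H370.height_ball (n := n) p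
  exact ⟨C, fun u hu a R hR z hz huz => hC u hu a R hR z hz huz⟩

/-- **The improvement step** for the class of solutions with the sharp energy bound. -/
theorem step (p : Fin 4) {K : ℝ} (hK : 0 ≤ K) : ∃ θ c1 C1 R1 : ℝ, 0 < θ ∧ θ < 1 ∧ 0 < c1 ∧
    ∀ v : (Fin 4 → ℝ) → ℝ, Cls 4 p K v → |v 0| ≤ 3 / 4 → ∀ R a H : ℝ, R1 ≤ R →
      C1 * Real.log R ≤ H → H ≤ c1 * R → |a| ≤ H → Flat v p a R H →
      ∃ (L : LI 4) (a' : ℝ), |a'| ≤ θ * H ∧
        Flat (fun x => v (rot L x)) p a' (θ * R) (θ * H) := by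
  obtain ⟨c0, h0⟩ := exists_C20 (n := 4) (by norm_num) p
  obtain ⟨c0', h0'⟩ := exists_C20' (n := 4) (by norm_num) p
  obtain ⟨c1, h1⟩ := exists_C21 (n := 4) p hK
  obtain ⟨c2, h2⟩ := exists_C22 (n := 4) (by norm_num) p
  obtain ⟨c3, h3⟩ := exists_C23 (n := 4) p
  obtain ⟨C5, hC5, hNP⟩ := H3.exists_NPlane (m := 3) (by norm_num)
  set C : ℝ := 1 + |c0| + |c0'| + |c1| + |c2| + |c3| with hC
  have a0 := abs_nonneg c0; have a0' := abs_nonneg c0'; have a1 := abs_nonneg c1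
  have a2 := abs_nonneg c2; have a3 := abs_nonneg c3
  have b0 := le_abs_self c0; have b0' := le_abs_self c0'; have b1 := le_abs_self c1
  have b2 := le_abs_self c2; have b3 := le_abs_self c3
  have hC1 : 1 ≤ C := by linarith
  have k0 := h0.mono (show c0 ≤ C by linarith)
  have k0' := h0'.mono (show c0' ≤ C by linarith)
  have k1 := h1.mono (show c1 ≤ C by linarith)
  have k2 := h2.mono (show c2 ≤ C by linarith)
  have k3 := h3.mono (show c3 ≤ C by linarith)
  obtain ⟨C3, hC3, hP⟩ := pass hC1 k0' k1 k2 k3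
  obtain ⟨Cb, hCb, hF⟩ := newframe hC1 hC5 k0 k1 hNP
  have e20 : kap 4 = 20 := by unfold kap; norm_num
  have hP' : PassP p K C3 := by
    intro u hu a r H j hr hH ha hHr hfl hj hJ hΛ H' hH' hfin
    exact hP u hu a r H j hr hH ha hHr (by rw [e20]; exact hfl) hj (by rw [e20]; exact hJ)
      (by rw [e20]; exact hΛ) H' hH' (by rw [e20]; exact hfin)
  exact step_core hC3 hCb hP' hF

theorem rot_trans (L L' : LI n) (x : Fin n → ℝ) : rot (L'.trans L) x = rot L (rot L' x) := by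
  rw [H787.rot_apply, H787.rot_apply, H787.toLp_rot]
  rfl

theorem STEP_of (u : (Fin 4 → ℝ) → ℝ) (hu : Sol u) (h0 : |u 0| ≤ 3 / 4) (hO : M4.OUT1 u) :
    H787.STEP u := by
  set K : ℝ := |H787.KB 3| with hK
  obtain ⟨θ, c1, C1, R1, hθ, hθ1, hc1, h⟩ := step 3 (abs_nonneg (H787.KB 3))
  have hcls : Cls 4 3 K u := by
    refine ⟨hu, fun R hR => ?_⟩
    have h1 := H787.PK_of_OUT1 hO R (by linarith)
    have h2 : H787.KB 3 / R ^ 2 ≤ K / R ^ 2 := by
      apply div_le_div_of_nonneg_right (le_abs_self _) (by positivity)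
    linarith
  refine ⟨θ, C1, c1, R1, hθ, hθ1, hc1, ?_⟩
  rintro R H hR hlog hHR ⟨L, a, ha, hF⟩
  obtain ⟨L', a', ha', hF'⟩ := h (fun x => u (rot L x)) (cls_rot hcls L)
    (by
      have : rot L 0 = 0 := map_zero _
      show |u (rot L 0)| ≤ 3 / 4
      rw [this]; exact h0) R a H hR hlog hHR ha hF
  refine ⟨L'.trans L, a', ha', ?_⟩
  intro x hx
  have := hF' x hx
  simp only [rot_trans]
  exact this

/-- **Part 2 of M4'**. -/
theorem stF : M4.StF := H787.part_two' fun u hu _ h0 _ hO => STEP_of u hu h0 hO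

end Vale.Agent.P134.H891
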