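import Vale.Agent.P134.H891.Excess

set_option linter.all false

open MeasureTheory Filter Topology

namespace Vale.Agent.P134.H891

variable {n : ℕ} {u v χ w : (Fin n → ℝ) → ℝ} {p q : Fin n}

/-- The (eventual) clean region property. -/
def Clean (u : (Fin n → ℝ) → ℝ) (p : Fin n) : Prop :=
  ∀ ε : ℝ, 0 < ε → ∀ᶠ R in atTop, ∃ L : ℝ, 0 ≤ L ∧ L ≤ ε * R ∧ Dec u p R L

/-- Upper bound for the scaled energy at every scale. -/
lemma Th_upper (h : Mix u p q) (hc : Clean u p) {R : ℝ} (hR : 0 < R) :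
    TT (fun _ => 1) u R ≤ TT (fun _ => 1) (GG p) R + K3 n * (R ^ 2)⁻¹ := by
  have hK := Kd_nonneg (n := n)
  apply le_of_forall_pos_le_add
  intro δ hδ
  set ε : ℝ := δ / (8 * 2 ^ (n - 1)) with hε
  have hε0 : 0 < ε := by positivity
  have h1 := hc ε hε0
  have h2 : ∀ᶠ R' : ℝ in atTop, 32 * Kd n * 2 ^ (n - 1) ≤ δ * R' :=
    (tendsto_id.const_mul_atTop hδ).eventually_ge_atTop _
  obtain ⟨R', ⟨L, hL0, hL1, hL2⟩, h3, h4, h5⟩ :=
    (h1.and (h2.and ((eventually_ge_atTop R).and (eventually_gt_atTop 0)))).exists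
  have h6 := Th_mono h.sol p (Set.mem_Ioi.mpr hR) (Set.mem_Ioi.mpr h5) h4
  have h7 := TT_up h h5 hL0 hL2
  have h8 := GG_almost h (Set.mem_Ioi.mpr hR) (Set.mem_Ioi.mpr h5) h4
  simp only at h8
  have h9 : 0 ≤ K3 n * (R' ^ 2)⁻¹ := mul_nonneg K3_nonneg (by positivity)
  have h10 : 4 / R' * ((4 * Kd n + L) * 2 ^ (n - 1)) ≤ δ := by
    rw [div_mul_eq_mul_div, div_le_iff₀ h5]
    have h11 : 4 * (ε * R' * 2 ^ (n - 1)) = δ / 2 * R' := by
      rw [hε]; field_simp; ring
    have h12 : L * 2 ^ (n - 1) ≤ ε * R' * 2 ^ (n - 1) :=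
      mul_le_mul_of_nonneg_right hL1 (by positivity)
    have h13 : 4 * ((4 * Kd n + L) * 2 ^ (n - 1)) = 16 * Kd n * 2 ^ (n - 1) + 4 * (L * 2 ^ (n - 1)) := by
      ring
    rw [h13]
    linarith
  linarith

/-- The excess constant. -/
noncomputable def Cex (n : ℕ) : ℝ := K3 n + (16 * Kd n + 4) * 2 ^ (n - 1)

lemma Cex_nonneg : 0 ≤ Cex n := by
  unfold Cex
  have := K3_nonneg (n := n)
  have := Kd_nonneg (n := n)
  positivity

/-- Excess decay. -/
lemma excess (h : Mix u p q) (hc : Clean u p) {R L : ℝ} (hR : 0 < R) (hL : 0 ≤ L)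
    (hd : Dec u p R L) :
    1 / 2 * (EX u p R / R ^ (n - 1)) + (TT (fun _ => 1) u (2 * R) - TT (fun _ => 1) u R)
      ≤ Cex n * (1 + L ^ 2) / R ^ 2 := by
  have h1 := Th_upper h hc (by linarith : 0 < 2 * R)
  have h2 := GG_almost h (Set.mem_Ioi.mpr hR) (Set.mem_Ioi.mpr (by linarith : 0 < 2 * R))
    (by linarith)
  simp only at h2
  have h3 := TT_low h hR hL hd
  have hK3 := K3_nonneg (n := n)
  have hKd := Kd_nonneg (n := n)
  have h4 : K3 n * (R ^ 2)⁻¹ + 4 / R ^ 2 * ((4 * Kd n + L * L) * 2 ^ (n - 1))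
      ≤ Cex n * (1 + L ^ 2) / R ^ 2 := by
    have e : K3 n * (R ^ 2)⁻¹ + 4 / R ^ 2 * ((4 * Kd n + L * L) * 2 ^ (n - 1))
        = (K3 n + 4 * ((4 * Kd n + L * L) * 2 ^ (n - 1))) / R ^ 2 := by
      field_simp
    rw [e]
    apply div_le_div_of_nonneg_right _ (by positivity)
    unfold Cex
    have h5 : 0 ≤ L ^ 2 := sq_nonneg L
    have h6 : (0:ℝ) < 2 ^ (n - 1) := by positivity
    have h7 : 0 ≤ K3 n * L ^ 2 := mul_nonneg hK3 h5
    have h8 : 0 ≤ 16 * Kd n * 2 ^ (n - 1) * L ^ 2 := by positivity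
    nlinarith
  linarith

lemma EX_nonneg (u : (Fin n → ℝ) → ℝ) (p : Fin n) (R : ℝ) : 0 ≤ EX u p R := by
  unfold EX
  exact integral_nonneg fun x => mul_nonneg (Finset.sum_nonneg fun _ _ => sq_nonneg _)
    (ph_nonneg _ _)

/-- Growth of the weighted energy. -/
lemma T_growth (h : Mix u p q) {R L : ℝ} (hR : 0 < R) (hL : 0 ≤ L) (hd : Dec u p (2 * R) L) :
    TT (aw p 0) u (2 * R) ≤ TT (aw p 0) u R
      + L * (TT (fun _ => 1) u (2 * R) - TT (fun _ => 1) u R) + 4 * Kd n * 2 ^ (n - 1) := by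
  have hu := h.sol
  have hK := Kd_nonneg (n := n)
  set K4 : ℝ := 4 * Kd n * 2 ^ (n - 1) with hK4
  have hK40 : 0 ≤ K4 := by positivity
  have hder : ∀ r, 0 < r → HasDerivAt
      (fun r => TT (aw p 0) u r - L * TT (fun _ => 1) u r - K4 * Real.log r)
      (QQ (aw p 0) u r / r ^ n - L * (QQ (fun _ => 1) u r / r ^ n) - K4 * r⁻¹) r := fun r hr =>
    ((hasDerivAt_TT_aff hu p 0 hr).sub ((hasDerivAt_TT_one hu p hr).const_mul L)).sub
      ((Real.hasDerivAt_log hr.ne').const_mul _)
  have hanti : AntitoneOn (fun r => TT (aw p 0) u r - L * TT (fun _ => 1) u r - K4 * Real.log r)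
      (Set.Icc R (2 * R)) := by
    apply antitoneOn_of_deriv_nonpos (convex_Icc R (2 * R))
    · intro r hr
      exact (hder r (lt_of_lt_of_le hR hr.1)).continuousAt.continuousWithinAt
    · intro r hr
      rw [interior_Icc] at hr
      exact (hder r (hR.trans hr.1)).differentiableAt.differentiableWithinAt
    · intro r hr
      rw [interior_Icc] at hr
      have hr0 : 0 < r := hR.trans hr.1
      rw [(hder r hr0).deriv]
      have i1 := QQ_integrable hu (continuous_aw p 0) hr0
      have i2 := QQ_integrable hu (continuous_const (y := (1:ℝ))) hr0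
      have h1 := slab (p := p) (F := fun x => aw p 0 x * PP u r x - L * (1 * PP u r x))
        (K := Kd n) (a := 0) (M := 0) (L := 0) hK le_rfl le_rfl hr0.le
        (i1.sub (i2.const_mul L))
        (by
          intro x hx
          rw [PP_eq_zero (mm_eq_zero_of_notMem hr0 le_rfl hx)]; simp)
        (by
          intro x hx
          refine le_trans ?_ (maj_ge_left le_rfl)
          simp only [aw, add_zero, one_mul, sub_zero]
          have h2 := PP_nonneg hu (r := r) x
          have hpos : 0 ≤ Kd n / (1 + x p ^ 2) := by positivity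
          rcases le_or_gt (x p) L with hxL | hxL
          · nlinarith
          · have hx0 : 0 ≤ x p := hL.trans hxL.le
            have hx2 : x ∈ box n (2 * R) := by
              rw [mem_box] at hx ⊢
              exact fun i => (hx i).trans hr.2.le
            have h3 := PP_le hu hr0 x
            have h4 := one_sub_sq_le hu hL hd hx2 hxL
            have h5 := abs_le.mp (hu.bd x)
            have h6 : psi u x ^ 2 ≤ 4 * (1 - u x) ^ 2 := by
              have h7 : psi u x ≤ 2 * (1 - u x) := by unfold psi; nlinarith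
              calc psi u x ^ 2 ≤ (2 * (1 - u x)) ^ 2 := pow_le_pow_left₀ (hu.psi_nonneg x) h7 2
                _ = _ := by ring
            have h8 := mul_exp_neg_le hx0
            have h9 : x p * PP u r x ≤ x p * (3 * (4 * (4 * n ^ 2 * Real.exp (-(x p))))) :=
              mul_le_mul_of_nonneg_left (by linarith) hx0
            have h10 : x p * (3 * (4 * (4 * (n:ℝ) ^ 2 * Real.exp (-(x p)))))
                = 48 * n ^ 2 * (x p * Real.exp (-(x p))) := by ring
            have h11 : 48 * (n:ℝ) ^ 2 * (x p * Real.exp (-(x p)))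
                ≤ 48 * n ^ 2 * (10 / (1 + x p ^ 2)) :=
              mul_le_mul_of_nonneg_left h8 (by positivity)
            have h12 : 48 * (n:ℝ) ^ 2 * (10 / (1 + x p ^ 2)) ≤ Kd n / (1 + x p ^ 2) := by
              rw [← mul_div_assoc]
              apply div_le_div_of_nonneg_right _ (by positivity)
              unfold Kd; nlinarith [sq_nonneg (n:ℝ)]
            have h13 : 0 ≤ L * PP u r x := mul_nonneg hL h2
            linarith)
      have e1 : ∫ x, (aw p 0 x * PP u r x - L * (1 * PP u r x))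
          = QQ (aw p 0) u r - L * QQ (fun _ => 1) u r := by
        unfold QQ
        rw [← integral_const_mul]
        exact integral_sub i1 (i2.const_mul L)
      rw [e1] at h1
      have h2 : K4 * r⁻¹ = (4 * Kd n + 0 * 0) * (2 * r) ^ (n - 1) / r ^ n := by
        rw [hK4]
        obtain ⟨m, rfl⟩ : ∃ m, n = m + 1 := ⟨n - 1, by have := p.2; omega⟩
        simp only [Nat.add_sub_cancel, mul_pow, pow_succ]
        field_simp
        try ring
      rw [h2, ← mul_div_assoc, ← sub_div, ← sub_div]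
      apply div_nonpos_of_nonpos_of_nonneg _ (by positivity)
      linarith
  have h1 := hanti (Set.left_mem_Icc.mpr (by linarith)) (Set.right_mem_Icc.mpr (by linarith))
    (by linarith : R ≤ 2 * R)
  simp only at h1
  have h2 : Real.log (2 * R) = Real.log 2 + Real.log R := Real.log_mul (by norm_num) hR.ne'
  have h3 : Real.log 2 ≤ 1 := by
    have := Real.log_le_sub_one_of_pos (show (0:ℝ) < 2 by norm_num)
    linarith
  rw [h2] at h1
  have h4 : K4 * Real.log 2 ≤ K4 * 1 := mul_le_mul_of_nonneg_left h3 hK40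
  linarith

/-- The main recursive inequality for the height functional. -/
lemma SS_growth (h : Mix u p q) (hc : Clean u p) {R L L' : ℝ} (hR : 0 < R) (hL : 0 ≤ L)
    (hL' : 0 ≤ L') (hd : Dec u p R L) (hd' : Dec u p (2 * R) L') :
    SS p u (2 * R) ≤ SS p u R + L' * (Cex n * (1 + L ^ 2) / R ^ 2)
      + (4 * Kd n * 2 ^ (n - 1) + KK n) := by
  have h1 := T_growth h hR hL' hd'
  have h2 := excess h hc hR hL hd
  have h3 := EX_nonneg u p R
  have h4 : 0 ≤ 1 / 2 * (EX u p R / R ^ (n - 1)) := by positivity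
  have h5 : L' * (TT (fun _ => 1) u (2 * R) - TT (fun _ => 1) u R)
      ≤ L' * (Cex n * (1 + L ^ 2) / R ^ 2) := mul_le_mul_of_nonneg_left (by linarith) hL'
  have h6 : Real.log (2 * R) = Real.log 2 + Real.log R := Real.log_mul (by norm_num) hR.ne'
  have h7 : Real.log 2 ≤ 1 := by
    have := Real.log_le_sub_one_of_pos (show (0:ℝ) < 2 by norm_num)
    linarith
  have h8 : KK n * Real.log 2 ≤ KK n * 1 := mul_le_mul_of_nonneg_left h7 KK_nonneg
  unfold SS
  rw [h6]
  linarith

end Vale.Agent.P134.H891
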