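import Mathlib.Analysis.SpecialFunctions.Trigonometric.DerivHyp
import Vale.Agent.P134.H891.Growth

set_option linter.all false

open MeasureTheory Filter Topology

namespace Vale.Agent.P134.H891

variable {n : ℕ} {u v χ w : (Fin n → ℝ) → ℝ} {p q : Fin n}

/-- The barrier. -/
noncomputable def bar (ρ : ℝ) (x : Fin n → ℝ) : ℝ := (∑ i, Real.cosh (x i)) * (Real.cosh ρ)⁻¹

lemma bar_contDiff (ρ : ℝ) : ContDiff ℝ 2 (bar ρ : (Fin n → ℝ) → ℝ) := by
  unfold bar
  refine ContDiff.mul (ContDiff.sum fun i _ => ?_) contDiff_const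
  exact Real.contDiff_cosh.comp (contDiff_apply ℝ ℝ i)

lemma pd_cosh_coord (i j : Fin n) (x : Fin n → ℝ) :
    pd i (fun y : Fin n → ℝ => Real.cosh (y j)) x = if j = i then Real.sinh (x i) else 0 := by
  have h1 : DifferentiableAt ℝ (fun y : Fin n → ℝ => y j) x := by fun_prop
  rw [pd_comp (h := Real.cosh) (Real.differentiable_cosh _) h1, Real.deriv_cosh, pd_coord]
  by_cases h : j = i
  · subst h; simp
  · simp [h]

lemma pd_sinh_coord (i : Fin n) (x : Fin n → ℝ) :
    pd i (fun y : Fin n → ℝ => Real.sinh (y i)) x = Real.cosh (x i) := by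
  have h1 : DifferentiableAt ℝ (fun y : Fin n → ℝ => y i) x := by fun_prop
  rw [pd_comp (h := Real.sinh) (Real.differentiable_sinh _) h1, Real.deriv_sinh, pd_coord]
  simp

lemma pd_bar (ρ : ℝ) (i : Fin n) : pd i (bar ρ) = fun x : Fin n → ℝ => Real.sinh (x i) * (Real.cosh ρ)⁻¹ := by
  ext x
  have d1 : ∀ j : Fin n, DifferentiableAt ℝ (fun y : Fin n → ℝ => Real.cosh (y j)) x := fun j =>
    (Real.differentiable_cosh _).comp x (by fun_prop : DifferentiableAt ℝ (fun y : Fin n → ℝ => y j) x)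
  have d2 : DifferentiableAt ℝ (fun y : Fin n → ℝ => ∑ j, Real.cosh (y j)) x :=
    DifferentiableAt.fun_sum fun j _ => d1 j
  show pd i (fun y : Fin n → ℝ => (∑ j, Real.cosh (y j)) * (Real.cosh ρ)⁻¹) x = _
  rw [pd_mul d2 (differentiableAt_const _), pd_const,
    pd_sum Finset.univ (F := fun j (y : Fin n → ℝ) => Real.cosh (y j)) (fun k _ => d1 k)]
  simp_rw [pd_cosh_coord]
  simp
  ring

lemma pd_pd_bar (ρ : ℝ) (i : Fin n) (x : Fin n → ℝ) :
    pd i (pd i (bar ρ)) x = Real.cosh (x i) * (Real.cosh ρ)⁻¹ := by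
  rw [pd_bar]
  have d1 : DifferentiableAt ℝ (fun y : Fin n → ℝ => Real.sinh (y i)) x :=
    (Real.differentiable_sinh _).comp x (by fun_prop : DifferentiableAt ℝ (fun y : Fin n → ℝ => y i) x)
  rw [pd_mul d1 (differentiableAt_const _), pd_const, pd_sinh_coord]
  ring

lemma bar_ge_one {ρ : ℝ} (hρ : 0 ≤ ρ) {x : Fin n → ℝ} {i : Fin n} (hi : ρ ≤ |x i|) :
    1 ≤ bar ρ x := by
  unfold bar
  rw [← div_eq_mul_inv, le_div_iff₀ (Real.cosh_pos _), one_mul]
  have h1 : Real.cosh ρ ≤ Real.cosh (x i) := by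
    rw [Real.cosh_le_cosh, abs_of_nonneg hρ]; exact hi
  exact h1.trans (Finset.single_le_sum (f := fun i => Real.cosh (x i))
    (fun j _ => (Real.cosh_pos _).le) (Finset.mem_univ i))

/-- Exponential decay at the centre of a clean cube. -/
lemma decay_center (hu : Sol u) {ρ : ℝ} (hρ : 0 ≤ ρ) (h : ∀ x ∈ box n ρ, 3 / 4 ≤ u x) :
    1 - u 0 ≤ 2 * n * Real.exp (-ρ) := by
  set f : (Fin n → ℝ) → ℝ := fun x => (1 - u x) - bar ρ x with hf
  have hfc : ContDiff ℝ 2 f := (contDiff_const.sub hu.c2).sub (bar_contDiff ρ)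
  have hne : (box n ρ).Nonempty := ⟨0, by rw [mem_box]; intro i; simpa using hρ⟩
  obtain ⟨x0, hx0, hmax⟩ := (isCompact_box ρ).exists_isMaxOn hne hfc.continuous.continuousOn
  have h0 : (0 : Fin n → ℝ) ∈ box n ρ := by rw [mem_box]; intro i; simpa using hρ
  have hle : f x0 ≤ 0 := by
    by_contra hcon
    push Not at hcon
    have hx0' := mem_box.mp hx0
    have hu0 := h x0 hx0
    have hb := abs_le.mp (hu.bd x0)
    by_cases hbd : ∃ i, ρ ≤ |x0 i|
    · obtain ⟨i, hi⟩ := hbd
      have h1 := bar_ge_one hρ hi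
      simp only [hf] at hcon
      linarith
    · push Not at hbd
      have hnhds : box n ρ ∈ 𝓝 x0 := by
        have hopen : IsOpen {x : Fin n → ℝ | ∀ i, |x i| < ρ} := by
          simp only [Set.setOf_forall]
          exact isOpen_iInter_of_finite fun i => isOpen_lt (continuous_apply i).abs continuous_const
        refine Filter.mem_of_superset (hopen.mem_nhds hbd) ?_
        intro x hx
        exact mem_box.mpr fun i => (hx i).le
      have hloc : IsLocalMax f x0 := hmax.isLocalMax hnhds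
      have h2 : ∑ i, pd i (pd i f) x0 ≤ 0 := Finset.sum_nonpos fun i _ =>
        pd2_nonpos_of_isLocalMax hfc hloc i
      have h3 : ∀ i, pd i (pd i f) x0 = -pd i (pd i u) x0 - Real.cosh (x0 i) * (Real.cosh ρ)⁻¹ := by
        intro i
        have d1 : Differentiable ℝ u := hu.c2.differentiable (by norm_num)
        have d2 : Differentiable ℝ (bar ρ : (Fin n → ℝ) → ℝ) :=
          (bar_contDiff ρ).differentiable (by norm_num)
        have e1 : pd i f = fun x => (0 - pd i u x) - pd i (bar ρ) x := by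
          ext x
          show pd i (fun x => (1 - u x) - bar ρ x) x = _
          rw [pd_sub (f := fun x => 1 - u x) (g := bar ρ) ((differentiableAt_const (1:ℝ)).sub (d1 x)) (d2 x),
            pd_sub (differentiableAt_const _) (d1 x), pd_const]
        have d3 : DifferentiableAt ℝ (pd i u) x0 := (contDiff_pd_one hu.c2).differentiable (by norm_num) x0
        have d4 : DifferentiableAt ℝ (pd i (bar ρ)) x0 :=
          (contDiff_pd_one (bar_contDiff ρ)).differentiable (by norm_num) x0
        rw [e1]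
        have e2 := pd_sub (i := i) (x := x0) (f := fun x => 0 - pd i u x) (g := pd i (bar ρ))
          ((differentiableAt_const (0:ℝ)).sub d3) d4
        rw [e2, pd_sub (differentiableAt_const _) d3, pd_const, pd_pd_bar]
        ring
      simp_rw [h3] at h2
      rw [Finset.sum_sub_distrib, Finset.sum_neg_distrib, hu.eq, ← Finset.sum_mul] at h2
      have h4 : f x0 = (1 - u x0) - (∑ i, Real.cosh (x0 i)) * (Real.cosh ρ)⁻¹ := rfl
      rw [h4] at hcon
      have h5 : 1 - u x0 ≤ u x0 - u x0 ^ 3 := by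
        have : u x0 - u x0 ^ 3 = (1 - u x0) * (u x0 * (1 + u x0)) := by ring
        rw [this]
        have h6 : 1 ≤ u x0 * (1 + u x0) := by nlinarith
        nlinarith
      linarith
  have h1 : f 0 ≤ 0 := (hmax h0).trans hle
  have h2 : bar ρ (0 : Fin n → ℝ) = n * (Real.cosh ρ)⁻¹ := by
    unfold bar; simp
  have h3 : (1 - u 0) - bar ρ (0 : Fin n → ℝ) ≤ 0 := h1
  rw [h2] at h3
  have h4 : (Real.cosh ρ)⁻¹ ≤ 2 * Real.exp (-ρ) := by
    rw [inv_le_comm₀ (Real.cosh_pos _) (by positivity), Real.exp_neg, mul_inv, inv_inv,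
      Real.cosh_eq]
    have := Real.exp_pos (-ρ)
    linarith
  have h5 : (n:ℝ) * (Real.cosh ρ)⁻¹ ≤ n * (2 * Real.exp (-ρ)) :=
    mul_le_mul_of_nonneg_left h4 (Nat.cast_nonneg n)
  linarith

lemma decay (hu : Sol u) {ρ : ℝ} (hρ : 0 ≤ ρ) (z : Fin n → ℝ)
    (h : ∀ x, (∀ i, |x i - z i| ≤ ρ) → 3 / 4 ≤ u x) : 1 - u z ≤ 2 * n * Real.exp (-ρ) := by
  have := decay_center (hu.translate z) hρ (by
    intro x hx
    apply h
    intro i
    simpa using (mem_box.mp hx) i)
  simpa using this

/-- Positive values above height `ℓ` in the big box give decay in the small one. -/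
lemma Dec_of_pos (hu : Sol u) {R ℓ : ℝ} (hR : 0 ≤ R) (hℓ : 0 ≤ ℓ)
    (h : ∀ x ∈ box n (2 * R), ℓ < x p → 3 / 4 ≤ u x) : Dec u p R (2 * ℓ) := by
  intro z hz hzp
  have hz' := mem_box.mp hz
  have hzR := (abs_le.mp (hz' p)).2
  have := decay hu (ρ := z p / 2) (by linarith) z (by
    intro x hx
    apply h
    · rw [mem_box]
      intro i
      have h1 := hx i
      have h2 := hz' i
      calc |x i| = |(x i - z i) + z i| := by ring_nf
        _ ≤ |x i - z i| + |z i| := abs_add_le _ _
        _ ≤ 2 * R := by linarith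
    · have h1 := abs_le.mp (hx p)
      linarith)
  exact this

/-- Constant sign on the clean region. -/
lemma sign_dichotomy (hu : Sol u) {R ℓ : ℝ} (h : ∀ z ∈ box n R, |u z| ≤ 3 / 4 → z p ≤ ℓ) :
    (∀ x ∈ box n R, ℓ < x p → 3 / 4 ≤ u x) ∨ (∀ x ∈ box n R, ℓ < x p → u x ≤ -(3 / 4)) := by
  set A : Set (Fin n → ℝ) := box n R ∩ {x | ℓ < x p} with hA
  have hconv : Convex ℝ A := by
    apply (convex_Icc _ _).inter
    intro x hx y hy a b ha hb hab
    simp only [Set.mem_setOf_eq, Pi.add_apply, Pi.smul_apply, smul_eq_mul] at *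
    rcases ha.eq_or_lt with h0 | h0
    · subst h0
      have : b = 1 := by linarith
      subst this; linarith
    · have e1 := mul_lt_mul_of_pos_left hx h0
      have e2 := mul_le_mul_of_nonneg_left hy.le hb
      have e3 : ℓ = a * ℓ + b * ℓ := by rw [← add_mul, hab, one_mul]
      linarith
  have hpre : IsPreconnected A := hconv.isPreconnected
  have hgt : ∀ x ∈ A, 3 / 4 < |u x| := by
    intro x hx
    by_contra hcon
    push Not at hcon
    have := h x hx.1 hcon
    have h2 : ℓ < x p := hx.2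
    linarith
  by_cases hex : ∃ a ∈ A, 0 < u a
  · left
    obtain ⟨a, ha, hua⟩ := hex
    intro x hx hxp
    have hxA : x ∈ A := ⟨hx, hxp⟩
    by_contra hcon
    push Not at hcon
    have h1 := hgt x hxA
    have h2 : u x < 0 := by
      by_contra h3
      push Not at h3
      rw [abs_of_nonneg h3] at h1
      linarith
    obtain ⟨b, hb, hb0⟩ := hpre.intermediate_value hxA ha hu.c2.continuous.continuousOn
      (Set.mem_Icc.mpr ⟨h2.le, hua.le⟩)
    have h4 := hgt b hb
    rw [hb0] at h4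
    norm_num at h4
  · right
    push Not at hex
    intro x hx hxp
    have hxA : x ∈ A := ⟨hx, hxp⟩
    have h1 := hgt x hxA
    have h2 := hex x hxA
    rw [abs_of_nonpos h2] at h1
    linarith

end Vale.Agent.P134.H891
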