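import Vale.Agent.P134.H370.Basic
import Vale.Agent.P134.H787.Rot

set_option linter.all false

/-! Flatness with respect to a plane, in coordinate and vector form; improvement of the height from
bounds on the interface; change of plane. -/

namespace Vale.Agent.P134.H891

open Vale.Agent.P134 Vale.Agent.P134.SM MeasureTheory Filter Topology
open Vale.Agent.P134.H787 (rot LI)
open Vale.Agent.P134.H370 (Flat)

variable {n : ℕ} {u v : (Fin n → ℝ) → ℝ} {p q : Fin n} {a R H H' : ℝ}

/-- The same with respect to the plane `e·x = a`. -/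
def FlatE (u : (Fin n → ℝ) → ℝ) (e : Fin n → ℝ) (a R H : ℝ) : Prop :=
  ∀ x : Fin n → ℝ, esq x ≤ R ^ 2 → (H < ∑ i, e i * x i - a → 3 / 4 ≤ u x) ∧
    (∑ i, e i * x i - a < -H → u x ≤ -(3 / 4))

lemma flat_mono {R' : ℝ} (h : Flat u p a R H) (h0 : 0 ≤ R') (hR : R' ≤ R) (hH : H ≤ H') :
    Flat u p a R' H' := by
  intro x hx
  have hx' : esq x ≤ R ^ 2 := hx.trans (by gcongr)
  exact ⟨fun h1 => (h x hx').1 (by linarith), fun h1 => (h x hx').2 (by linarith)⟩

lemma flatE_mono {e : Fin n → ℝ} {R' : ℝ} (h : FlatE u e a R H) (h0 : 0 ≤ R') (hR : R' ≤ R)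
    (hH : H ≤ H') : FlatE u e a R' H' := by
  intro x hx
  have hx' : esq x ≤ R ^ 2 := hx.trans (by gcongr)
  exact ⟨fun h1 => (h x hx').1 (by linarith), fun h1 => (h x hx').2 (by linarith)⟩

lemma esq_rot (L : LI n) (x : Fin n → ℝ) : esq (rot L x) = esq x := by
  have := H787.rot_sq L x
  simpa only [esq] using this

lemma rot_single_dot (L : LI n) (p : Fin n) (x : Fin n → ℝ) :
    ∑ i, rot L (Pi.single p 1) i * rot L x i = x p := by
  rw [H787.rot_dot]
  simp [Pi.single_apply]

lemma flat_rot (L : LI n) : Flat (fun x => u (rot L x)) p a R H ↔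
    FlatE u (rot L (Pi.single p 1)) a R H := by
  constructor
  · intro h x hx
    have e1 : rot L (rot L.symm x) = x := H787.rot_rot_symm L x
    have h1 := h (rot L.symm x) (by rw [esq_rot]; exact hx)
    simp only [e1] at h1
    have h2 := rot_single_dot L p (rot L.symm x)
    rw [e1] at h2
    rw [← h2] at h1
    exact h1
  · intro h x hx
    have h1 := h (rot L x) (by rw [esq_rot]; exact hx)
    rw [rot_single_dot] at h1
    exact h1

lemma esq_nonneg (x : Fin n → ℝ) : 0 ≤ esq x := Finset.sum_nonneg fun i _ => sq_nonneg _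

lemma esq_conv {x y : Fin n → ℝ} {t R : ℝ} (h0 : 0 ≤ t) (h1 : t ≤ 1) (hx : esq x ≤ R ^ 2)
    (hy : esq y ≤ R ^ 2) : esq ((1 - t) • x + t • y) ≤ R ^ 2 := by
  have : esq ((1 - t) • x + t • y) ≤ (1 - t) * esq x + t * esq y := by
    unfold esq
    rw [Finset.mul_sum, Finset.mul_sum, ← Finset.sum_add_distrib]
    refine Finset.sum_le_sum fun i _ => ?_
    simp only [Pi.add_apply, Pi.smul_apply, smul_eq_mul]
    nlinarith [mul_nonneg (mul_nonneg h0 (by linarith : 0 ≤ 1 - t)) (sq_nonneg (x i - y i))]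
  nlinarith

lemma esq_single (p : Fin n) (c : ℝ) : esq (Pi.single p c) = c ^ 2 := by
  unfold esq
  rw [Finset.sum_eq_single p]
  · simp
  · intro i _ hi; simp [Pi.single_apply, hi]
  · simp

lemma abs_coord_le {x : Fin n → ℝ} {R : ℝ} (hR : 0 ≤ R) (hx : esq x ≤ R ^ 2) (i : Fin n) :
    |x i| ≤ R := by
  have h1 : x i ^ 2 ≤ esq x := sq_le_esq x i
  exact abs_le_of_sq_le_sq (h1.trans hx) hR |>.trans le_rfl |> fun h => h

/-- Improvement of the height from a bound on the interface. -/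
lemma flat_improve (hu : Continuous u) (hR : 0 ≤ R) (hF : Flat u p a R H) (hH : H + |a| < R)
    (h : ∀ z : Fin n → ℝ, esq z ≤ R ^ 2 → |u z| ≤ 3 / 4 → |z p - a| ≤ H') : Flat u p a R H' := by
  have ha := abs_le.mp (le_refl |a|)
  have seg : ∀ (x y : Fin n → ℝ), Continuous (fun t : ℝ => u ((1 - t) • x + t • y)) := by
    intro x y
    exact hu.comp (by fun_prop)
  intro x hx
  have hxp := abs_le.mp (abs_coord_le hR hx p)
  constructor
  · intro h1
    by_contra hcon
    push Not at hcon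
    set y : Fin n → ℝ := Pi.single p R with hy
    have hy2 : esq y ≤ R ^ 2 := (esq_single p R).le
    have hyp : y p = R := by simp [hy]
    have hyv : 3 / 4 ≤ u y := (hF y hy2).1 (by rw [hyp]; linarith)
    obtain ⟨t, ht, hut⟩ := intermediate_value_Icc (zero_le_one) (seg x y).continuousOn
      (show (3 / 4 : ℝ) ∈ Set.Icc (u ((1 - (0:ℝ)) • x + (0:ℝ) • y)) (u ((1 - (1:ℝ)) • x + (1:ℝ) • y)) by
        simp only [sub_zero, one_smul, zero_smul, add_zero, sub_self, zero_add]
        exact ⟨hcon.le, hyv⟩)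
    simp only at hut
    have h2 := h _ (esq_conv ht.1 ht.2 hx hy2) (by rw [hut]; norm_num)
    have h3 : ((1 - t) • x + t • y) p = (1 - t) * x p + t * R := by
      simp [hyp]
    rw [h3] at h2
    have h4 := (abs_le.mp h2).2
    nlinarith [ht.1, ht.2]
  · intro h1
    by_contra hcon
    push Not at hcon
    set y : Fin n → ℝ := Pi.single p (-R) with hy
    have hy2 : esq y ≤ R ^ 2 := by rw [hy, esq_single]; nlinarith
    have hyp : y p = -R := by simp [hy]
    have hyv : u y ≤ -(3 / 4) := (hF y hy2).2 (by rw [hyp]; linarith)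
    obtain ⟨t, ht, hut⟩ := intermediate_value_Icc' (zero_le_one) (seg x y).continuousOn
      (show (-(3 / 4) : ℝ) ∈ Set.Icc (u ((1 - (1:ℝ)) • x + (1:ℝ) • y)) (u ((1 - (0:ℝ)) • x + (0:ℝ) • y)) by
        simp only [sub_zero, one_smul, zero_smul, add_zero, sub_self, zero_add]
        exact ⟨hyv, hcon.le⟩)
    simp only at hut
    have h2 := h _ (esq_conv ht.1 ht.2 hx hy2) (by rw [hut]; norm_num)
    have h3 : ((1 - t) • x + t • y) p = (1 - t) * x p + t * (-R) := by
      simp [hyp]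
    rw [h3] at h2
    have h4 := (abs_le.mp h2).1
    nlinarith [ht.1, ht.2]

/-- At the centre: the offset is at most the height. -/
lemma flat_abs_le (hR : 0 ≤ R) (hF : Flat u p a R H) (h0 : |u 0| < 3 / 4) : |a| ≤ H := by
  have h := hF 0 (by simp [esq]; positivity)
  simp only [Pi.zero_apply, zero_sub] at h
  have h0' := abs_lt.mp h0
  rw [abs_le]
  constructor
  · by_contra hc
    push Not at hc
    have := h.1 (by linarith)
    linarith
  · by_contra hc
    push Not at hc
    have := h.2 (by linarith)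
    linarith

/-- Cauchy–Schwarz. -/
lemma dot_le {e x : Fin n → ℝ} {δ R : ℝ} (hδ : 0 ≤ δ) (hR : 0 ≤ R) (he : ∑ i, e i ^ 2 ≤ δ ^ 2)
    (hx : esq x ≤ R ^ 2) : |∑ i, e i * x i| ≤ δ * R := by
  have h := Finset.sum_mul_sq_le_sq_mul_sq Finset.univ e x
  have h2 : (∑ i, e i * x i) ^ 2 ≤ (δ * R) ^ 2 := by
    refine h.trans ?_
    rw [mul_pow]
    exact mul_le_mul he hx (esq_nonneg x) (sq_nonneg _)
  exact abs_le_of_sq_le_sq h2 (by positivity)

lemma flatE_change {e e' : Fin n → ℝ} {a' δ : ℝ} (h : FlatE u e a R H) (hR : 0 ≤ R) (hδ : 0 ≤ δ)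
    (he : ∑ i, (e' i - e i) ^ 2 ≤ δ ^ 2) (hH : H + |a' - a| + δ * R ≤ H') :
    FlatE u e' a' R H' := by
  intro x hx
  have h1 := dot_le (e := fun i => e' i - e i) hδ hR he hx
  have h2 : ∑ i, (e' i - e i) * x i = ∑ i, e' i * x i - ∑ i, e i * x i := by
    rw [← Finset.sum_sub_distrib]; exact Finset.sum_congr rfl fun i _ => by ring
  rw [h2] at h1
  have h3 := abs_le.mp h1
  have h4 := abs_le.mp (le_refl |a' - a|)
  exact ⟨fun h5 => (h x hx).1 (by linarith), fun h5 => (h x hx).2 (by linarith)⟩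

end Vale.Agent.P134.H891
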