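import Vale.Agent.P134.H891.Ident

set_option linter.all false

open MeasureTheory Filter Topology

namespace Vale.Agent.P134.H891

variable {n : ℕ} {u χ w : (Fin n → ℝ) → ℝ}

/-- The production density. -/
noncomputable def PP (u : (Fin n → ℝ) → ℝ) (r : ℝ) (x : Fin n → ℝ) : ℝ :=
  defi u x / 2 * ph r x + 4 * mm r x / r ^ 2 * rd u x ^ 2

/-- Weighted energy. -/
noncomputable def II (w u : (Fin n → ℝ) → ℝ) (r : ℝ) : ℝ := ∫ x, w x * (en u x * ph r x)

/-- Production integral. -/
noncomputable def QQ (w u : (Fin n → ℝ) → ℝ) (r : ℝ) : ℝ := ∫ x, w x * PP u r x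

lemma PP_nonneg (hu : Sol u) {r : ℝ} (x : Fin n → ℝ) : 0 ≤ PP u r x := by
  unfold PP
  have h1 := hu.defi_nonneg x
  have h2 := ph_nonneg r x
  have h3 := mm_nonneg r x
  positivity

lemma PP_continuous (hu : Sol u) (r : ℝ) : Continuous (PP u r) := by
  unfold PP
  exact ((hu.defi_continuous.div_const _).mul (ph_contDiff r).continuous).add
    (((continuous_const.mul (continuous_mm r)).div_const _).mul ((rd_continuous hu.c2).pow 2))

lemma PP_eq_zero {r : ℝ} {x : Fin n → ℝ} (h : mm r x = 0) : PP u r x = 0 := by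
  unfold PP ph
  rw [h]; simp

lemma PP_hasCompactSupport {r : ℝ} (hr : 0 < r) : HasCompactSupport (PP u r) := by
  apply HasCompactSupport.intro (isCompact_box r)
  intro x hx
  rw [mem_box] at hx
  push Not at hx
  obtain ⟨i, hi⟩ := hx
  exact PP_eq_zero (mm_eq_zero_of_abs hr hi.le)

lemma rd_sq_le (u : (Fin n → ℝ) → ℝ) (x : Fin n → ℝ) : rd u x ^ 2 ≤ esq x * gr u x := by
  unfold rd esq gr
  exact Finset.sum_mul_sq_le_sq_mul_sq _ _ _

lemma gr_nonneg (u : (Fin n → ℝ) → ℝ) (x : Fin n → ℝ) : 0 ≤ gr u x :=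
  Finset.sum_nonneg fun _ _ => sq_nonneg _

lemma gr_le (hu : Sol u) (x : Fin n → ℝ) : gr u x ≤ psi u x ^ 2 / 2 := by
  have := hu.defi_nonneg x
  unfold defi at this
  unfold gr
  linarith

lemma esq_lt_of_mm_ne {r : ℝ} (hr : 0 < r) {x : Fin n → ℝ} (h : mm r x ≠ 0) : esq x < r ^ 2 := by
  by_contra hcon
  exact h (mm_eq_zero hr (not_lt.mp hcon))

lemma PP_le (hu : Sol u) {r : ℝ} (hr : 0 < r) (x : Fin n → ℝ) : PP u r x ≤ 3 * psi u x ^ 2 := by
  by_cases hm : mm r x = 0
  · rw [PP_eq_zero hm]; positivity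
  · have he := esq_lt_of_mm_ne hr hm
    have h1 := rd_sq_le u x
    have h2 := gr_le hu x
    have h3 := gr_nonneg u x
    have h4 : rd u x ^ 2 / r ^ 2 ≤ psi u x ^ 2 / 2 := by
      rw [div_le_iff₀ (by positivity)]
      calc rd u x ^ 2 ≤ esq x * gr u x := h1
        _ ≤ r ^ 2 * gr u x := mul_le_mul_of_nonneg_right he.le h3
        _ ≤ r ^ 2 * (psi u x ^ 2 / 2) := mul_le_mul_of_nonneg_left h2 (by positivity)
        _ = _ := by ring
    have h5 : defi u x ≤ psi u x ^ 2 / 2 := by
      unfold defi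
      have : 0 ≤ ∑ i, pd i u x ^ 2 := Finset.sum_nonneg fun _ _ => sq_nonneg _
      linarith
    have h6 := mm_le_one (r := r) x
    have h7 := mm_nonneg r x
    have h8 := ph_le_one r x
    have h9 := ph_nonneg r x
    have h10 := hu.defi_nonneg x
    unfold PP
    have e1 : defi u x / 2 * ph r x ≤ psi u x ^ 2 / 4 * 1 :=
      mul_le_mul (by linarith) h8 h9 (by positivity)
    have e2 : 4 * mm r x / r ^ 2 * rd u x ^ 2 ≤ 4 * (psi u x ^ 2 / 2) := by
      have : 4 * mm r x / r ^ 2 * rd u x ^ 2 = 4 * (mm r x * (rd u x ^ 2 / r ^ 2)) := by ring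
      rw [this]
      have h11 : mm r x * (rd u x ^ 2 / r ^ 2) ≤ 1 * (psi u x ^ 2 / 2) :=
        mul_le_mul h6 h4 (by positivity) (by norm_num)
      linarith
    have e3 : 0 ≤ psi u x ^ 2 := sq_nonneg _
    linarith

lemma hasDerivAt_ph (x : Fin n → ℝ) {r : ℝ} (hr : 0 < r) :
    HasDerivAt (fun r => ph r x) (4 * mm r x * esq x / r ^ 3) r := by
  have h1 := hasDerivAt_pp_pow 0 (1 - esq x / r ^ 2)
  have h2 : HasDerivAt (fun r : ℝ => 1 - esq x / r ^ 2) (2 * esq x / r ^ 3) r := by
    have h3 : HasDerivAt (fun r : ℝ => r ^ 2) (2 * r) r := by simpa using hasDerivAt_pow 2 r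
    have h4 := ((hasDerivAt_const r (esq x)).div h3 (by positivity)).const_sub 1
    refine h4.congr_deriv ?_
    field_simp
    ring
  have h5 := h1.comp r h2
  refine h5.congr_deriv ?_
  simp only [mm, Nat.cast_zero, zero_add, pow_one]
  ring

lemma mm_eq_zero_of_notMem {r R : ℝ} (hr : 0 < r) (hR : r ≤ R) {x : Fin n → ℝ}
    (hx : x ∉ box n R) : mm r x = 0 := by
  rw [mem_box] at hx
  push Not at hx
  obtain ⟨i, hi⟩ := hx
  exact mm_eq_zero_of_abs hr (hR.trans hi.le)

lemma II_integrable (hu : Sol u) (hw : Continuous w) {r : ℝ} (hr : 0 < r) :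
    Integrable (fun x => w x * (en u x * ph r x)) :=
  (hw.mul ((en_contDiff hu.c2).continuous.mul (ph_contDiff r).continuous)).integrable_of_hasCompactSupport
    (ph_hasCompactSupport hr).mul_left.mul_left

lemma QQ_integrable (hu : Sol u) (hw : Continuous w) {r : ℝ} (hr : 0 < r) :
    Integrable (fun x => w x * PP u r x) :=
  (hw.mul (PP_continuous hu r)).integrable_of_hasCompactSupport (PP_hasCompactSupport hr).mul_left

lemma hasDerivAt_II_aux (hu : Sol u) (hw : Continuous w) {r : ℝ} (hr : 0 < r) :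
    HasDerivAt (II w u) (∫ x, w x * (en u x * (4 * mm r x * esq x / r ^ 3))) r := by
  have cen : Continuous (en u) := (en_contDiff hu.c2).continuous
  refine (hasDerivAt_integral_of_dominated_loc_of_deriv_le (μ := volume)
    (s := Metric.ball r (r / 2))
    (F := fun s x => w x * (en u x * ph s x))
    (F' := fun s x => w x * (en u x * (4 * mm s x * esq x / s ^ 3)))
    (bound := fun x => |w x| * (en u x * (4 * esq x / (r / 2) ^ 3)) * ind (box n (2 * r)) x)
    (Metric.ball_mem_nhds r (by positivity))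
    (Eventually.of_forall fun s => (hw.mul (cen.mul (ph_contDiff s).continuous)).aestronglyMeasurable)
    (II_integrable hu hw hr) ?_ ?_ ?_ ?_).2
  · exact (hw.mul (cen.mul (((continuous_const.mul (continuous_mm r)).mul
      continuous_esq).div_const _))).aestronglyMeasurable
  · refine Eventually.of_forall fun x s hs => ?_
    rw [Metric.mem_ball, Real.dist_eq, abs_lt] at hs
    have hs0 : r / 2 < s := by linarith
    have hs1 : s ≤ 2 * r := by linarith
    have hsp : 0 < s := by linarith
    have h1 := en_nonneg u x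
    have h2 := esq_nonneg x
    by_cases hx : x ∈ box n (2 * r)
    · rw [ind_mem hx, mul_one, norm_mul, norm_mul, Real.norm_eq_abs, Real.norm_eq_abs,
        Real.norm_eq_abs, abs_of_nonneg h1]
      refine mul_le_mul_of_nonneg_left (mul_le_mul_of_nonneg_left ?_ h1) (abs_nonneg _)
      have h3 := mm_nonneg s x
      have h4 := mm_le_one (r := s) x
      rw [abs_of_nonneg (by positivity)]
      apply div_le_div₀ (by positivity) ?_ (by positivity)
        (pow_le_pow_left₀ (by positivity) hs0.le 3)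
      nlinarith
    · rw [ind_notMem hx, mul_zero, mm_eq_zero_of_notMem hsp hs1 hx]
      simp
  · exact integrable_mul_ind (hw.abs.mul (cen.mul ((continuous_const.mul
      continuous_esq).div_const _))) (isCompact_box _)
  · refine Eventually.of_forall fun x s hs => ?_
    rw [Metric.mem_ball, Real.dist_eq, abs_lt] at hs
    have hsp : 0 < s := by linarith
    exact ((hasDerivAt_ph x hsp).const_mul (en u x)).const_mul (w x)

/-- Derivative of the energy, combined with an identity. -/
lemma hasDerivAt_II (hu : Sol u) (hw : Continuous w) {r : ℝ} (hr : 0 < r)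
    (hid : ∫ x, w x * ((((n : ℝ) - 1) * en u x + defi u x / 2) * ph r x)
      = ∫ x, w x * (4 * mm r x / r ^ 2 * (esq x * en u x - rd u x ^ 2))) :
    HasDerivAt (II w u) ((((n : ℝ) - 1) * II w u r + QQ w u r) / r) r := by
  refine (hasDerivAt_II_aux hu hw hr).congr_deriv ?_
  rw [eq_div_iff hr.ne']
  have cen : Continuous (en u) := (en_contDiff hu.c2).continuous
  have s4 : HasCompactSupport (fun x : Fin n → ℝ => 4 * mm r x / r ^ 2) :=
    HasCompactSupport.comp_left (mm_hasCompactSupport hr) (g := fun t => 4 * t / r ^ 2) (by simp)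
  have c4 : Continuous (fun x : Fin n → ℝ => 4 * mm r x / r ^ 2) :=
    (continuous_const.mul (continuous_mm r)).div_const _
  have j1 : Integrable (fun x => w x * (4 * mm r x / r ^ 2 * (esq x * en u x - rd u x ^ 2))) :=
    (hw.mul (c4.mul ((continuous_esq.mul cen).sub ((rd_continuous hu.c2).pow 2)))).integrable_of_hasCompactSupport
      s4.mul_right.mul_left
  have j2 : Integrable (fun x => w x * (4 * mm r x / r ^ 2 * rd u x ^ 2)) :=
    (hw.mul (c4.mul ((rd_continuous hu.c2).pow 2))).integrable_of_hasCompactSupport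
      s4.mul_right.mul_left
  have j3 := II_integrable hu hw hr
  have j4 := QQ_integrable hu hw hr
  have e1 : (∫ x, w x * (en u x * (4 * mm r x * esq x / r ^ 3))) * r
      = (∫ x, w x * (4 * mm r x / r ^ 2 * (esq x * en u x - rd u x ^ 2)))
        + ∫ x, w x * (4 * mm r x / r ^ 2 * rd u x ^ 2) := by
    rw [← integral_add j1 j2, ← integral_mul_const]
    congr 1; ext x
    field_simp
    ring
  rw [e1, ← hid]
  unfold II QQ
  have j5 : Integrable (fun x => w x * ((((n : ℝ) - 1) * en u x + defi u x / 2) * ph r x)) :=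
    (hw.mul (((continuous_const.mul cen).add (hu.defi_continuous.div_const _)).mul
      (ph_contDiff r).continuous)).integrable_of_hasCompactSupport
      (ph_hasCompactSupport hr).mul_left.mul_left
  rw [← integral_add j5 j2, ← integral_const_mul, ← integral_add (j3.const_mul _) j4]
  congr 1; ext x
  unfold PP
  ring

lemma hasDerivAt_II_one (hu : Sol u) {r : ℝ} (hr : 0 < r) :
    HasDerivAt (II (fun _ => 1) u) ((((n : ℝ) - 1) * II (fun _ => 1) u r + QQ (fun _ => 1) u r) / r) r := by
  apply hasDerivAt_II hu continuous_const hr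
  simpa using ident_one hu hr

lemma hasDerivAt_II_lin (hu : Sol u) (p : Fin n) {r : ℝ} (hr : 0 < r) :
    HasDerivAt (II (fun x => x p) u)
      ((((n : ℝ) - 1) * II (fun x => x p) u r + QQ (fun x => x p) u r) / r) r := by
  exact hasDerivAt_II hu (continuous_apply p) hr (ident_lin hu hr p)

/-- Scaled energy `Θ_w`. -/
noncomputable def TT (w u : (Fin n → ℝ) → ℝ) (r : ℝ) : ℝ := II w u r / r ^ (n - 1)

lemma hasDerivAt_TT (hn : 1 ≤ n) {r : ℝ} (hr : 0 < r)
    (h : HasDerivAt (II w u) ((((n : ℝ) - 1) * II w u r + QQ w u r) / r) r) :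
    HasDerivAt (TT w u) (QQ w u r / r ^ n) r := by
  obtain ⟨m, rfl⟩ : ∃ m, n = m + 1 := ⟨n - 1, by omega⟩
  have h2 : HasDerivAt (fun r : ℝ => r ^ m) (m * r ^ (m - 1)) r := hasDerivAt_pow m r
  have h3 := h.div h2 (by positivity)
  refine h3.congr_deriv ?_
  simp only [Nat.add_sub_cancel, Nat.cast_add, Nat.cast_one, add_sub_cancel_right]
  rcases m with _ | k
  · simp
  · simp only [Nat.add_sub_cancel]
    push_cast
    field_simp
    ring

end Vale.Agent.P134.H891
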