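import Vale.Agent.P134.H891.Height

set_option linter.all false

open MeasureTheory Filter Topology

namespace Vale.Agent.P134.H891

variable {n : ℕ} {u v χ w : (Fin n → ℝ) → ℝ} {p q : Fin n}

/-- The setting of the mixed case. -/
structure Mix (u : (Fin n → ℝ) → ℝ) (p q : Fin n) : Prop where
  sol : Sol u
  hpq : p ≠ q
  pos : ∀ x, 0 < pd q u x
  lim : ∀ x, Tendsto (fun t : ℝ => u (x + t • Pi.single q 1)) atTop (𝓝 (gp (x p)))

/-- The profile as a function on the space. -/
noncomputable def GG (p : Fin n) (x : Fin n → ℝ) : ℝ := gp (x p)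

lemma line_mono (hu : Sol u) (hpos : ∀ x, 0 < pd q u x) (x : Fin n → ℝ) :
    Monotone (fun t : ℝ => u (x + t • Pi.single q 1)) := by
  apply monotone_of_deriv_nonneg
  · intro s
    exact (hasDerivAt_dir ((hu.c2.differentiable (by norm_num)) _)).differentiableAt
  · intro s
    rw [(hasDerivAt_dir ((hu.c2.differentiable (by norm_num)) _)).deriv]
    exact (hpos _).le

lemma Mix.le (h : Mix u p q) (x : Fin n → ℝ) : u x ≤ gp (x p) := by
  have h1 := (line_mono h.sol h.pos x).ge_of_tendsto (h.lim x) 0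
  simpa using h1

lemma pd_GG (p i : Fin n) (x : Fin n → ℝ) :
    pd i (GG p) x = if i = p then (1 - gp (x p) ^ 2) / √2 else 0 := by
  have h1 : DifferentiableAt ℝ (fun y : Fin n → ℝ => y p) x := by fun_prop
  show pd i (fun y => gp (y p)) x = _
  rw [pd_comp (h := gp) (hasDerivAt_gp _).differentiableAt h1, (hasDerivAt_gp _).deriv, pd_coord]
  by_cases hi : i = p
  · subst hi; simp
  · rw [if_neg hi, if_neg (fun h => hi h.symm), mul_zero]

lemma gr_GG (p : Fin n) (x : Fin n → ℝ) : gr (GG p) x = psi (GG p) x ^ 2 / 2 := by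
  unfold gr
  simp_rw [pd_GG]
  rw [Finset.sum_eq_single p]
  · rw [if_pos rfl, div_pow, sqrt2_sq]; rfl
  · intro i _ hi; rw [if_neg hi]; ring
  · intro h; exact absurd (Finset.mem_univ _) h

lemma defi_GG (p : Fin n) (x : Fin n → ℝ) : defi (GG p) x = 0 := by
  have h := gr_GG p x
  unfold gr at h
  unfold defi
  rw [h]; ring

lemma en_GG (p : Fin n) (x : Fin n → ℝ) : en (GG p) x = psi (GG p) x ^ 2 / 2 := by
  have h := gr_GG p x
  have h2 := gr_eq (GG p) x
  rw [defi_GG] at h2
  linarith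

lemma Mix.profile (h : Mix u p q) : Sol (GG p) ∧
    ∀ x, Tendsto (fun t : ℝ => en u (x + t • Pi.single q 1)) atTop (𝓝 (en (GG p) x)) := by
  obtain ⟨U, hU, h1, h2, -, -⟩ := h.sol.exists_profile q h.pos
  have hUG : U = GG p := by
    ext x
    exact tendsto_nhds_unique (h1 x) (h.lim x)
  subst hUG
  refine ⟨hU, fun x => ?_⟩
  unfold en
  exact ((tendsto_finsetSum _ fun j _ => (h2 x j).pow 2).const_mul _).add
    ((((h1 x).pow 2).const_sub 1).pow 2 |>.div_const 4)

lemma psi_GG_nonneg (p : Fin n) (x : Fin n → ℝ) : 0 ≤ psi (GG p) x := by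
  have := abs_le.mp (gp_abs (x p))
  unfold psi GG
  nlinarith

lemma psi_GG_le (p : Fin n) (x : Fin n → ℝ) : psi (GG p) x ≤ 4 * Real.exp (-(√2 * |x p|)) := by
  have h1 := one_add_gp_le (x p)
  have h2 := one_sub_gp_le (x p)
  have h3 := gp_lt_one (x p)
  have h4 := neg_one_lt_gp (x p)
  unfold psi GG
  rcases le_total 0 (x p) with h | h
  · rw [abs_of_nonneg h]
    nlinarith
  · rw [abs_of_nonpos h, mul_neg, neg_neg]
    nlinarith

lemma psi_GG_sq_le (p : Fin n) (x : Fin n → ℝ) : psi (GG p) x ^ 2 ≤ 48 / (1 + x p ^ 2) := by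
  have h1 := psi_GG_le p x
  have h2 := psi_GG_nonneg p x
  have h3 := exp_neg_le (abs_nonneg (x p))
  rw [sq_abs] at h3
  have h4 : Real.exp (-(√2 * |x p|)) ^ 2 ≤ Real.exp (-|x p|) := by
    rw [← Real.exp_nat_mul]
    apply Real.exp_le_exp.mpr
    push_cast
    nlinarith [one_lt_sqrt2, abs_nonneg (x p)]
  calc psi (GG p) x ^ 2 ≤ (4 * Real.exp (-(√2 * |x p|))) ^ 2 := pow_le_pow_left₀ h2 h1 2
    _ = 16 * Real.exp (-(√2 * |x p|)) ^ 2 := by ring
    _ ≤ 16 * (3 / (1 + x p ^ 2)) := by linarith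
    _ = _ := by ring

lemma sq_mul_psi_GG_sq_le (p : Fin n) (x : Fin n → ℝ) :
    x p ^ 2 * psi (GG p) x ^ 2 ≤ 416 / (1 + x p ^ 2) := by
  have h1 := psi_GG_le p x
  have h2 := psi_GG_nonneg p x
  set t := |x p| with ht
  have ht0 : 0 ≤ t := abs_nonneg _
  have ht2 : x p ^ 2 = t ^ 2 := by rw [ht, sq_abs]
  rw [ht2]
  have h4 : Real.exp (-(√2 * t)) ^ 2 ≤ Real.exp (-t) := by
    rw [← Real.exp_nat_mul]
    apply Real.exp_le_exp.mpr
    push_cast
    nlinarith [one_lt_sqrt2, ht0]
  have h5 : psi (GG p) x ^ 2 ≤ 16 * Real.exp (-t) := by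
    calc psi (GG p) x ^ 2 ≤ (4 * Real.exp (-(√2 * t))) ^ 2 := pow_le_pow_left₀ h2 h1 2
      _ = 16 * Real.exp (-(√2 * t)) ^ 2 := by ring
      _ ≤ _ := by linarith
  have h6 : t ^ 2 * (16 * Real.exp (-t)) ≤ 416 / (1 + t ^ 2) := by
    rw [le_div_iff₀ (by positivity), Real.exp_neg]
    have e2 := pow_le_exp ht0 2
    have e4 := pow_le_exp ht0 4
    have he := Real.exp_pos t
    simp [Nat.factorial] at e2 e4
    have : t ^ 2 * (16 * (Real.exp t)⁻¹) * (1 + t ^ 2) = 16 * (t ^ 2 + t ^ 4) / Real.exp t := by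
      field_simp
      try ring
    rw [this, div_le_iff₀ he]
    linarith
  exact (mul_le_mul_of_nonneg_left h5 (by positivity)).trans h6

/-- The flux cut-off. -/
lemma ph_grad_le {R : ℝ} (hR : 0 < R) (x : Fin n → ℝ) :
    ∑ j, pd j (ph R) x ^ 2 ≤ (4 / R * mm R x) ^ 2 := by
  simp_rw [pd_ph]
  have h1 : ∀ j : Fin n, (-(4 * mm R x / R ^ 2 * x j)) ^ 2 = (4 * mm R x / R ^ 2) ^ 2 * x j ^ 2 := by
    intro j; ring
  simp_rw [h1]
  rw [← Finset.mul_sum]
  by_cases hm : mm R x = 0
  · rw [hm]; simp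
  · have h2 := esq_lt_of_mm_ne hR hm
    calc (4 * mm R x / R ^ 2) ^ 2 * ∑ i, x i ^ 2 = (4 * mm R x / R ^ 2) ^ 2 * esq x := rfl
      _ ≤ (4 * mm R x / R ^ 2) ^ 2 * R ^ 2 := mul_le_mul_of_nonneg_left h2.le (by positivity)
      _ = _ := by field_simp

lemma Psi_comp_continuous (hu : Sol u) : Continuous (fun x => Psi (u x)) :=
  (Psi_comp_contDiff hu).continuous

lemma flux_up (h : Mix u p q) {R : ℝ} (hR : 0 < R) :
    ∫ x, en u x * ph R x ≤ (∫ x, en (GG p) x * ph R x)
      + 4 / R * ∫ x, (Psi (GG p x) - Psi (u x)) * mm R x := by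
  obtain ⟨hG, hlim⟩ := h.profile
  have hl2 : ∀ x, Tendsto (fun t : ℝ => u (x + t • Pi.single q 1)) atTop (𝓝 (GG p x)) := h.lim
  have hD : HasCompactSupport (fun x : Fin n → ℝ => 4 / R * mm R x) :=
    (mm_hasCompactSupport hR).mul_left
  have cD : Continuous (fun x : Fin n → ℝ => 4 / R * mm R x) := continuous_const.mul (continuous_mm R)
  have key := flux (σ := 1) (χ := ph R) h.sol h.pos (by norm_num) (ph_contDiff R)
    (ph_hasCompactSupport hR) (ph_nonneg R) cD hD
    (fun x => mul_nonneg (by positivity) (mm_nonneg R x)) (ph_grad_le hR) (E := en (GG p))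
    (U := GG p) (by simpa using hlim) (by simpa using hl2)
  simp only [one_mul] at key
  have c1 : Continuous (en u) := (en_contDiff h.sol.c2).continuous
  have c2 : Continuous (en (GG p)) := (en_contDiff hG.c2).continuous
  have cp := (ph_contDiff (n := n) R).continuous
  have sp := ph_hasCompactSupport (n := n) hR
  have i1 : Integrable (fun x => en u x * ph R x) :=
    (c1.mul cp).integrable_of_hasCompactSupport sp.mul_left
  have i2 : Integrable (fun x => en (GG p) x * ph R x) :=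
    (c2.mul cp).integrable_of_hasCompactSupport sp.mul_left
  have i3 : Integrable (fun x => Psi (u x) * (4 / R * mm R x)) :=
    ((Psi_comp_continuous h.sol).mul cD).integrable_of_hasCompactSupport hD.mul_left
  have i4 : Integrable (fun x => Psi (GG p x) * (4 / R * mm R x)) :=
    ((Psi_comp_continuous hG).mul cD).integrable_of_hasCompactSupport hD.mul_left
  rw [integral_add i1 i3, integral_add i2 i4] at key
  have e : 4 / R * ∫ x, (Psi (GG p x) - Psi (u x)) * mm R x
      = (∫ x, Psi (GG p x) * (4 / R * mm R x)) - ∫ x, Psi (u x) * (4 / R * mm R x) := by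
    rw [← integral_sub i4 i3, ← integral_const_mul]
    congr 1; ext x; ring
  rw [e]
  linarith

/-- Exponential decay above height `L` in the box of size `R`. -/
def Dec (u : (Fin n → ℝ) → ℝ) (p : Fin n) (R L : ℝ) : Prop :=
  ∀ x ∈ box n R, L < x p → 1 - u x ≤ 2 * n * Real.exp (-(x p / 2))

lemma GG_abs (p : Fin n) (x : Fin n → ℝ) : |GG p x| ≤ 1 := gp_abs _

lemma Mix.Psi_le (h : Mix u p q) (x : Fin n → ℝ) : Psi (u x) ≤ Psi (GG p x) :=
  Psi_mono (abs_le.mp (h.sol.bd x)).1 (h.le x) (gp_lt_one _).le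

lemma Psi_sub_le_left (h : Mix u p q) {x : Fin n → ℝ} (hx : x p ≤ 0) :
    Psi (GG p x) - Psi (u x) ≤ 12 / (1 + x p ^ 2) := by
  have h1 := Psi_nonneg (h.sol.bd x)
  have h2 := Psi_le_sq (GG_abs p x)
  have h3 := one_add_gp_le (x p)
  have h4 := neg_one_lt_gp (x p)
  have h5 : (1 + GG p x) ^ 2 ≤ 4 * Real.exp (-(-(x p))) := by
    calc (1 + GG p x) ^ 2 ≤ (2 * Real.exp (√2 * x p)) ^ 2 := pow_le_pow_left₀ (by
          have : GG p x = gp (x p) := rfl
          linarith) h3 2
      _ = 4 * Real.exp (√2 * x p) ^ 2 := by ring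
      _ ≤ _ := by
          rw [← Real.exp_nat_mul, neg_neg]
          apply mul_le_mul_of_nonneg_left _ (by norm_num)
          apply Real.exp_le_exp.mpr
          push_cast
          nlinarith [one_lt_sqrt2]
  have h6 := exp_neg_le (t := -(x p)) (by linarith)
  rw [neg_sq] at h6
  calc Psi (GG p x) - Psi (u x) ≤ 4 * Real.exp (-(-(x p))) := by linarith
    _ ≤ 4 * (3 / (1 + x p ^ 2)) := by linarith
    _ = _ := by ring

/-- The decay constant. -/
noncomputable def Kd (n : ℕ) : ℝ := 500 * (n : ℝ) ^ 2 + 500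

lemma one_sub_sq_le {R L : ℝ} (hu : Sol u) (hL : 0 ≤ L) (hd : Dec u p R L) {x : Fin n → ℝ}
    (hx : x ∈ box n R) (hxL : L < x p) : (1 - u x) ^ 2 ≤ 4 * n ^ 2 * Real.exp (-(x p)) := by
  have h1 := hd x hx hxL
  have h2 := abs_le.mp (hu.bd x)
  calc (1 - u x) ^ 2 ≤ (2 * n * Real.exp (-(x p / 2))) ^ 2 := pow_le_pow_left₀ (by linarith) h1 2
    _ = 4 * n ^ 2 * Real.exp (-(x p / 2)) ^ 2 := by ring
    _ = _ := by
      rw [← Real.exp_nat_mul]
      congr 2
      push_cast; ring

lemma Psi_sub_le_right {R L : ℝ} (h : Mix u p q) (hL : 0 ≤ L) (hd : Dec u p R L) {x : Fin n → ℝ}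
    (hx : x ∈ box n R) (hxL : L < x p) :
    Psi (GG p x) - Psi (u x) ≤ 4 * n ^ 2 * Real.exp (-(x p)) := by
  have h1 := Psi_le_Psi_one (GG_abs p x)
  have h2 := Psi_one_sub_le_sq (h.sol.bd x)
  have h3 := one_sub_sq_le h.sol hL hd hx hxL
  linarith

lemma NN_le {R L : ℝ} (h : Mix u p q) (hR : 0 < R) (hL : 0 ≤ L) (hd : Dec u p R L) :
    ∫ x, (Psi (GG p x) - Psi (u x)) * mm R x ≤ (4 * Kd n + L) * (2 * R) ^ (n - 1) := by
  obtain ⟨hG, -⟩ := h.profile
  have hK : 0 ≤ Kd n := by unfold Kd; positivity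
  have c1 : Continuous (fun x => Psi (GG p x) - Psi (u x)) :=
    (Psi_comp_continuous hG).sub (Psi_comp_continuous h.sol)
  have key := slab (p := p) (F := fun x => (Psi (GG p x) - Psi (u x)) * mm R x) (K := Kd n)
    (a := 0) (M := 1) (L := L) hK (by norm_num) hL hR.le
    ((c1.mul (continuous_mm R)).integrable_of_hasCompactSupport (mm_hasCompactSupport hR).mul_left)
    (by
      intro x hx
      rw [mm_eq_zero_of_notMem hR le_rfl hx, mul_zero])
    (by
      intro x hx
      have h1 := h.Psi_le x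
      have h2 := mm_le_one (r := R) x
      have h3 := mm_nonneg R x
      have h4 : (Psi (GG p x) - Psi (u x)) * mm R x ≤ Psi (GG p x) - Psi (u x) := by nlinarith
      refine h4.trans ?_
      rcases le_or_gt (x p) 0 with hx0 | hx0
      · refine (Psi_sub_le_left h hx0).trans (le_trans ?_ (maj_ge_left (by norm_num)))
        rw [sub_zero]
        apply div_le_div_of_nonneg_right _ (by positivity)
        unfold Kd; nlinarith [sq_nonneg (n:ℝ)]
      · rcases le_or_gt (x p) L with hxL | hxL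
        · refine le_trans ?_ (maj_ge_right hK hx0.le hxL)
          have h5 := Psi_le_one (GG_abs p x)
          have h6 := Psi_nonneg (h.sol.bd x)
          linarith
        · refine (Psi_sub_le_right h hL hd hx hxL).trans (le_trans ?_ (maj_ge_left (by norm_num)))
          have h5 := exp_neg_le hx0.le
          rw [sub_zero]
          calc 4 * (n:ℝ) ^ 2 * Real.exp (-(x p)) ≤ 4 * n ^ 2 * (3 / (1 + x p ^ 2)) :=
                mul_le_mul_of_nonneg_left h5 (by positivity)
            _ = 12 * n ^ 2 / (1 + x p ^ 2) := by ring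
            _ ≤ _ := by
                apply div_le_div_of_nonneg_right _ (by positivity)
                unfold Kd; nlinarith [sq_nonneg (n:ℝ)])
  rw [one_mul] at key
  exact key

lemma JJ_le {R L : ℝ} (h : Mix u p q) (hR : 0 < R) (hL : 0 ≤ L) (hd : Dec u p R L) :
    ∫ x, pp (x p) * (Psi (GG p x) - Psi (u x)) * mm R x
      ≤ (4 * Kd n + L * L) * (2 * R) ^ (n - 1) := by
  obtain ⟨hG, -⟩ := h.profile
  have hK : 0 ≤ Kd n := by unfold Kd; positivity
  have c1 : Continuous (fun x => Psi (GG p x) - Psi (u x)) :=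
    (Psi_comp_continuous hG).sub (Psi_comp_continuous h.sol)
  have cp : Continuous (fun x : Fin n → ℝ => pp (x p)) := continuous_pp.comp (continuous_apply p)
  refine slab (p := p) (F := fun x => pp (x p) * (Psi (GG p x) - Psi (u x)) * mm R x) (K := Kd n)
    (a := 0) (M := L) (L := L) hK hL hL hR.le
    (((cp.mul c1).mul (continuous_mm R)).integrable_of_hasCompactSupport
      (mm_hasCompactSupport hR).mul_left) ?_ ?_
  · intro x hx
    rw [mm_eq_zero_of_notMem hR le_rfl hx, mul_zero]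
  · intro x hx
    have h1 := h.Psi_le x
    have h2 := mm_le_one (r := R) x
    have h3 := mm_nonneg R x
    have h4 := pp_nonneg (x p)
    have h5 : 0 ≤ pp (x p) * (Psi (GG p x) - Psi (u x)) := mul_nonneg h4 (by linarith)
    have h6 : pp (x p) * (Psi (GG p x) - Psi (u x)) * mm R x
        ≤ pp (x p) * (Psi (GG p x) - Psi (u x)) := by nlinarith
    refine h6.trans ?_
    rcases le_or_gt (x p) 0 with hx0 | hx0
    · rw [pp_of_nonpos hx0, zero_mul]
      refine le_trans ?_ (maj_ge_left hL)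
      positivity
    · rw [pp_of_nonneg hx0.le]
      rcases le_or_gt (x p) L with hxL | hxL
      · refine le_trans ?_ (maj_ge_right hK hx0.le hxL)
        have h7 := Psi_le_one (GG_abs p x)
        have h8 := Psi_nonneg (h.sol.bd x)
        nlinarith
      · refine le_trans ?_ (maj_ge_left hL)
        have h7 := Psi_sub_le_right h hL hd hx hxL
        have h8 := mul_exp_neg_le hx0.le
        rw [sub_zero]
        calc x p * (Psi (GG p x) - Psi (u x)) ≤ x p * (4 * (n:ℝ) ^ 2 * Real.exp (-(x p))) :=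
              mul_le_mul_of_nonneg_left h7 hx0.le
          _ = 4 * (n:ℝ) ^ 2 * (x p * Real.exp (-(x p))) := by ring
          _ ≤ 4 * n ^ 2 * (10 / (1 + x p ^ 2)) :=
              mul_le_mul_of_nonneg_left h8 (by positivity)
          _ = 40 * n ^ 2 / (1 + x p ^ 2) := by ring
          _ ≤ _ := by
              apply div_le_div_of_nonneg_right _ (by positivity)
              unfold Kd; nlinarith [sq_nonneg (n:ℝ)]

end Vale.Agent.P134.H891
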