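import Vale.Agent.P134.Bdl.B1

set_option linter.all false

open MeasureTheory Filter Topology

namespace Vale.Agent.P134.H891

/-- Positive part. -/
noncomputable def pp (t : ℝ) : ℝ := max t 0

lemma pp_nonneg (t : ℝ) : 0 ≤ pp t := le_max_right _ _

lemma pp_of_nonneg {t : ℝ} (h : 0 ≤ t) : pp t = t := max_eq_left h

lemma pp_of_nonpos {t : ℝ} (h : t ≤ 0) : pp t = 0 := max_eq_right h

lemma le_pp (t : ℝ) : t ≤ pp t := le_max_left _ _

lemma continuous_pp : Continuous pp := continuous_id.max continuous_const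

/-- Powers of the positive part are differentiable. -/
lemma hasDerivAt_pp_pow (k : ℕ) (t : ℝ) :
    HasDerivAt (fun s : ℝ => pp s ^ (k + 2)) ((k + 2 : ℝ) * pp t ^ (k + 1)) t := by
  rcases lt_trichotomy t 0 with h | h | h
  · have h1 : (fun s : ℝ => pp s ^ (k + 2)) =ᶠ[𝓝 t] fun _ => 0 := by
      filter_upwards [eventually_lt_nhds h] with s hs
      rw [pp_of_nonpos hs.le]; simp
    rw [pp_of_nonpos h.le]
    simpa using (hasDerivAt_const t (0:ℝ)).congr_of_eventuallyEq h1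
  · subst h
    rw [pp_of_nonpos le_rfl, zero_pow (by omega), mul_zero, hasDerivAt_iff_isLittleO_nhds_zero]
    simp only [zero_add, pp_of_nonpos le_rfl, zero_pow (show k + 2 ≠ 0 by omega), sub_zero,
      smul_zero]
    have h2 : (fun s : ℝ => s ^ (k + 2)) =o[𝓝 0] fun s : ℝ => s :=
      Asymptotics.isLittleO_pow_id (by omega)
    refine Asymptotics.IsBigO.trans_isLittleO ?_ h2
    refine Asymptotics.IsBigO.of_bound 1 (Eventually.of_forall fun s => ?_)
    rw [one_mul, norm_pow, norm_pow]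
    refine pow_le_pow_left₀ (norm_nonneg _) ?_ _
    rw [Real.norm_eq_abs, Real.norm_eq_abs, abs_of_nonneg (pp_nonneg s)]
    exact max_le (le_abs_self _) (abs_nonneg _)
  · have h1 : (fun s : ℝ => pp s ^ (k + 2)) =ᶠ[𝓝 t] fun s => s ^ (k + 2) := by
      filter_upwards [eventually_gt_nhds h] with s hs
      rw [pp_of_nonneg hs.le]
    rw [pp_of_nonneg h.le]
    have h3 := (hasDerivAt_pow (k + 2) t).congr_of_eventuallyEq h1
    have h4 : ((k + 2 : ℕ) : ℝ) * t ^ (k + 2 - 1) = (k + 2 : ℝ) * t ^ (k + 1) := by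
      push_cast
      rfl
    rwa [h4] at h3

lemma contDiff_pp_pow (k : ℕ) : ContDiff ℝ 1 (fun s : ℝ => pp s ^ (k + 2)) := by
  rw [contDiff_one_iff_deriv]
  constructor
  · exact fun t => (hasDerivAt_pp_pow k t).differentiableAt
  · have : deriv (fun s : ℝ => pp s ^ (k + 2)) = fun t => (k + 2 : ℝ) * pp t ^ (k + 1) :=
      funext fun t => (hasDerivAt_pp_pow k t).deriv
    rw [this]
    exact continuous_const.mul (continuous_pp.pow _)

variable {n : ℕ}

/-- The linear cut-off `(1 - |x|²/r²)₊`. -/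
noncomputable def mm (r : ℝ) (x : Fin n → ℝ) : ℝ := pp (1 - esq x / r ^ 2)

/-- The quadratic cut-off. -/
noncomputable def ph (r : ℝ) (x : Fin n → ℝ) : ℝ := mm r x ^ 2

/-- The cubic cut-off. -/
noncomputable def ps (r : ℝ) (x : Fin n → ℝ) : ℝ := r ^ 2 / 6 * mm r x ^ 3

lemma contDiff_esq : ContDiff ℝ 1 (esq : (Fin n → ℝ) → ℝ) := by
  unfold esq
  exact ContDiff.sum fun i _ => (contDiff_apply ℝ ℝ i).pow 2

lemma pd_esq (i : Fin n) (x : Fin n → ℝ) : pd i esq x = 2 * x i := by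
  have h : ∀ k : Fin n, DifferentiableAt ℝ (fun y : Fin n → ℝ => y k ^ 2) x := fun k => by fun_prop
  have : (esq : (Fin n → ℝ) → ℝ) = fun y => ∑ k, y k ^ 2 := rfl
  rw [this, pd_sum _ (F := fun k (y : Fin n → ℝ) => y k ^ 2) (fun k _ => h k)]
  rw [Finset.sum_eq_single i]
  · rw [pd_sq (by fun_prop), pd_coord, if_pos rfl]; ring
  · intro k _ hk
    rw [pd_sq (by fun_prop), pd_coord, if_neg hk]; ring
  · intro h; exact absurd (Finset.mem_univ _) h

lemma mm_nonneg (r : ℝ) (x : Fin n → ℝ) : 0 ≤ mm r x := pp_nonneg _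

lemma mm_le_one {r : ℝ} (x : Fin n → ℝ) : mm r x ≤ 1 := by
  unfold mm pp
  refine max_le ?_ zero_le_one
  have : 0 ≤ esq x / r ^ 2 := div_nonneg (esq_nonneg x) (sq_nonneg r)
  linarith

lemma ph_nonneg (r : ℝ) (x : Fin n → ℝ) : 0 ≤ ph r x := sq_nonneg _

lemma ph_le_one (r : ℝ) (x : Fin n → ℝ) : ph r x ≤ 1 := pow_le_one₀ (mm_nonneg _ _) (mm_le_one _)

lemma mm_eq_zero {r : ℝ} (hr : 0 < r) {x : Fin n → ℝ} (h : r ^ 2 ≤ esq x) : mm r x = 0 := by
  unfold mm
  apply pp_of_nonpos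
  rw [sub_nonpos, le_div_iff₀ (by positivity)]
  linarith

lemma sq_le_esq (x : Fin n → ℝ) (i : Fin n) : x i ^ 2 ≤ esq x :=
  Finset.single_le_sum (f := fun i => x i ^ 2) (fun i _ => sq_nonneg _) (Finset.mem_univ i)

lemma mm_eq_zero_of_abs {r : ℝ} (hr : 0 < r) {x : Fin n → ℝ} {i : Fin n} (h : r ≤ |x i|) :
    mm r x = 0 := by
  apply mm_eq_zero hr
  refine le_trans ?_ (sq_le_esq x i)
  rw [← sq_abs (x i)]
  exact pow_le_pow_left₀ hr.le h 2

lemma mm_hasCompactSupport {r : ℝ} (hr : 0 < r) : HasCompactSupport (mm r : (Fin n → ℝ) → ℝ) := by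
  apply HasCompactSupport.intro (isCompact_box r)
  intro x hx
  rw [mem_box] at hx
  push Not at hx
  obtain ⟨i, hi⟩ := hx
  exact mm_eq_zero_of_abs hr hi.le

lemma continuous_mm (r : ℝ) : Continuous (mm r : (Fin n → ℝ) → ℝ) :=
  continuous_pp.comp (continuous_const.sub (continuous_esq.div_const _))

lemma ph_contDiff (r : ℝ) : ContDiff ℝ 1 (ph r : (Fin n → ℝ) → ℝ) :=
  (contDiff_pp_pow 0).comp (contDiff_const.sub (contDiff_esq.div_const _))

lemma ps_contDiff (r : ℝ) : ContDiff ℝ 1 (ps r : (Fin n → ℝ) → ℝ) :=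
  contDiff_const.mul ((contDiff_pp_pow 1).comp (contDiff_const.sub (contDiff_esq.div_const _)))

lemma ph_hasCompactSupport {r : ℝ} (hr : 0 < r) : HasCompactSupport (ph r : (Fin n → ℝ) → ℝ) :=
  (mm_hasCompactSupport hr).comp_left (g := fun t => t ^ 2) (by simp)

lemma ps_hasCompactSupport {r : ℝ} (hr : 0 < r) : HasCompactSupport (ps r : (Fin n → ℝ) → ℝ) :=
  (mm_hasCompactSupport hr).comp_left (g := fun t => r ^ 2 / 6 * t ^ 3) (by simp)

lemma pd_inner (r : ℝ) (i : Fin n) (x : Fin n → ℝ) :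
    pd i (fun y => 1 - esq y / r ^ 2) x = - (2 * x i / r ^ 2) := by
  have d : DifferentiableAt ℝ (esq : (Fin n → ℝ) → ℝ) x :=
    contDiff_esq.differentiable (by norm_num) x
  have h1 : (fun y : Fin n → ℝ => 1 - esq y / r ^ 2) = fun y => 1 - (1 / r ^ 2) * esq y := by
    ext y; ring
  rw [h1, pd_sub (differentiableAt_const _) (d.const_mul _), pd_const,
    pd_mul (differentiableAt_const _) d, pd_const, pd_esq]
  ring

lemma pd_ph (r : ℝ) (i : Fin n) (x : Fin n → ℝ) :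
    pd i (ph r) x = - (4 * mm r x / r ^ 2 * x i) := by
  have d : DifferentiableAt ℝ (fun y : Fin n → ℝ => 1 - esq y / r ^ 2) x :=
    (contDiff_const.sub (contDiff_esq.div_const _)).differentiable (by norm_num) x
  have h := hasDerivAt_pp_pow 0 (1 - esq x / r ^ 2)
  have : (ph r : (Fin n → ℝ) → ℝ) = fun y => (fun s => pp s ^ (0 + 2)) (1 - esq y / r ^ 2) := rfl
  rw [this, pd_comp h.differentiableAt d, h.deriv, pd_inner]
  simp only [mm, Nat.cast_zero, zero_add, pow_one]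
  ring

lemma pd_ps {r : ℝ} (hr : 0 < r) (i : Fin n) (x : Fin n → ℝ) :
    pd i (ps r) x = - (x i * ph r x) := by
  have d : DifferentiableAt ℝ (fun y : Fin n → ℝ => 1 - esq y / r ^ 2) x :=
    (contDiff_const.sub (contDiff_esq.div_const _)).differentiable (by norm_num) x
  have h := (hasDerivAt_pp_pow 1 (1 - esq x / r ^ 2)).const_mul (r ^ 2 / 6)
  have : (ps r : (Fin n → ℝ) → ℝ)
      = fun y => (fun s => r ^ 2 / 6 * pp s ^ (1 + 2)) (1 - esq y / r ^ 2) := rfl
  rw [this, pd_comp h.differentiableAt d, h.deriv, pd_inner]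
  simp only [ph, mm, Nat.cast_one]
  field_simp
  norm_num
  ring

end Vale.Agent.P134.H891
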