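import Vale.Agent.P134.H891.Prof

set_option linter.all false

open MeasureTheory Filter Topology

namespace Vale.Agent.P134.H891

variable {n : ℕ} {u v χ w : (Fin n → ℝ) → ℝ} {p q : Fin n}

lemma Dec_triv (u : (Fin n → ℝ) → ℝ) (p : Fin n) (R : ℝ) : Dec u p R R := by
  intro x hx hxL
  rw [mem_box] at hx
  have := abs_le.mp (hx p)
  linarith

lemma TT_one_eq (u : (Fin n → ℝ) → ℝ) (R : ℝ) :
    TT (fun _ => 1) u R = (∫ x, en u x * ph R x) / R ^ (n - 1) := by
  unfold TT II
  simp only [one_mul]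

lemma TT_GG_le (h : Mix u p q) {R : ℝ} (hR : 0 < R) :
    TT (fun _ => 1) (GG p) R ≤ 96 * 2 ^ (n - 1) := by
  obtain ⟨hG, -⟩ := h.profile
  rw [TT_one_eq, div_le_iff₀ (by positivity)]
  have key := slab (p := p) (F := fun x => en (GG p) x * ph R x) (K := 24) (a := 0)
    (M := 0) (L := 0) (by norm_num) le_rfl le_rfl hR.le
    (((en_contDiff hG.c2).continuous.mul (ph_contDiff R).continuous).integrable_of_hasCompactSupport
      (ph_hasCompactSupport hR).mul_left)
    (by
      intro x hx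
      unfold ph
      rw [mm_eq_zero_of_notMem hR le_rfl hx]; simp)
    (by
      intro x hx
      refine le_trans ?_ (maj_ge_left le_rfl)
      rw [en_GG, sub_zero]
      have h1 := psi_GG_sq_le p x
      have h2 := ph_le_one R x
      have h3 := ph_nonneg R x
      calc psi (GG p) x ^ 2 / 2 * ph R x ≤ psi (GG p) x ^ 2 / 2 * 1 :=
            mul_le_mul_of_nonneg_left h2 (by positivity)
        _ ≤ (48 / (1 + x p ^ 2)) / 2 := by linarith
        _ = _ := by ring)
  rw [mul_pow] at key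
  linarith

/-- Upper bound through the flux. -/
lemma TT_up {R L : ℝ} (h : Mix u p q) (hR : 0 < R) (hL : 0 ≤ L) (hd : Dec u p R L) :
    TT (fun _ => 1) u R ≤ TT (fun _ => 1) (GG p) R + 4 / R * ((4 * Kd n + L) * 2 ^ (n - 1)) := by
  have h1 := flux_up h hR
  have h2 := NN_le h hR hL hd
  rw [TT_one_eq, TT_one_eq, div_add' _ _ _ (by positivity), div_le_div_iff_of_pos_right (by positivity)]
  refine h1.trans ?_
  have h3 : 4 / R * ∫ x, (Psi (GG p x) - Psi (u x)) * mm R x
      ≤ 4 / R * ((4 * Kd n + L) * (2 * R) ^ (n - 1)) :=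
    mul_le_mul_of_nonneg_left h2 (by positivity)
  rw [mul_pow] at h3
  linarith

lemma Kd_nonneg : 0 ≤ Kd n := by unfold Kd; positivity

lemma Th_bdd (h : Mix u p q) : ∃ B : ℝ, ∀ R : ℝ, 1 ≤ R → TT (fun _ => 1) u R ≤ B := by
  refine ⟨96 * 2 ^ (n - 1) + 4 * ((4 * Kd n + 1) * 2 ^ (n - 1)), fun R hR => ?_⟩
  have hR0 : 0 < R := by linarith
  have h1 := TT_up h hR0 hR0.le (Dec_triv u p R)
  have h2 := TT_GG_le h hR0
  have h3 : 4 / R * ((4 * Kd n + R) * 2 ^ (n - 1)) ≤ 4 * ((4 * Kd n + 1) * 2 ^ (n - 1)) := by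
    have hK := Kd_nonneg (n := n)
    rw [div_mul_eq_mul_div, div_le_iff₀ hR0]
    have h4 : (4 * Kd n + R) ≤ (4 * Kd n + 1) * R := by nlinarith
    have h5 : (0:ℝ) < 2 ^ (n - 1) := by positivity
    calc 4 * ((4 * Kd n + R) * 2 ^ (n - 1)) ≤ 4 * (((4 * Kd n + 1) * R) * 2 ^ (n - 1)) := by
          apply mul_le_mul_of_nonneg_left _ (by norm_num)
          exact mul_le_mul_of_nonneg_right h4 h5.le
      _ = _ := by ring
  linarith

/-- Sublinearity of the height functional. -/
lemma SS_small (h : Mix u p q) {ε : ℝ} (hε : 0 < ε) : ∀ᶠ R in atTop, SS p u R ≤ ε * R := by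
  obtain ⟨B, hB⟩ := Th_bdd h
  set A : Set ℝ := TT (fun _ => 1) u '' Set.Ici 1 with hA
  have hAne : A.Nonempty := ⟨_, 1, Set.mem_Ici.mpr le_rfl, rfl⟩
  have hAb : BddAbove A := ⟨B, by rintro _ ⟨r, hr, rfl⟩; exact hB r hr⟩
  obtain ⟨y, ⟨R0, hR0, rfl⟩, hy⟩ := exists_lt_of_lt_csSup hAne (b := sSup A - ε / 3) (by linarith)
  have hR01 : (1:ℝ) ≤ R0 := hR0
  have hlog : ∀ᶠ R : ℝ in atTop, KK n * Real.log R ≤ ε / 3 * R := by
    have h1 := Real.isLittleO_log_id_atTop
    have h2 : (fun R : ℝ => KK n * Real.log R) =o[atTop] (id : ℝ → ℝ) := h1.const_mul_left _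
    have h3 := h2.bound (by positivity : 0 < ε / 3)
    filter_upwards [h3, eventually_ge_atTop 0] with R hR hR0
    rw [Real.norm_eq_abs, Real.norm_eq_abs, id, abs_of_nonneg hR0] at hR
    exact (le_abs_self _).trans hR
  have hconst : ∀ᶠ R : ℝ in atTop, TT (aw p 0) u R0 + (320 * 2 ^ (n - 1) + 1) ≤ ε / 3 * R :=
    (tendsto_id.const_mul_atTop (by positivity : 0 < ε / 3)).eventually_ge_atTop _
  filter_upwards [hlog, hconst, eventually_ge_atTop R0] with R h1 h2 h3
  have h4 := T_le h.sol p (by linarith : 0 < R0) h3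
  have h5 : TT (fun _ => 1) u R ≤ sSup A := le_csSup hAb ⟨R, by
    exact Set.mem_Ici.mpr (by linarith), rfl⟩
  have h6 : R * (TT (fun _ => 1) u R - TT (fun _ => 1) u R0) ≤ R * (ε / 3) :=
    mul_le_mul_of_nonneg_left (by linarith) (by linarith)
  unfold SS
  linarith

/-- Constant of the profile. -/
noncomputable def K3 (n : ℕ) : ℝ := 1664 * 2 ^ (n - 1)

lemma K3_nonneg : 0 ≤ K3 n := by unfold K3; positivity

lemma rd_GG_sq (p : Fin n) (x : Fin n → ℝ) : rd (GG p) x ^ 2 = x p ^ 2 * psi (GG p) x ^ 2 / 2 := by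
  unfold rd
  simp_rw [pd_GG]
  rw [Finset.sum_eq_single p]
  · rw [if_pos rfl, mul_pow, div_pow, sqrt2_sq]
    unfold psi GG
    ring
  · intro i _ hi; rw [if_neg hi]; ring
  · intro h; exact absurd (Finset.mem_univ _) h

lemma QQ_GG_le (h : Mix u p q) {r : ℝ} (hr : 0 < r) :
    QQ (fun _ => 1) (GG p) r ≤ 4 * (832 / r ^ 2) * (2 * r) ^ (n - 1) := by
  obtain ⟨hG, -⟩ := h.profile
  unfold QQ
  have key := slab (p := p) (F := fun x => (fun _ => (1:ℝ)) x * PP (GG p) r x) (K := 832 / r ^ 2)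
    (a := 0) (M := 0) (L := 0) (by positivity) le_rfl le_rfl hr.le
    (QQ_integrable hG continuous_const hr)
    (by
      intro x hx
      rw [PP_eq_zero (mm_eq_zero_of_notMem hr le_rfl hx)]; simp)
    (by
      intro x hx
      refine le_trans ?_ (maj_ge_left le_rfl)
      unfold PP
      rw [defi_GG, rd_GG_sq, sub_zero]
      have h1 := sq_mul_psi_GG_sq_le p x
      have h2 := mm_le_one (r := r) x
      have h3 := mm_nonneg r x
      calc 1 * (0 / 2 * ph r x + 4 * mm r x / r ^ 2 * (x p ^ 2 * psi (GG p) x ^ 2 / 2))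
          = mm r x * (2 / r ^ 2 * (x p ^ 2 * psi (GG p) x ^ 2)) := by ring
        _ ≤ 1 * (2 / r ^ 2 * (416 / (1 + x p ^ 2))) := by
            apply mul_le_mul h2 _ (by positivity) (by norm_num)
            exact mul_le_mul_of_nonneg_left h1 (by positivity)
        _ = _ := by
            field_simp
            ring)
  linarith

lemma GG_almost (h : Mix u p q) : AntitoneOn
    (fun r => TT (fun _ => 1) (GG p) r + K3 n * (r ^ 2)⁻¹) (Set.Ioi 0) := by
  obtain ⟨hG, -⟩ := h.profile
  have hd : ∀ r, 0 < r → HasDerivAt (fun r => TT (fun _ => 1) (GG p) r + K3 n * (r ^ 2)⁻¹)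
      (QQ (fun _ => 1) (GG p) r / r ^ n + K3 n * (-(2 * r) / (r ^ 2) ^ 2)) r := fun r hr => by
    have h2 : HasDerivAt (fun r : ℝ => r ^ 2) (2 * r) r := by simpa using hasDerivAt_pow 2 r
    exact (hasDerivAt_TT_one hG p hr).add ((h2.inv (by positivity)).const_mul _)
  apply antitoneOn_of_deriv_nonpos (convex_Ioi 0)
  · exact fun r hr => (hd r hr).continuousAt.continuousWithinAt
  · intro r hr
    rw [interior_Ioi] at hr
    exact (hd r hr).differentiableAt.differentiableWithinAt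
  · intro r hr
    rw [interior_Ioi] at hr
    have hr' : 0 < r := hr
    rw [(hd r hr).deriv]
    have h1 := QQ_GG_le h hr'
    have h2 : K3 n * (-(2 * r) / (r ^ 2) ^ 2) = -(4 * (832 / r ^ 2) * (2 * r) ^ (n - 1) / r ^ n) := by
      unfold K3
      obtain ⟨m, rfl⟩ : ∃ m, n = m + 1 := ⟨n - 1, by have := p.2; omega⟩
      simp only [Nat.add_sub_cancel, mul_pow, pow_succ]
      field_simp
      ring
    rw [h2]
    have := div_le_div_of_nonneg_right h1 (by positivity : 0 ≤ r ^ n)
    linarith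

/-- Tangential energy. -/
noncomputable def EX (u : (Fin n → ℝ) → ℝ) (p : Fin n) (R : ℝ) : ℝ :=
  ∫ x, (∑ i ∈ Finset.univ.erase p, pd i u x ^ 2) * ph R x

lemma EX_integrable (hu : Sol u) (p : Fin n) {R : ℝ} (hR : 0 < R) :
    Integrable (fun x => (∑ i ∈ Finset.univ.erase p, pd i u x ^ 2) * ph R x) :=
  ((continuous_finsetSum _ fun i _ => (contDiff_pd_one hu.c2).continuous.pow 2).mul
    (ph_contDiff R).continuous).integrable_of_hasCompactSupport (ph_hasCompactSupport hR).mul_left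

/-- Lower bound by integrating along the `p` direction. -/
lemma TT_low {R L : ℝ} (h : Mix u p q) (hR : 0 < R) (hL : 0 ≤ L) (hd : Dec u p R L) :
    TT (fun _ => 1) (GG p) R + 1 / 2 * (EX u p R / R ^ (n - 1))
      - 4 / R ^ 2 * ((4 * Kd n + L * L) * 2 ^ (n - 1)) ≤ TT (fun _ => 1) u R := by
  obtain ⟨hG, -⟩ := h.profile
  have hJ := JJ_le h hR hL hd
  have hu := h.sol
  have c1 : Continuous (en u) := (en_contDiff hu.c2).continuous
  have c2 : Continuous (en (GG p)) := (en_contDiff hG.c2).continuous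
  have cp := (ph_contDiff (n := n) R).continuous
  have sp := ph_hasCompactSupport (n := n) hR
  have i1 : Integrable (fun x => en u x * ph R x) :=
    (c1.mul cp).integrable_of_hasCompactSupport sp.mul_left
  have i2 : Integrable (fun x => en (GG p) x * ph R x) :=
    (c2.mul cp).integrable_of_hasCompactSupport sp.mul_left
  have i3 := EX_integrable hu p hR
  -- the divergence term
  have f1 : ContDiff ℝ 1 (fun x => Psi (u x) - Psi (GG p x)) :=
    (Psi_comp_contDiff hu).sub (Psi_comp_contDiff hG)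
  have hpd : ∀ x, pd p (fun x => Psi (u x) - Psi (GG p x)) x
      = psi u x / √2 * pd p u x - psi (GG p) x ^ 2 / 2 := by
    intro x
    have d1 : DifferentiableAt ℝ (fun x => Psi (u x)) x :=
      (Psi_comp_contDiff hu).differentiable (by norm_num) x
    have d2 : DifferentiableAt ℝ (fun x => Psi (GG p x)) x :=
      (Psi_comp_contDiff hG).differentiable (by norm_num) x
    rw [pd_sub d1 d2, pd_Psi hu, pd_Psi hG, pd_GG, if_pos rfl]
    have : psi (GG p) x / √2 * ((1 - gp (x p) ^ 2) / √2) = psi (GG p) x ^ 2 / (√2) ^ 2 := by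
      have e : 1 - gp (x p) ^ 2 = psi (GG p) x := rfl
      rw [e]; ring
    rw [this, sqrt2_sq]
  have hibp := integral_mul_pd (i := p) f1 (ph_contDiff (n := n) R) sp
  have i4 : Integrable (fun x => pd p (fun x => Psi (u x) - Psi (GG p x)) x * ph R x) :=
    ((continuous_pd f1).mul cp).integrable_of_hasCompactSupport sp.mul_left
  have h1 : ∫ x, (en (GG p) x * ph R x + 1 / 2 * ((∑ i ∈ Finset.univ.erase p, pd i u x ^ 2) * ph R x)
      + pd p (fun x => Psi (u x) - Psi (GG p x)) x * ph R x) ≤ ∫ x, en u x * ph R x := by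
    apply integral_mono ((i2.add (i3.const_mul _)).add i4) i1
    intro x
    simp only []
    have e1 : en u x = 1 / 2 * pd p u x ^ 2 + 1 / 2 * (∑ i ∈ Finset.univ.erase p, pd i u x ^ 2)
        + psi u x ^ 2 / 4 := by
      unfold en psi
      rw [← Finset.add_sum_erase _ _ (Finset.mem_univ p)]
      ring
    show en (GG p) x * ph R x + 1 / 2 * ((∑ i ∈ Finset.univ.erase p, pd i u x ^ 2) * ph R x)
      + pd p (fun x => Psi (u x) - Psi (GG p x)) x * ph R x ≤ en u x * ph R x
    rw [hpd, en_GG, e1, ← mul_assoc, ← add_mul, ← add_mul]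
    apply mul_le_mul_of_nonneg_right _ (ph_nonneg _ _)
    have h2 := sqrt2_sq
    have h3 := sqrt2_pos
    have h4 : psi u x / √2 * pd p u x ≤ 1 / 2 * pd p u x ^ 2 + psi u x ^ 2 / 4 := by
      have h5 : (psi u x / √2) ^ 2 = psi u x ^ 2 / 2 := by rw [div_pow, h2]
      nlinarith [sq_nonneg (psi u x / √2 - pd p u x)]
    linarith
  have e2 : ∫ x, (en (GG p) x * ph R x + 1 / 2 * ((∑ i ∈ Finset.univ.erase p, pd i u x ^ 2) * ph R x)
      + pd p (fun x => Psi (u x) - Psi (GG p x)) x * ph R x)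
      = (∫ x, en (GG p) x * ph R x) + 1 / 2 * EX u p R
        + ∫ x, pd p (fun x => Psi (u x) - Psi (GG p x)) x * ph R x := by
    unfold EX
    rw [← integral_const_mul, ← integral_add i2 (i3.const_mul _)]
    exact integral_add (i2.add (i3.const_mul _)) i4
  rw [e2] at h1
  have cpp : Continuous (fun x : Fin n → ℝ => pp (x p)) := continuous_pp.comp (continuous_apply p)
  have cPP : Continuous (fun x => Psi (GG p x) - Psi (u x)) :=
    (Psi_comp_continuous hG).sub (Psi_comp_continuous hu)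
  have h2 : -(4 / R ^ 2 * ∫ x, pp (x p) * (Psi (GG p x) - Psi (u x)) * mm R x)
      ≤ ∫ x, pd p (fun x => Psi (u x) - Psi (GG p x)) x * ph R x := by
    have e3 : ∫ x, pd p (fun x => Psi (u x) - Psi (GG p x)) x * ph R x
        = ∫ x, -(4 / R ^ 2 * (x p * (Psi (GG p x) - Psi (u x)) * mm R x)) := by
      have h5 : ∫ x, pd p (fun x => Psi (u x) - Psi (GG p x)) x * ph R x
          = -∫ x, (Psi (u x) - Psi (GG p x)) * pd p (ph R) x := by
        rw [hibp, neg_neg]
      rw [h5, ← integral_neg]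
      congr 1; ext x
      rw [pd_ph]; ring
    rw [e3, ← integral_const_mul, ← integral_neg]
    apply integral_mono
    · exact (((((cpp.mul cPP).mul (continuous_mm R)).integrable_of_hasCompactSupport
        (mm_hasCompactSupport hR).mul_left).const_mul _).neg)
    · exact ((((((continuous_apply p).mul cPP).mul (continuous_mm R)).integrable_of_hasCompactSupport
        (mm_hasCompactSupport hR).mul_left).const_mul _).neg)
    · intro x
      simp only [neg_le_neg_iff]
      apply mul_le_mul_of_nonneg_left _ (by positivity)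
      apply mul_le_mul_of_nonneg_right _ (mm_nonneg _ _)
      exact mul_le_mul_of_nonneg_right (le_pp _) (by have := h.Psi_le x; linarith)
  have h3 : 4 / R ^ 2 * ∫ x, pp (x p) * (Psi (GG p x) - Psi (u x)) * mm R x
      ≤ 4 / R ^ 2 * ((4 * Kd n + L * L) * (2 * R) ^ (n - 1)) :=
    mul_le_mul_of_nonneg_left hJ (by positivity)
  rw [TT_one_eq, TT_one_eq, le_div_iff₀ (by positivity)]
  have e5 : ((∫ x, en (GG p) x * ph R x) / R ^ (n - 1) + 1 / 2 * (EX u p R / R ^ (n - 1))
      - 4 / R ^ 2 * ((4 * Kd n + L * L) * 2 ^ (n - 1))) * R ^ (n - 1)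
      = (∫ x, en (GG p) x * ph R x) + 1 / 2 * EX u p R
        - 4 / R ^ 2 * ((4 * Kd n + L * L) * (2 * R) ^ (n - 1)) := by
    rw [mul_pow]
    field_simp
  rw [e5]
  linarith

end Vale.Agent.P134.H891
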