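import Vale.Agent.P134.H891.Plane

set_option linter.all false

/-! Change of frame. -/

namespace Vale.Agent.P134.H891

open Vale.Agent.P134 Vale.Agent.P134.SM MeasureTheory Filter Topology
open Vale.Agent.P134.H787 (rot LI)
open Vale.Agent.P134.H370 (Flat gap J0 JJ TL TILT PA)

variable {n : ℕ} {u v : (Fin n → ℝ) → ℝ} {p q : Fin n} {a R H H' : ℝ}

open Classical in
/-- The jump. -/
noncomputable def jp (a s : ℝ) : ℝ := if a < s then Psi 1 else 0

lemma measurable_jp (a : ℝ) : Measurable (jp a) := by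
  unfold jp
  exact Measurable.ite measurableSet_Ioi measurable_const measurable_const

lemma Psi_one_nonneg : 0 ≤ Psi 1 := Psi_nonneg (by norm_num)

lemma jp_nonneg (a s : ℝ) : 0 ≤ jp a s := by
  unfold jp; split_ifs
  · exact Psi_one_nonneg
  · exact le_rfl

lemma jp_le_one (a s : ℝ) : jp a s ≤ 1 := by
  unfold jp; split_ifs
  · exact Psi_one_le
  · exact zero_le_one

/-- `∫_{B_ρ} |Ψ(v) - c₀ 1_{e·x > a}|`. -/
noncomputable def L1 (v : (Fin n → ℝ) → ℝ) (e : Fin n → ℝ) (a ρ : ℝ) : ℝ :=
  ∫ x in {x : Fin n → ℝ | esq x ≤ ρ ^ 2}, |Psi (v x) - jp a (∑ i, e i * x i)|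

lemma setIntegral_esq_rot (L : LI n) (f : (Fin n → ℝ) → ℝ) (r : ℝ) :
    ∫ x in {x : Fin n → ℝ | esq x ≤ r}, f (rot L x) = ∫ x in {x : Fin n → ℝ | esq x ≤ r}, f x :=
  H787.setIntegral_rho_rot L f r

lemma single_dot (p : Fin n) (x : Fin n → ℝ) :
    ∑ i, (Pi.single p (1:ℝ) : Fin n → ℝ) i * x i = x p := by
  simp [Pi.single_apply]

lemma L1_rot (L : LI n) (a ρ : ℝ) :
    L1 (fun x => v (rot L x)) (Pi.single p 1) a ρ = L1 v (rot L (Pi.single p 1)) a ρ := by
  unfold L1
  rw [← setIntegral_esq_rot L (fun x => |Psi (v x) - jp a (∑ i, rot L (Pi.single p 1) i * x i)|)]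
  simp only [rot_single_dot, single_dot]

lemma measurableSet_esq (r : ℝ) : MeasurableSet {x : Fin n → ℝ | esq x ≤ r} := by
  apply measurableSet_le _ measurable_const
  exact contDiff_esq.continuous.measurable

lemma esq_subset_box {r : ℝ} (hr : 0 ≤ r) : {x : Fin n → ℝ | esq x ≤ r ^ 2} ⊆ box n r := by
  intro x hx
  rw [mem_box]
  intro i
  exact abs_coord_le hr hx i

lemma volume_esq_lt_top (r : ℝ) : volume {x : Fin n → ℝ | esq x ≤ r ^ 2} < ⊤ := by
  have : {x : Fin n → ℝ | esq x ≤ r ^ 2} ⊆ box n |r| := by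
    rw [← sq_abs]; exact esq_subset_box (abs_nonneg r)
  exact (measure_mono this).trans_lt (volume_box_ne_top |r|).lt_top

lemma jp_sub_le (t : ℝ) : |jp 0 t - Psi (gp t)| ≤ 12 / (1 + t ^ 2) := by
  have hab := gp_abs t
  rcases lt_or_ge 0 t with ht | ht
  · have h1 : jp 0 t = Psi 1 := by unfold jp; rw [if_pos ht]
    rw [h1, abs_of_nonneg (by linarith [Psi_le_Psi_one hab])]
    have h2 := Psi_one_sub_le_sq hab
    have h3 := one_sub_gp_le t
    have h4 : 0 ≤ 1 - gp t := by linarith [gp_lt_one t]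
    have h5 : (1 - gp t) ^ 2 ≤ 4 * Real.exp (-t) := by
      calc (1 - gp t) ^ 2 ≤ (2 * Real.exp (-(√2 * t))) ^ 2 := pow_le_pow_left₀ h4 h3 2
        _ = 4 * Real.exp (-(√2 * t)) ^ 2 := by ring
        _ ≤ 4 * Real.exp (-t) := by
          rw [← Real.exp_nat_mul]
          have : Real.exp ((2:ℕ) * -(√2 * t)) ≤ Real.exp (-t) := by
            apply Real.exp_le_exp.mpr; push_cast; nlinarith [one_lt_sqrt2]
          linarith
    have h6 := exp_neg_le ht.le
    calc Psi 1 - Psi (gp t) ≤ 4 * Real.exp (-t) := h2.trans h5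
      _ ≤ 4 * (3 / (1 + t ^ 2)) := by linarith
      _ = _ := by ring
  · have h1 : jp 0 t = 0 := by unfold jp; rw [if_neg (not_lt.mpr ht)]
    rw [h1, zero_sub, abs_neg, abs_of_nonneg (Psi_nonneg hab)]
    have h2 := Psi_le_sq hab
    have h3 := one_add_gp_le t
    have h4 : 0 ≤ 1 + gp t := by linarith [neg_one_lt_gp t]
    have h5 : (1 + gp t) ^ 2 ≤ 4 * Real.exp (-(-t)) := by
      calc (1 + gp t) ^ 2 ≤ (2 * Real.exp (√2 * t)) ^ 2 := pow_le_pow_left₀ h4 h3 2
        _ = 4 * Real.exp (√2 * t) ^ 2 := by ring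
        _ ≤ 4 * Real.exp (-(-t)) := by
          rw [← Real.exp_nat_mul, neg_neg]
          have : Real.exp ((2:ℕ) * (√2 * t)) ≤ Real.exp t := by
            apply Real.exp_le_exp.mpr; push_cast; nlinarith [one_lt_sqrt2]
          linarith
    have h6 := exp_neg_le (t := -t) (by linarith)
    rw [neg_sq] at h6
    calc Psi (gp t) ≤ 4 * Real.exp (-(-t)) := h2.trans h5
      _ ≤ 4 * (3 / (1 + t ^ 2)) := by linarith
      _ = _ := by ring

lemma jp_shift (a s : ℝ) : jp a s = jp 0 (s - a) := by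
  unfold jp
  by_cases h : a < s
  · rw [if_pos h, if_pos (by linarith)]
  · rw [if_neg h, if_neg (by linarith)]

lemma J0_le (hu : Sol u) {ρ : ℝ} (hρ : 0 < ρ) (a : ℝ) :
    J0 u p a ρ ≤ L1 u (Pi.single p 1) a ρ + 48 * (2 * ρ) ^ (n - 1) := by
  have hc : Continuous (fun x => Psi (u x)) := Psi_comp_continuous hu
  set A : Set (Fin n → ℝ) := {x | esq x ≤ ρ ^ 2} with hA
  have hAm : MeasurableSet A := measurableSet_esq _
  have m1 : Measurable (fun x : Fin n → ℝ => jp a (x p)) :=
    (measurable_jp a).comp (measurable_pi_apply p)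
  have cg : Continuous (fun x : Fin n → ℝ => Psi (gp (x p - a))) :=
    continuous_Psi.comp (continuous_gp.comp (by fun_prop))
  -- the two pieces
  set F1 : (Fin n → ℝ) → ℝ := fun x => |Psi (u x) - jp a (x p)| with hF1
  set F2 : (Fin n → ℝ) → ℝ := fun x => |jp a (x p) - Psi (gp (x p - a))| * mm ρ x with hF2
  have hF1m : Measurable F1 := continuous_abs.measurable.comp (hc.measurable.sub m1)
  have hF1i : IntegrableOn F1 A := by
    apply Measure.integrableOn_of_bounded (M := 1) (volume_esq_lt_top ρ).ne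
    · exact hF1m.aestronglyMeasurable
    · refine Eventually.of_forall fun x => ?_
      have h1 := Psi_nonneg (hu.bd x)
      have h2 := Psi_le_one (hu.bd x)
      have h3 := jp_nonneg a (x p)
      have h4 := jp_le_one a (x p)
      rw [Real.norm_eq_abs, hF1]
      simp only [abs_abs]
      rw [abs_le]; constructor <;> linarith
  have hF2m : Measurable F2 :=
    (continuous_abs.measurable.comp (m1.sub cg.measurable)).mul (continuous_mm ρ).measurable
  have hF2i : Integrable F2 := by
    have hmi : Integrable (mm ρ : (Fin n → ℝ) → ℝ) :=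
      (continuous_mm ρ).integrable_of_hasCompactSupport (mm_hasCompactSupport hρ)
    refine hmi.mono' hF2m.aestronglyMeasurable (Eventually.of_forall fun x => ?_)
    have h1 := Psi_nonneg (gp_abs (x p - a))
    have h2 := Psi_le_one (gp_abs (x p - a))
    have h3 := jp_nonneg a (x p)
    have h4 := jp_le_one a (x p)
    have h5 := mm_nonneg ρ x
    have h6 : |jp a (x p) - Psi (gp (x p - a))| ≤ 1 := by
      rw [abs_le]; constructor <;> linarith
    rw [Real.norm_eq_abs, hF2, abs_mul, abs_abs, abs_of_nonneg h5]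
    nlinarith
  have key : J0 u p a ρ ≤ ∫ x, (A.indicator F1 x + F2 x) := by
    unfold J0
    apply integral_mono
    · refine Continuous.integrable_of_hasCompactSupport ?_ (mm_hasCompactSupport hρ).mul_left
      exact ((hc.sub cg).abs).mul (continuous_mm ρ)
    · exact ((integrable_indicator_iff hAm).mpr hF1i).add hF2i
    intro x
    have h5 := mm_nonneg ρ x
    have h6 := mm_le_one (r := ρ) x
    have h7 : gap u p a x ≤ F1 x + |jp a (x p) - Psi (gp (x p - a))| := abs_sub_le _ _ _
    by_cases hx : x ∈ A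
    · simp only [Set.indicator_of_mem hx, hF2]
      have h8 : 0 ≤ F1 x := abs_nonneg _
      nlinarith
    · have h9 : mm ρ x = 0 := by
        apply mm_eq_zero hρ
        simp only [hA, Set.mem_setOf_eq, not_le] at hx
        exact hx.le
      simp only [Set.indicator_of_notMem hx, hF2, h9, mul_zero, add_zero]
      exact le_rfl
  rw [integral_add ((integrable_indicator_iff hAm).mpr hF1i) hF2i, integral_indicator hAm] at key
  have e1 : ∫ x in A, F1 x = L1 u (Pi.single p 1) a ρ := by
    unfold L1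
    simp only [single_dot, hF1, hA]
  have e2 : ∫ x, F2 x ≤ (4 * 12 + 0 * 0) * (2 * ρ) ^ (n - 1) := by
    apply slab (p := p) (K := 12) (a := a) (M := 0) (L := 0) (by norm_num) le_rfl le_rfl hρ.le hF2i
    · intro x hx
      rw [hF2]
      simp only
      rw [mm_eq_zero_of_notMem hρ le_rfl hx, mul_zero]
    · intro x _
      have h1 := jp_sub_le (x p - a)
      rw [← jp_shift] at h1
      refine le_trans ?_ (maj_ge_left le_rfl)
      have h5 := mm_nonneg ρ x
      have h6 := mm_le_one (r := ρ) x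
      have h7 := abs_nonneg (jp a (x p) - Psi (gp (x p - a)))
      simp only [hF2]
      nlinarith
  rw [e1] at key
  have e3 : (4 * 12 + 0 * 0) * (2 * ρ) ^ (n - 1) = 48 * (2 * ρ) ^ (n - 1) := by ring
  linarith

/-- The new direction. -/
lemma newplane {b : Fin n → ℝ} (hb : b p = 0) (a' : ℝ) : ∃ (L : LI n) (a'' : ℝ),
    (∑ i, (rot L (Pi.single p 1) i - (Pi.single p (1:ℝ) : Fin n → ℝ) i) ^ 2 ≤ 2 * ∑ i, b i ^ 2) ∧
    |a'' - a'| ≤ |a'| * ∑ i, b i ^ 2 ∧
    ∀ z : Fin n → ℝ, (a'' < ∑ i, rot L (Pi.single p 1) i * z i ↔ a' + ∑ i, b i * z i < z p) := by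
  set B : ℝ := ∑ i, b i ^ 2 with hB
  have hB0 : 0 ≤ B := Finset.sum_nonneg fun i _ => sq_nonneg _
  set N : ℝ := √(1 + B) with hN
  have hN2 : N ^ 2 = 1 + B := Real.sq_sqrt (by linarith)
  have hN1 : 1 ≤ N := by rw [hN]; exact Real.one_le_sqrt.mpr (by linarith)
  have hNp : 0 < N := by linarith
  set e : Fin n → ℝ := fun i => ((Pi.single p (1:ℝ) : Fin n → ℝ) i - b i) / N with he
  have hs : ∀ i, (Pi.single p (1:ℝ) : Fin n → ℝ) i * b i = 0 := by
    intro i
    by_cases hi : i = p
    · subst hi; rw [hb, mul_zero]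
    · simp [Pi.single_apply, hi]
  have hs1 : ∑ i, (Pi.single p (1:ℝ) : Fin n → ℝ) i ^ 2 = 1 := by
    have := esq_single p (1:ℝ)
    simpa [esq] using this
  have hunit : ∑ i, e i ^ 2 = 1 := by
    have h1 : ∀ i, e i ^ 2 = ((Pi.single p (1:ℝ) : Fin n → ℝ) i ^ 2 + b i ^ 2) / N ^ 2 := by
      intro i
      simp only [he]
      rw [div_pow]
      congr 1
      have := hs i
      linear_combination -2 * this
    simp only [h1]
    rw [← Finset.sum_div, Finset.sum_add_distrib, hs1, hN2]
    exact div_self (by linarith)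
  obtain ⟨L, hL⟩ := H787.exists_rot p hunit
  refine ⟨L, a' / N, ?_, ?_, ?_⟩
  · rw [hL]
    have h1 : ∀ i, (e i - (Pi.single p (1:ℝ) : Fin n → ℝ) i) ^ 2
        = ((N - 1) ^ 2 * (Pi.single p (1:ℝ) : Fin n → ℝ) i ^ 2 + b i ^ 2) / N ^ 2 := by
      intro i
      simp only [he]
      rw [eq_div_iff (by positivity)]
      have := hs i
      field_simp
      linear_combination 2 * (N - 1) * this
    simp only [h1]
    rw [← Finset.sum_div, Finset.sum_add_distrib, ← Finset.mul_sum, hs1, mul_one,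
      div_le_iff₀ (by positivity), ← hB]
    nlinarith
  · have h1 : a' / N - a' = a' * (1 / N - 1) := by ring
    rw [h1, abs_mul]
    apply mul_le_mul_of_nonneg_left _ (abs_nonneg a')
    have h2 : 0 < 1 / N := by positivity
    have h3 : 1 / N ≤ 1 := by rw [div_le_one hNp]; exact hN1
    have h4 : 1 - 1 / N ≤ N - 1 := by
      have : N * (1 / N) = 1 := by field_simp
      nlinarith
    rw [abs_of_nonpos (by linarith)]
    nlinarith
  · intro z
    rw [hL]
    have h1 : ∑ i, e i * z i = (z p - ∑ i, b i * z i) / N := by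
      have h2 : ∀ i, e i * z i = ((Pi.single p (1:ℝ) : Fin n → ℝ) i * z i - b i * z i) / N := by
        intro i; simp only [he]; ring
      simp only [h2]
      rw [← Finset.sum_div, Finset.sum_sub_distrib, single_dot]
    rw [h1, div_lt_div_iff_of_pos_right hNp]
    constructor <;> intro h <;> linarith

end Vale.Agent.P134.H891
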