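import Vale.Agent.P134.H891.Cut

set_option linter.all false

open MeasureTheory Filter Topology

namespace Vale.Agent.P134.H891

variable {n : ℕ} {u χ : (Fin n → ℝ) → ℝ}

/-- Squared gradient. -/
noncomputable def gr (u : (Fin n → ℝ) → ℝ) (x : Fin n → ℝ) : ℝ := ∑ j, pd j u x ^ 2

/-- Radial derivative `x · ∇u`. -/
noncomputable def rd (u : (Fin n → ℝ) → ℝ) (x : Fin n → ℝ) : ℝ := ∑ j, x j * pd j u x

lemma gr_continuous (hu : ContDiff ℝ 2 u) : Continuous (gr u) :=
  continuous_finsetSum _ fun j _ => (contDiff_pd_one hu).continuous.pow 2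

lemma rd_continuous (hu : ContDiff ℝ 2 u) : Continuous (rd u) :=
  continuous_finsetSum _ fun j _ => (continuous_apply j).mul (contDiff_pd_one hu).continuous

lemma gr_eq (u : (Fin n → ℝ) → ℝ) (x : Fin n → ℝ) : gr u x = en u x - defi u x / 2 := by
  unfold gr en defi psi
  ring

/-- Stress tensor identity in one coordinate. -/
lemma stress (hu : Sol u) (q : Fin n) (hχ : ContDiff ℝ 1 χ) (hc : HasCompactSupport χ) :
    ∫ x, en u x * pd q χ x = ∫ x, pd q u x * ∑ j, pd j u x * pd j χ x := by
  rw [integral_mul_pd (en_contDiff hu.c2) hχ hc, integral_pd_en hu q hχ hc, neg_neg]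

lemma hcs_mul_left' {f g : (Fin n → ℝ) → ℝ} (hg : HasCompactSupport g) :
    HasCompactSupport (fun x => f x * g x) := hg.mul_left

/-- First part of the identity with weight `w = 1`. -/
lemma ident_one (hu : Sol u) {r : ℝ} (hr : 0 < r) :
    ∫ x, (((n : ℝ) - 1) * en u x + defi u x / 2) * ph r x
      = ∫ x, 4 * mm r x / r ^ 2 * (esq x * en u x - rd u x ^ 2) := by
  have cph : ContDiff ℝ 1 (ph r : (Fin n → ℝ) → ℝ) := ph_contDiff r
  have sph : HasCompactSupport (ph r : (Fin n → ℝ) → ℝ) := ph_hasCompactSupport hr
  have smm : HasCompactSupport (mm r : (Fin n → ℝ) → ℝ) := mm_hasCompactSupport hr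
  have cmm : Continuous (mm r : (Fin n → ℝ) → ℝ) := continuous_mm r
  have cen : Continuous (en u) := (en_contDiff hu.c2).continuous
  have cpd : ∀ j, Continuous (pd j u) := fun j => (contDiff_pd_one hu.c2).continuous
  have cx : ∀ q : Fin n, ContDiff ℝ 1 (fun x : Fin n → ℝ => x q) := fun q => contDiff_apply ℝ ℝ q
  set X : Fin n → (Fin n → ℝ) → ℝ := fun q x => ph r x * x q with hX
  have cX : ∀ q, ContDiff ℝ 1 (X q) := fun q => cph.mul (cx q)
  have sX : ∀ q, HasCompactSupport (X q) := fun q => sph.mul_right
  have pX : ∀ q j x, pd j (X q) x = (if q = j then ph r x else 0) - x q * x j * (4 * mm r x / r ^ 2) := by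
    intro q j x
    have d1 : DifferentiableAt ℝ (ph r : (Fin n → ℝ) → ℝ) x := cph.differentiable (by norm_num) x
    have d2 : DifferentiableAt ℝ (fun x : Fin n → ℝ => x q) x := (cx q).differentiable (by norm_num) x
    show pd j (fun x => ph r x * x q) x = _
    rw [pd_mul d1 d2, pd_ph, pd_coord]
    split_ifs <;> ring
  have h := Finset.sum_congr (s₁ := (Finset.univ : Finset (Fin n))) rfl
    (fun q (_ : q ∈ Finset.univ) => stress hu q (cX q) (sX q))
  have i1 : ∀ q ∈ (Finset.univ : Finset (Fin n)), Integrable (fun x => en u x * pd q (X q) x) :=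
    fun q _ => (cen.mul (continuous_pd (cX q))).integrable_of_hasCompactSupport
      (hasCompactSupport_pd (sX q)).mul_left
  have i2 : ∀ q ∈ (Finset.univ : Finset (Fin n)),
      Integrable (fun x => pd q u x * ∑ j, pd j u x * pd j (X q) x) := by
    intro q _
    have : (fun x => pd q u x * ∑ j, pd j u x * pd j (X q) x)
        = fun x => ∑ j, (pd q u x * pd j u x) * pd j (X q) x := by
      ext x; rw [Finset.mul_sum]
      apply Finset.sum_congr rfl; intro j _; ring
    rw [this]
    exact integrable_sum_mul (fun j => (cpd q).mul (cpd j))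
      (fun j => continuous_pd (cX q)) (fun j => hasCompactSupport_pd (sX q))
  rw [← integral_finsetSum _ i1, ← integral_finsetSum _ i2] at h
  have e1 : ∀ x, ∑ q, en u x * pd q (X q) x = en u x * (n * ph r x) - 4 * mm r x / r ^ 2 * (esq x * en u x) := by
    intro x
    rw [← Finset.mul_sum]
    simp_rw [pX]
    simp only [if_true]
    rw [Finset.sum_sub_distrib, ← Finset.sum_mul, Finset.sum_const, Finset.card_univ,
      Fintype.card_fin, nsmul_eq_mul]
    have : ∑ i, x i * x i = esq x := by
      unfold esq; exact Finset.sum_congr rfl fun i _ => by ring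
    rw [this]; ring
  have e2 : ∀ x, ∑ q, pd q u x * ∑ j, pd j u x * pd j (X q) x
      = gr u x * ph r x - 4 * mm r x / r ^ 2 * rd u x ^ 2 := by
    intro x
    have h1 : ∀ q, ∑ j, pd j u x * pd j (X q) x
        = pd q u x * ph r x - x q * (4 * mm r x / r ^ 2) * rd u x := by
      intro q
      simp_rw [pX]
      have h2 : ∀ j, pd j u x * ((if q = j then ph r x else 0) - x q * x j * (4 * mm r x / r ^ 2))
          = (if q = j then pd j u x * ph r x else 0) - x q * (4 * mm r x / r ^ 2) * (x j * pd j u x) := by
        intro j; split_ifs <;> ring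
      simp_rw [h2]
      rw [Finset.sum_sub_distrib, Finset.sum_ite_eq, if_pos (Finset.mem_univ _), ← Finset.mul_sum]
      rfl
    simp_rw [h1]
    have h3 : ∀ q, pd q u x * (pd q u x * ph r x - x q * (4 * mm r x / r ^ 2) * rd u x)
        = pd q u x ^ 2 * ph r x - (4 * mm r x / r ^ 2) * rd u x * (x q * pd q u x) := by
      intro q; ring
    simp_rw [h3]
    rw [Finset.sum_sub_distrib, ← Finset.sum_mul, ← Finset.mul_sum]
    unfold gr
    rw [show ∑ i, x i * pd i u x = rd u x from rfl]
    ring
  simp_rw [e1, e2] at h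
  have cd : Continuous (defi u) := hu.defi_continuous
  have crd : Continuous (rd u) := rd_continuous hu.c2
  have cgr : Continuous (gr u) := gr_continuous hu.c2
  have j1 : Integrable (fun x => en u x * (n * ph r x)) :=
    (cen.mul (continuous_const.mul cph.continuous)).integrable_of_hasCompactSupport
      (sph.mul_left.mul_left)
  have j2 : Integrable (fun x => 4 * mm r x / r ^ 2 * (esq x * en u x)) := by
    refine (((continuous_const.mul cmm).div_const _).mul (continuous_esq.mul cen)).integrable_of_hasCompactSupport ?_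
    exact HasCompactSupport.mul_right (HasCompactSupport.comp_left smm (g := fun t => 4 * t / r ^ 2) (by simp))
  have j3 : Integrable (fun x => gr u x * ph r x) :=
    (cgr.mul cph.continuous).integrable_of_hasCompactSupport sph.mul_left
  have j4 : Integrable (fun x => 4 * mm r x / r ^ 2 * rd u x ^ 2) := by
    refine (((continuous_const.mul cmm).div_const _).mul (crd.pow 2)).integrable_of_hasCompactSupport ?_
    exact HasCompactSupport.mul_right (HasCompactSupport.comp_left smm (g := fun t => 4 * t / r ^ 2) (by simp))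
  rw [integral_sub j1 j2, integral_sub j3 j4] at h
  have k1 : ∫ x, (((n : ℝ) - 1) * en u x + defi u x / 2) * ph r x
      = (∫ x, en u x * (n * ph r x)) - ∫ x, gr u x * ph r x := by
    rw [← integral_sub j1 j3]
    congr 1; ext x; rw [gr_eq]; ring
  have k2 : ∫ x, 4 * mm r x / r ^ 2 * (esq x * en u x - rd u x ^ 2)
      = (∫ x, 4 * mm r x / r ^ 2 * (esq x * en u x)) - ∫ x, 4 * mm r x / r ^ 2 * rd u x ^ 2 := by
    rw [← integral_sub j2 j4]
    congr 1; ext x; ring
  rw [k1, k2]
  linarith

/-- The identity with weight `w = x_p`. -/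
lemma ident_lin (hu : Sol u) {r : ℝ} (hr : 0 < r) (p : Fin n) :
    ∫ x, x p * ((((n : ℝ) - 1) * en u x + defi u x / 2) * ph r x)
      = ∫ x, x p * (4 * mm r x / r ^ 2 * (esq x * en u x - rd u x ^ 2)) := by
  have cph : ContDiff ℝ 1 (ph r : (Fin n → ℝ) → ℝ) := ph_contDiff r
  have sph : HasCompactSupport (ph r : (Fin n → ℝ) → ℝ) := ph_hasCompactSupport hr
  have smm : HasCompactSupport (mm r : (Fin n → ℝ) → ℝ) := mm_hasCompactSupport hr
  have cmm : Continuous (mm r : (Fin n → ℝ) → ℝ) := continuous_mm r
  have cen : Continuous (en u) := (en_contDiff hu.c2).continuous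
  have cpd : ∀ j, Continuous (pd j u) := fun j => (contDiff_pd_one hu.c2).continuous
  have cx : ∀ q : Fin n, ContDiff ℝ 1 (fun x : Fin n → ℝ => x q) := fun q => contDiff_apply ℝ ℝ q
  set X : Fin n → (Fin n → ℝ) → ℝ := fun q x => x p * (ph r x * x q) with hX
  have cX : ∀ q, ContDiff ℝ 1 (X q) := fun q => (cx p).mul (cph.mul (cx q))
  have sX : ∀ q, HasCompactSupport (X q) := fun q => sph.mul_right.mul_left
  have pX : ∀ q j x, pd j (X q) x = (if q = j then x p * ph r x else 0)
      - x p * (x q * x j * (4 * mm r x / r ^ 2)) + (if p = j then ph r x * x q else 0) := by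
    intro q j x
    have d1 : DifferentiableAt ℝ (ph r : (Fin n → ℝ) → ℝ) x := cph.differentiable (by norm_num) x
    have d2 : DifferentiableAt ℝ (fun x : Fin n → ℝ => x q) x := (cx q).differentiable (by norm_num) x
    have d3 : DifferentiableAt ℝ (fun x : Fin n → ℝ => x p) x := (cx p).differentiable (by norm_num) x
    show pd j (fun x => x p * (ph r x * x q)) x = _
    have d4 : DifferentiableAt ℝ (fun x : Fin n → ℝ => ph r x * x q) x := d1.mul d2
    rw [pd_mul d3 d4, pd_mul d1 d2, pd_ph, pd_coord, pd_coord]
    split_ifs <;> ring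
  have h := Finset.sum_congr (s₁ := (Finset.univ : Finset (Fin n))) rfl
    (fun q (_ : q ∈ Finset.univ) => stress hu q (cX q) (sX q))
  have i1 : ∀ q ∈ (Finset.univ : Finset (Fin n)), Integrable (fun x => en u x * pd q (X q) x) :=
    fun q _ => (cen.mul (continuous_pd (cX q))).integrable_of_hasCompactSupport
      (hasCompactSupport_pd (sX q)).mul_left
  have i2 : ∀ q ∈ (Finset.univ : Finset (Fin n)),
      Integrable (fun x => pd q u x * ∑ j, pd j u x * pd j (X q) x) := by
    intro q _
    have : (fun x => pd q u x * ∑ j, pd j u x * pd j (X q) x)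
        = fun x => ∑ j, (pd q u x * pd j u x) * pd j (X q) x := by
      ext x; rw [Finset.mul_sum]
      apply Finset.sum_congr rfl; intro j _; ring
    rw [this]
    exact integrable_sum_mul (fun j => (cpd q).mul (cpd j))
      (fun j => continuous_pd (cX q)) (fun j => hasCompactSupport_pd (sX q))
  rw [← integral_finsetSum _ i1, ← integral_finsetSum _ i2] at h
  have e1 : ∀ x, ∑ q, en u x * pd q (X q) x = x p * (en u x * (n * ph r x))
      - x p * (4 * mm r x / r ^ 2 * (esq x * en u x)) + en u x * (x p * ph r x) := by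
    intro x
    rw [← Finset.mul_sum]
    simp_rw [pX]
    simp only [if_true]
    rw [Finset.sum_add_distrib, Finset.sum_sub_distrib,
      Finset.sum_const, Finset.card_univ, Fintype.card_fin, nsmul_eq_mul, Finset.sum_ite_eq,
      if_pos (Finset.mem_univ _)]
    have : ∑ i, x p * (x i * x i * (4 * mm r x / r ^ 2)) = x p * (esq x * (4 * mm r x / r ^ 2)) := by
      rw [← Finset.mul_sum, ← Finset.sum_mul]
      congr 2
      unfold esq; exact Finset.sum_congr rfl fun i _ => by ring
    rw [this]; ring
  have e2 : ∀ x, ∑ q, pd q u x * ∑ j, pd j u x * pd j (X q) x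
      = x p * (gr u x * ph r x) - x p * (4 * mm r x / r ^ 2 * rd u x ^ 2)
        + ph r x * (pd p u x * rd u x) := by
    intro x
    have h1 : ∀ q, ∑ j, pd j u x * pd j (X q) x
        = x p * (pd q u x * ph r x) - x p * (x q * (4 * mm r x / r ^ 2) * rd u x)
          + ph r x * (x q * pd p u x) := by
      intro q
      simp_rw [pX]
      have h2 : ∀ j, pd j u x * ((if q = j then x p * ph r x else 0)
            - x p * (x q * x j * (4 * mm r x / r ^ 2)) + (if p = j then ph r x * x q else 0))
          = (if q = j then x p * (pd j u x * ph r x) else 0)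
            - x p * (x q * (4 * mm r x / r ^ 2)) * (x j * pd j u x)
            + (if p = j then ph r x * (x q * pd j u x) else 0) := by
        intro j; split_ifs <;> ring
      simp_rw [h2]
      rw [Finset.sum_add_distrib, Finset.sum_sub_distrib, Finset.sum_ite_eq,
        if_pos (Finset.mem_univ _), Finset.sum_ite_eq, if_pos (Finset.mem_univ _),
        ← Finset.mul_sum]
      unfold rd
      ring
    simp_rw [h1]
    have h3 : ∀ q, pd q u x * (x p * (pd q u x * ph r x)
          - x p * (x q * (4 * mm r x / r ^ 2) * rd u x) + ph r x * (x q * pd p u x))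
        = x p * ph r x * pd q u x ^ 2 - x p * (4 * mm r x / r ^ 2) * rd u x * (x q * pd q u x)
          + ph r x * pd p u x * (x q * pd q u x) := by
      intro q; ring
    simp_rw [h3]
    rw [Finset.sum_add_distrib, Finset.sum_sub_distrib, ← Finset.mul_sum, ← Finset.mul_sum,
      ← Finset.mul_sum]
    unfold gr
    rw [show ∑ i, x i * pd i u x = rd u x from rfl]
    ring
  simp_rw [e1, e2] at h
  have h' := stress hu p (ps_contDiff r) (ps_hasCompactSupport hr)
  have e3 : ∀ x, pd p u x * ∑ j, pd j u x * pd j (ps r) x = - (ph r x * (pd p u x * rd u x)) := by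
    intro x
    simp_rw [pd_ps hr]
    have : ∀ j, pd j u x * -(x j * ph r x) = - ph r x * (x j * pd j u x) := by intro j; ring
    simp_rw [this]
    rw [← Finset.mul_sum, show ∑ i, x i * pd i u x = rd u x from rfl]
    ring
  simp_rw [e3, pd_ps hr] at h'
  have e4 : ∀ x : Fin n → ℝ, en u x * -(x p * ph r x) = - (en u x * (x p * ph r x)) := by
    intro x; ring
  simp_rw [e4] at h'
  rw [integral_neg, integral_neg, neg_inj] at h'
  have cd : Continuous (defi u) := hu.defi_continuous
  have crd : Continuous (rd u) := rd_continuous hu.c2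
  have cgr : Continuous (gr u) := gr_continuous hu.c2
  have cxp : Continuous (fun x : Fin n → ℝ => x p) := continuous_apply p
  have s4 : HasCompactSupport (fun x : Fin n → ℝ => 4 * mm r x / r ^ 2) :=
    HasCompactSupport.comp_left smm (g := fun t => 4 * t / r ^ 2) (by simp)
  have j1 : Integrable (fun x => x p * (en u x * (n * ph r x))) :=
    (cxp.mul (cen.mul (continuous_const.mul cph.continuous))).integrable_of_hasCompactSupport
      (sph.mul_left.mul_left.mul_left)
  have j2 : Integrable (fun x => x p * (4 * mm r x / r ^ 2 * (esq x * en u x))) := by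
    refine (cxp.mul (((continuous_const.mul cmm).div_const _).mul (continuous_esq.mul cen))).integrable_of_hasCompactSupport ?_
    exact s4.mul_right.mul_left
  have j3 : Integrable (fun x => x p * (gr u x * ph r x)) :=
    (cxp.mul (cgr.mul cph.continuous)).integrable_of_hasCompactSupport sph.mul_left.mul_left
  have j4 : Integrable (fun x => x p * (4 * mm r x / r ^ 2 * rd u x ^ 2)) := by
    refine (cxp.mul (((continuous_const.mul cmm).div_const _).mul (crd.pow 2))).integrable_of_hasCompactSupport ?_
    exact s4.mul_right.mul_left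
  have j5 : Integrable (fun x => en u x * (x p * ph r x)) :=
    (cen.mul (cxp.mul cph.continuous)).integrable_of_hasCompactSupport sph.mul_left.mul_left
  have j6 : Integrable (fun x => ph r x * (pd p u x * rd u x)) :=
    (cph.continuous.mul ((cpd p).mul crd)).integrable_of_hasCompactSupport sph.mul_right
  have g1 : ∫ x, (x p * (en u x * (n * ph r x))
      - x p * (4 * mm r x / r ^ 2 * (esq x * en u x)) + en u x * (x p * ph r x))
      = (∫ x, x p * (en u x * (n * ph r x)))
        - (∫ x, x p * (4 * mm r x / r ^ 2 * (esq x * en u x))) + ∫ x, en u x * (x p * ph r x) := by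
    rw [← integral_sub j1 j2]
    exact integral_add (j1.sub j2) j5
  have g2 : ∫ x, (x p * (gr u x * ph r x) - x p * (4 * mm r x / r ^ 2 * rd u x ^ 2)
        + ph r x * (pd p u x * rd u x))
      = (∫ x, x p * (gr u x * ph r x)) - (∫ x, x p * (4 * mm r x / r ^ 2 * rd u x ^ 2))
        + ∫ x, ph r x * (pd p u x * rd u x) := by
    rw [← integral_sub j3 j4]
    exact integral_add (j3.sub j4) j6
  rw [g1, g2] at h
  have k1 : ∫ x, x p * ((((n : ℝ) - 1) * en u x + defi u x / 2) * ph r x)
      = (∫ x, x p * (en u x * (n * ph r x))) - ∫ x, x p * (gr u x * ph r x) := by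
    rw [← integral_sub j1 j3]
    congr 1; ext x; rw [gr_eq]; ring
  have k2 : ∫ x, x p * (4 * mm r x / r ^ 2 * (esq x * en u x - rd u x ^ 2))
      = (∫ x, x p * (4 * mm r x / r ^ 2 * (esq x * en u x)))
        - ∫ x, x p * (4 * mm r x / r ^ 2 * rd u x ^ 2) := by
    rw [← integral_sub j2 j4]
    congr 1; ext x; ring
  rw [k1, k2]
  linarith

end Vale.Agent.P134.H891
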