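import Vale.Agent.P134.H891.Sign

set_option linter.all false

open MeasureTheory Filter Topology

namespace Vale.Agent.P134.H891

/-- Abstract iteration lemma. -/
lemma iter {a : ℕ → ℝ} {K : ℝ} {k : ℕ} (hK : 0 ≤ K)
    (hA : ∀ ε : ℝ, 0 < ε → ∀ᶠ j in atTop, a j ≤ ε * 2 ^ j)
    (hB : ∀ δ : ℝ, 0 < δ → ∀ᶠ j in atTop, a (j + 1) ≤ a j + K + δ * a (j + k)) :
    ∃ A : ℝ, 0 ≤ A ∧ ∀ᶠ j in atTop, a j ≤ A * (√2) ^ j := by
  have hs1 := one_lt_sqrt2
  have hs2 := sqrt2_lt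
  have hs := sqrt2_sq
  have h14 : (7:ℝ) / 5 ≤ √2 := by nlinarith [sqrt2_pos]
  set δ : ℝ := 1 / (4 * 2 ^ k) with hδ
  have hδ0 : 0 < δ := by positivity
  have hδ2 : δ * 2 ^ k = 1 / 4 := by rw [hδ]; field_simp
  have hδs : δ * (√2) ^ k ≤ 1 / 4 := by
    rw [← hδ2]
    apply mul_le_mul_of_nonneg_left _ hδ0.le
    apply pow_le_pow_left₀ (by positivity)
    linarith
  obtain ⟨N, hN⟩ := eventually_atTop.mp (hB δ hδ0)
  set A : ℝ := max (a N) 0 + 8 * K with hAd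
  have hA0 : 0 ≤ A := by positivity
  have hAN : a N ≤ A := by
    have := le_max_left (a N) 0
    linarith
  have hAK : 8 * K ≤ A := by
    have := le_max_right (a N) 0
    linarith
  have hpow1 : ∀ j : ℕ, (1:ℝ) ≤ (√2) ^ j := fun j => one_le_pow₀ hs1.le
  have key : ∀ η : ℝ, 0 < η → ∀ j, N ≤ j → a j ≤ A * (√2) ^ j + η * 2 ^ j := by
    intro η hη
    obtain ⟨M, hM⟩ := eventually_atTop.mp (hA η hη)
    set b : ℕ → ℝ := fun j => A * (√2) ^ j + η * 2 ^ j with hb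
    have hbpos : ∀ j, 0 < b j := fun j => by simp only [hb]; positivity
    by_contra hcon
    push Not at hcon
    obtain ⟨j0, hj0, hj1⟩ := hcon
    set M' := max M j0 with hM'
    obtain ⟨J, hJ, hJmax⟩ := Finset.exists_max_image (Finset.Icc N M') (fun j => a j / b j)
      ⟨j0, Finset.mem_Icc.mpr ⟨hj0, le_max_right _ _⟩⟩
    rw [Finset.mem_Icc] at hJ
    set s : ℝ := a J / b J with hsd
    have hs1' : 1 < s := by
      have h1 := hJmax j0 (Finset.mem_Icc.mpr ⟨hj0, le_max_right _ _⟩)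
      have h2 : 1 < a j0 / b j0 := by rw [lt_div_iff₀ (hbpos _), one_mul]; exact hj1
      exact lt_of_lt_of_le h2 h1
    have hall : ∀ j, N ≤ j → a j ≤ s * b j := by
      intro j hj
      by_cases hjM : j ≤ M'
      · have h1 := hJmax j (Finset.mem_Icc.mpr ⟨hj, hjM⟩)
        rw [← div_le_iff₀ (hbpos j)]
        exact h1
      · push Not at hjM
        have h1 := hM j ((le_max_left _ _).trans hjM.le)
        have h2 : η * 2 ^ j ≤ b j := by
          simp only [hb]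
          have : 0 ≤ A * (√2) ^ j := by positivity
          linarith
        have h3 := hbpos j
        nlinarith
    have hJa : a J = s * b J := by rw [hsd]; field_simp [(hbpos J).ne']
    have hJN : J ≠ N := by
      rintro rfl
      have h1 : A ≤ b J := by
        simp only [hb]
        have h2 := hpow1 J
        have h3 : 0 ≤ η * 2 ^ J := by positivity
        nlinarith
      have h2 := hbpos J
      nlinarith
    obtain ⟨j, rfl⟩ : ∃ j, J = j + 1 := ⟨J - 1, by omega⟩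
    have hjN : N ≤ j := by omega
    have h1 := hN j hjN
    have h2 := hall j hjN
    have h3 := hall (j + k) (by omega)
    have h4 : a (j + 1) ≤ s * (b j + δ * b (j + k) + K) := by
      have h5 : δ * a (j + k) ≤ δ * (s * b (j + k)) := mul_le_mul_of_nonneg_left h3 hδ0.le
      have h6 : K ≤ s * K := by nlinarith
      calc a (j + 1) ≤ s * b j + s * K + δ * (s * b (j + k)) := by linarith
        _ = _ := by ring
    rw [hJa] at h4
    have h5 : b (j + 1) ≤ b j + δ * b (j + k) + K := le_of_mul_le_mul_left h4 (by linarith)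
    simp only [hb, pow_add, pow_one] at h5
    have h6 : 0 ≤ A * (√2) ^ j := by positivity
    have h7 : 0 < η * 2 ^ j := by positivity
    have h8 : δ * (A * ((√2) ^ j * (√2) ^ k) + η * (2 ^ j * 2 ^ k))
        = (A * (√2) ^ j) * (δ * (√2) ^ k) + (η * 2 ^ j) * (δ * 2 ^ k) := by ring
    rw [h8, hδ2] at h5
    have h9 : (A * (√2) ^ j) * (δ * (√2) ^ k) ≤ (A * (√2) ^ j) * (1 / 4) :=
      mul_le_mul_of_nonneg_left hδs h6
    have h10 : (A * (√2) ^ j) * (7 / 5) ≤ (A * (√2) ^ j) * √2 := mul_le_mul_of_nonneg_left h14 h6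
    have h11 : A * ((√2) ^ j * √2) = (A * (√2) ^ j) * √2 := by ring
    have h12 : A ≤ A * (√2) ^ j := le_mul_of_one_le_right hA0 (hpow1 j)
    rw [h11] at h5
    linarith
  refine ⟨A, hA0, eventually_atTop.mpr ⟨N, fun j hj => ?_⟩⟩
  apply le_of_forall_pos_le_add
  intro ε hε
  have := key (ε / 2 ^ j) (by positivity) j hj
  rwa [div_mul_cancel₀ _ (by positivity)] at this

/-- Numerical step. -/
lemma num_step {c1 C δ y P κ : ℝ} (hc10 : 0 ≤ c1) (hδ : 0 < δ) (hP : 1 ≤ P) (hκ : 0 < κ)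
    (hy : 1 ≤ y) (f1 : y ≤ min (δ / (2 * (c1 * C ^ 2 * κ ^ 2 + 1))) 1 * (P * κ))
    (f2 : c1 * 2 ≤ δ * P) : y * (c1 / P ^ 2 + c1 * C ^ 2 * (y / P) ^ 2) ≤ δ * y := by
  have hR0 : 0 < P := by linarith
  set ε : ℝ := δ / (2 * (c1 * C ^ 2 * κ ^ 2 + 1)) with hε
  have hε0 : 0 < ε := by positivity
  have g8 : c1 / P ^ 2 ≤ δ / 2 := by
    rw [div_le_iff₀ (by positivity)]
    have h1 : P ≤ P ^ 2 := by nlinarith
    have h2 : δ * P ≤ δ * P ^ 2 := mul_le_mul_of_nonneg_left h1 hδ.le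
    linarith
  have g9 : y / P ≤ min ε 1 * κ := by
    rw [div_le_iff₀ hR0]
    calc y ≤ min ε 1 * (P * κ) := f1
      _ = _ := by ring
  have t1 : (y / P) ^ 2 ≤ (min ε 1 * κ) ^ 2 :=
    pow_le_pow_left₀ (by positivity) g9 2
  have t2 : (min ε 1) ^ 2 ≤ ε := by
    have t3 : min ε 1 ≤ ε := min_le_left _ _
    have t4 : min ε 1 ≤ 1 := min_le_right _ _
    have t5 : 0 < min ε 1 := by positivity
    nlinarith
  have t3 : c1 * C ^ 2 * (y / P) ^ 2 ≤ c1 * C ^ 2 * κ ^ 2 * ε := by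
    calc c1 * C ^ 2 * (y / P) ^ 2 ≤ c1 * C ^ 2 * ((min ε 1 * κ) ^ 2) :=
          mul_le_mul_of_nonneg_left t1 (by positivity)
      _ = c1 * C ^ 2 * κ ^ 2 * (min ε 1) ^ 2 := by ring
      _ ≤ _ := mul_le_mul_of_nonneg_left t2 (by positivity)
  have t4 : c1 * C ^ 2 * κ ^ 2 * ε ≤ δ / 2 := by
    rw [hε, mul_div_assoc', div_le_iff₀ (by positivity)]
    have : 0 ≤ c1 * C ^ 2 * κ ^ 2 := by positivity
    have h2 : δ / 2 * (2 * (c1 * C ^ 2 * κ ^ 2 + 1)) = c1 * C ^ 2 * κ ^ 2 * δ + δ := by ring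
    rw [h2]
    linarith
  have g11 : y * (c1 / P ^ 2 + c1 * C ^ 2 * (y / P) ^ 2) ≤ y * δ :=
    mul_le_mul_of_nonneg_left (by linarith) (by linarith)
  linarith

/-- Numerical step 2. -/
lemma num_step2 {L L' C E y P : ℝ} (hC : 1 ≤ C) (hE : 0 ≤ E) (hy : 1 ≤ y) (hP : 0 < P)
    (hL0 : 0 ≤ L) (hL'0 : 0 ≤ L') (hLy : L ≤ C * y) (hL'y : L' ≤ C * y) :
    L' * (E * (1 + L ^ 2) / P ^ 2) ≤ y * (C * E / P ^ 2 + C * E * C ^ 2 * (y / P) ^ 2) := by
  have g6 : L' * (E * (1 + L ^ 2) / P ^ 2) ≤ (C * y) * (E * (1 + (C * y) ^ 2) / P ^ 2) := by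
    apply mul_le_mul hL'y _ (by positivity) (by positivity)
    apply div_le_div_of_nonneg_right _ (by positivity)
    apply mul_le_mul_of_nonneg_left _ hE
    have := pow_le_pow_left₀ hL0 hLy 2
    linarith
  have g7 : (C * y) * (E * (1 + (C * y) ^ 2) / P ^ 2)
      = y * (C * E / P ^ 2 + C * E * C ^ 2 * (y / P) ^ 2) := by
    field_simp
  rw [← g7]
  exact g6

variable {n : ℕ} {u : (Fin n → ℝ) → ℝ} {p q : Fin n}

/-- The height functional grows at most like the square root. -/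
theorem SS_sqrt (h : Mix u p q) {C : ℝ} (hC : 1 ≤ C)
    (hD : ∀ᶠ R in atTop, Dec u p R (C * SS p u (2 * kap n * R))) :
    ∃ A : ℝ, 0 ≤ A ∧ ∀ᶠ R in atTop, SS p u R ^ 2 ≤ A * R := by
  have hc := clean_of_Dec h hC hD
  have hk := one_le_kap (n := n)
  have hmono := SS_mono h.sol h.le
  have hge := fun {r : ℝ} (hr : 1 ≤ r) => SS_ge_one h.sol h.le hr
  obtain ⟨m, hm⟩ : ∃ m : ℕ, kap n ≤ 2 ^ m := pow_unbounded_of_one_lt _ (by norm_num) |>.imp
    fun m hm => hm.le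
  set K : ℝ := 4 * Kd n * 2 ^ (n - 1) + KK n with hK
  have hK0 : 0 ≤ K := by
    have := Kd_nonneg (n := n)
    have := KK_nonneg (n := n)
    positivity
  have hCex := Cex_nonneg (n := n)
  set a : ℕ → ℝ := fun j => SS p u (2 ^ j) with ha
  have hpow : Tendsto (fun j : ℕ => (2:ℝ) ^ j) atTop atTop :=
    tendsto_pow_atTop_atTop_of_one_lt (by norm_num)
  have hA : ∀ ε : ℝ, 0 < ε → ∀ᶠ j in atTop, a j ≤ ε * 2 ^ j := fun ε hε =>
    hpow.eventually (SS_small h hε)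
  have ha1 : ∀ j, 1 ≤ a j := fun j => hge (one_le_pow₀ (by norm_num))
  have hB : ∀ δ : ℝ, 0 < δ → ∀ᶠ j in atTop, a (j + 1) ≤ a j + K + δ * a (j + (m + 2)) := by
    intro δ hδ
    set c1 : ℝ := C * Cex n with hc1
    have hc10 : 0 ≤ c1 := by positivity
    -- smallness
    have e1 : ∀ᶠ j : ℕ in atTop, a (j + (m + 2)) ≤
        min (δ / (2 * (c1 * C ^ 2 * (2 ^ (m + 2)) ^ 2 + 1))) 1 * 2 ^ (j + (m + 2)) :=
      (tendsto_add_atTop_nat (m + 2)).eventually (hA _ (by positivity))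
    have e2 : ∀ᶠ j : ℕ in atTop, c1 * 2 ≤ δ * 2 ^ j :=
      (hpow.const_mul_atTop hδ).eventually_ge_atTop _
    have e3 := hpow.eventually hD
    have e4 : ∀ᶠ j : ℕ in atTop, Dec u p (2 * 2 ^ j) (C * SS p u (2 * kap n * (2 * 2 ^ j))) :=
      (hpow.const_mul_atTop (by norm_num : (0:ℝ) < 2)).eventually hD
    filter_upwards [e1, e2, e3, e4] with j f1 f2 f3 f4
    have hR0 : (0:ℝ) < 2 ^ j := by positivity
    have hR1 : (1:ℝ) ≤ 2 ^ j := one_le_pow₀ (by norm_num)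
    have hkj : kap n * 2 ^ j ≤ 2 ^ m * 2 ^ j := mul_le_mul_of_nonneg_right hm hR0.le
    have hkj1 : 1 ≤ kap n * 2 ^ j := by
      have := mul_le_mul hk hR1 (by norm_num) (by linarith)
      linarith
    have hpp : (2:ℝ) ^ (j + (m + 2)) = 4 * (2 ^ m * 2 ^ j) := by rw [pow_add, pow_add]; ring
    have g1 : SS p u (2 * kap n * 2 ^ j) ≤ a (j + (m + 2)) := by
      apply hmono
      · exact Set.mem_Ioi.mpr (by positivity)
      · exact Set.mem_Ioi.mpr (by positivity)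
      · rw [hpp]; linarith
    have g2 : SS p u (2 * kap n * (2 * 2 ^ j)) ≤ a (j + (m + 2)) := by
      apply hmono
      · exact Set.mem_Ioi.mpr (by positivity)
      · exact Set.mem_Ioi.mpr (by positivity)
      · rw [hpp]; linarith
    have g3 : 1 ≤ SS p u (2 * kap n * 2 ^ j) := hge (by linarith)
    have g4 : 1 ≤ SS p u (2 * kap n * (2 * 2 ^ j)) := hge (by linarith)
    have hL0 : 0 ≤ C * SS p u (2 * kap n * 2 ^ j) := mul_nonneg (by linarith) (by linarith)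
    have hL'0 : 0 ≤ C * SS p u (2 * kap n * (2 * 2 ^ j)) := mul_nonneg (by linarith) (by linarith)
    have g5 := SS_growth h hc hR0 hL0 hL'0 f3 f4
    have hy1 : 1 ≤ a (j + (m + 2)) := ha1 _
    have g6 := num_step2 hC hCex hy1 hR0 hL0 hL'0 (mul_le_mul_of_nonneg_left g1 (by linarith))
      (mul_le_mul_of_nonneg_left g2 (by linarith))
    rw [pow_add 2 j (m + 2)] at f1
    have g7 := num_step (C := C) hc10 hδ hR1 (by positivity : (0:ℝ) < 2 ^ (m + 2)) hy1 f1 f2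
    have g12 : a (j + 1) = SS p u (2 * 2 ^ j) := by
      simp only [ha]; congr 1; ring
    rw [g12]
    have g13 : a j = SS p u (2 ^ j) := rfl
    rw [g13]
    linarith
  obtain ⟨A, hA0, hAe⟩ := iter hK0 hA hB
  obtain ⟨N, hN⟩ := eventually_atTop.mp hAe
  refine ⟨2 * A ^ 2, by positivity, ?_⟩
  filter_upwards [eventually_ge_atTop ((2:ℝ) ^ N)] with R hR
  have hR1 : 1 ≤ R := le_trans (one_le_pow₀ (by norm_num)) hR
  have hR0 : 0 < R := by linarith
  obtain ⟨j, hj1, hj2⟩ : ∃ j : ℕ, (2:ℝ) ^ j ≤ R ∧ R < 2 ^ (j + 1) :=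
    exists_nat_pow_near hR1 (by norm_num)
  have hjN : N ≤ j := by
    by_contra hcon
    push Not at hcon
    have : (2:ℝ) ^ (j + 1) ≤ 2 ^ N := pow_le_pow_right₀ (by norm_num) hcon
    linarith
  have h1 := hN (j + 1) (by omega)
  have h2 : SS p u R ≤ a (j + 1) := hmono (Set.mem_Ioi.mpr hR0)
    (Set.mem_Ioi.mpr (by positivity)) hj2.le
  have h3 : 0 ≤ SS p u R := by have := hge hR1; linarith
  calc SS p u R ^ 2 ≤ (A * (√2) ^ (j + 1)) ^ 2 := pow_le_pow_left₀ h3 (h2.trans h1) 2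
    _ = A ^ 2 * ((√2) ^ 2) ^ (j + 1) := by ring
    _ = A ^ 2 * 2 ^ (j + 1) := by rw [sqrt2_sq]
    _ = 2 * A ^ 2 * 2 ^ j := by ring
    _ ≤ 2 * A ^ 2 * R := mul_le_mul_of_nonneg_left hj1 (by positivity)

/-- The tangential energy bound. -/
theorem EX_bound (h : Mix u p q) (hlow : Low u p q) :
    ∃ B : ℝ, 0 ≤ B ∧ ∀ᶠ R in atTop, EX u p R ≤ B * (R ^ (n - 1) / R) := by
  obtain ⟨C, hC, hD⟩ := exists_Dec h hlow
  have hc := clean_of_Dec h hC hD
  have hk := one_le_kap (n := n)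
  obtain ⟨A, hA0, hA⟩ := SS_sqrt h hC hD
  have h2 : Tendsto (fun R : ℝ => 2 * kap n * R) atTop atTop :=
    tendsto_id.const_mul_atTop (by positivity)
  have hCex := Cex_nonneg (n := n)
  refine ⟨2 * (Cex n * (1 + C ^ 2 * (A * (2 * kap n)))), by positivity, ?_⟩
  filter_upwards [h2.eventually hA, hD, eventually_ge_atTop 1] with R h3 h4 h5
  have hR0 : 0 < R := by linarith
  have hS := SS_ge_one h.sol h.le (r := 2 * kap n * R) (by nlinarith)
  set L := C * SS p u (2 * kap n * R) with hL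
  have hL0 : 0 ≤ L := by rw [hL]; nlinarith
  have h6 := excess h hc hR0 hL0 h4
  have h7 := Th_mono h.sol p (Set.mem_Ioi.mpr hR0) (Set.mem_Ioi.mpr (by linarith : 0 < 2 * R))
    (by linarith)
  have h8 : L ^ 2 ≤ C ^ 2 * (A * (2 * kap n)) * R := by
    rw [hL, mul_pow]
    calc C ^ 2 * SS p u (2 * kap n * R) ^ 2 ≤ C ^ 2 * (A * (2 * kap n * R)) :=
          mul_le_mul_of_nonneg_left h3 (by positivity)
      _ = _ := by ring
  have h9 : Cex n * (1 + L ^ 2) / R ^ 2 ≤ Cex n * (1 + C ^ 2 * (A * (2 * kap n))) / R := by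
    rw [div_le_div_iff₀ (by positivity) hR0]
    have h10 : 1 + L ^ 2 ≤ (1 + C ^ 2 * (A * (2 * kap n))) * R := by nlinarith
    have h11 := mul_le_mul_of_nonneg_left h10 hCex
    nlinarith
  have h10 : EX u p R / R ^ (n - 1) ≤ 2 * (Cex n * (1 + C ^ 2 * (A * (2 * kap n)))) / R := by
    have e : 2 * (Cex n * (1 + C ^ 2 * (A * (2 * kap n)))) / R
        = 2 * (Cex n * (1 + C ^ 2 * (A * (2 * kap n))) / R) := by ring
    rw [e]
    linarith
  rw [div_le_iff₀ (by positivity)] at h10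
  calc EX u p R ≤ _ := h10
    _ = _ := by ring

end Vale.Agent.P134.H891
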