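import Vale.Agent.P134.H891.Iter

set_option linter.all false

open MeasureTheory Filter Topology

namespace Vale.Agent.P134.H891

variable {n : ℕ} {u φ ψ V : (Fin n → ℝ) → ℝ} {p q : Fin n}

/-- Averaged logarithmic cut-off in `n` variables. -/
noncomputable def avn (ρ : ℝ) (N : ℕ) (x : Fin n → ℝ) : ℝ :=
  (N : ℝ)⁻¹ * ∑ k ∈ Finset.range N, cutb Finset.univ (2 ^ k * ρ) x

lemma avn_contDiff {ρ : ℝ} {N : ℕ} : ContDiff ℝ 1 (avn ρ N : (Fin n → ℝ) → ℝ) :=
  contDiff_const.mul (ContDiff.sum fun _ _ => cutb_contDiff _ _)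

lemma rho_univ (x : Fin n → ℝ) : rho Finset.univ x = esq x := rfl

lemma avn_hasCompactSupport {ρ : ℝ} (hρ : 0 < ρ) {N : ℕ} :
    HasCompactSupport (avn ρ N : (Fin n → ℝ) → ℝ) := by
  apply HasCompactSupport.intro (isCompact_box (2 * (2 ^ N * ρ)))
  intro x hx
  unfold avn
  rw [Finset.sum_eq_zero, mul_zero]
  intro k hk
  rw [mem_box] at hx
  push Not at hx
  obtain ⟨i, hi⟩ := hx
  apply cutb_eq_zero_of_abs (by positivity) (Finset.mem_univ i)
  refine lt_of_le_of_lt ?_ hi
  have : (2:ℝ) ^ k ≤ 2 ^ N := pow_le_pow_right₀ (by norm_num) (Finset.mem_range.mp hk).le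
  nlinarith

lemma pd_avn {ρ : ℝ} {N : ℕ} (x : Fin n → ℝ) (i : Fin n) :
    pd i (avn ρ N) x = (N : ℝ)⁻¹ * ∑ k ∈ Finset.range N, pd i (cutb Finset.univ (2 ^ k * ρ)) x := by
  have d1 : ∀ k ∈ Finset.range N,
      DifferentiableAt ℝ (cutb (Finset.univ : Finset (Fin n)) (2 ^ k * ρ)) x :=
    fun k _ => (cutb_contDiff _ _).differentiable (by norm_num) x
  have d2 : DifferentiableAt ℝ
      (fun y => ∑ k ∈ Finset.range N, cutb (Finset.univ : Finset (Fin n)) (2 ^ k * ρ) y) x :=
    DifferentiableAt.fun_sum d1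
  unfold avn
  rw [pd_mul (differentiableAt_const _) d2, pd_const, pd_sum _ d1]
  ring

lemma pd_cutb_disjoint {r s : ℝ} (hr : 0 < r) (hs : 2 * r ≤ s) (x : Fin n → ℝ) (i : Fin n) :
    pd i (cutb Finset.univ r) x * pd i (cutb Finset.univ s) x = 0 := by
  have hs0 : 0 < s := by linarith
  by_contra hne
  have h1 := pd_cutb_support hr (left_ne_zero_of_mul hne)
  have h2 := pd_cutb_support hs0 (right_ne_zero_of_mul hne)
  nlinarith [h1.2.2, h2.2.1]

lemma avn_grad {ρ : ℝ} (hρ : 0 < ρ) (N : ℕ) (x : Fin n → ℝ) :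
    ∑ j, pd j (avn ρ N) x ^ 2
      = (N : ℝ)⁻¹ ^ 2 * ∑ k ∈ Finset.range N, ∑ j, pd j (cutb Finset.univ (2 ^ k * ρ)) x ^ 2 := by
  rw [Finset.sum_comm, Finset.mul_sum]
  apply Finset.sum_congr rfl
  intro j _
  rw [pd_avn, mul_pow, sq_sum_of_pairwise]
  intro k l hkl
  rcases lt_or_gt_of_ne hkl with h | h
  · apply pd_cutb_disjoint (by positivity)
    have : (2:ℝ) ^ (k + 1) ≤ 2 ^ l := pow_le_pow_right₀ (by norm_num) h
    rw [pow_succ] at this
    nlinarith
  · rw [mul_comm]
    apply pd_cutb_disjoint (by positivity)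
    have : (2:ℝ) ^ (l + 1) ≤ 2 ^ k := pow_le_pow_right₀ (by norm_num) h
    rw [pow_succ] at this
    nlinarith

lemma cutb_grad_le {C : ℝ} (hC : ∀ t, |deriv th t| ≤ C) {r : ℝ} (hr : 0 < r) (x : Fin n → ℝ) :
    ∑ j, pd j (cutb Finset.univ r) x ^ 2 ≤ n * (3 * C / r) ^ 2 * (4 * ph (2 * r) x) := by
  by_cases h : 2 * r ^ 2 < esq x
  · rw [Finset.sum_eq_zero]
    · have := ph_nonneg (2 * r) x
      positivity
    · intro j _
      by_contra hne
      have h1 : pd j (cutb Finset.univ r) x ≠ 0 := fun h0 => hne (by rw [h0]; ring)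
      have h2 := (pd_cutb_support hr h1).2.2
      rw [rho_univ] at h2
      linarith
  · push Not at h
    have h1 : 1 / 2 ≤ mm (2 * r) x := by
      unfold mm
      refine le_trans ?_ (le_pp _)
      have : esq x / (2 * r) ^ 2 ≤ 1 / 2 := by
        rw [div_le_iff₀ (by positivity)]; nlinarith
      linarith
    have h2 : 1 / 4 ≤ ph (2 * r) x := by unfold ph; nlinarith
    calc ∑ j, pd j (cutb Finset.univ r) x ^ 2 ≤ ∑ _j : Fin n, (3 * C / r) ^ 2 :=
          Finset.sum_le_sum fun j _ => sq_le_sq'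
            (abs_le.mp (pd_cutb_bound hC _ hr)).1 (abs_le.mp (pd_cutb_bound hC _ hr)).2
      _ = n * (3 * C / r) ^ 2 * 1 := by simp
      _ ≤ _ := by
          apply mul_le_mul_of_nonneg_left _ (by positivity)
          linarith

/-- Liouville theorem under quadratic growth. -/
theorem liouville_growth (hφ : ContDiff ℝ 1 φ) (hψ : ContDiff ℝ 1 ψ) (hφ0 : ∀ x, 0 < φ x)
    (Wφ : WeakLin V φ) (Wψ : WeakLin V ψ) {B : ℝ} (hB : 0 ≤ B)
    (hg : ∀ᶠ R in atTop, ∫ x, ψ x ^ 2 * ph R x ≤ B * R ^ 2) :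
    ∃ c : ℝ, ∀ x, ψ x = c * φ x := by
  obtain ⟨C, hC1, hC⟩ := exists_th_bound
  have hne : ∀ x, φ x ≠ 0 := fun x => (hφ0 x).ne'
  have hσ : ContDiff ℝ 1 (fun y => ψ y / φ y) := hψ.div hφ hne
  set X : (Fin n → ℝ) → ℝ := fun x =>
    ∑ j, φ x ^ 2 * (pd j (fun y => ψ y / φ y) x) ^ 2 with hX
  have hXc : Continuous X := continuous_finsetSum _ fun j _ =>
    (hφ.continuous.pow 2).mul ((continuous_pd hσ).pow 2)
  have hX0 : ∀ x, 0 ≤ X x := fun x => Finset.sum_nonneg fun _ _ => by positivity
  set K : ℝ := n * (3 * C) ^ 2 * 4 * (B * 4) with hK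
  have hK0 : 0 ≤ K := by positivity
  obtain ⟨R0, hR0⟩ := eventually_atTop.mp hg
  have hmain : ∀ ρ : ℝ, 1 ≤ ρ → R0 ≤ ρ → ∀ N : ℕ, 0 < N →
      ∫ x, X x * avn ρ N x ^ 2 ≤ 4 * (K / N) := by
    intro ρ hρ1 hρ N hN
    have hρ0 : 0 < ρ := by linarith
    have hN0 : (0:ℝ) < N := by exact_mod_cast hN
    have h1 := liouville_ineq (η := avn ρ N) hφ hψ hφ0 Wφ Wψ avn_contDiff
      (avn_hasCompactSupport hρ0)
    refine h1.trans (mul_le_mul_of_nonneg_left ?_ (by norm_num))
    have hcb : ∀ k : ℕ, HasCompactSupport (cutb (Finset.univ : Finset (Fin n)) (2 ^ k * ρ)) := by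
      intro k
      apply HasCompactSupport.intro (isCompact_box (2 * (2 ^ k * ρ)))
      intro x hx
      rw [mem_box] at hx
      push Not at hx
      obtain ⟨i, hi⟩ := hx
      exact cutb_eq_zero_of_abs (by positivity) (Finset.mem_univ i) hi
    have hi : ∀ k ∈ Finset.range N,
        Integrable (fun x => ψ x ^ 2 * ∑ j, pd j (cutb (Finset.univ : Finset (Fin n)) (2 ^ k * ρ)) x ^ 2) := by
      intro k _
      have : (fun x => ψ x ^ 2 * ∑ j, pd j (cutb (Finset.univ : Finset (Fin n)) (2 ^ k * ρ)) x ^ 2)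
          = fun x => ∑ j, ψ x ^ 2 * pd j (cutb (Finset.univ : Finset (Fin n)) (2 ^ k * ρ)) x ^ 2 := by
        ext x; rw [Finset.mul_sum]
      rw [this]
      apply integrable_finsetSum; intro j _
      exact ((hψ.continuous.pow 2).mul ((continuous_pd (cutb_contDiff _ _)).pow 2)).integrable_of_hasCompactSupport
        (hcs_sq (hasCompactSupport_pd (hcb k))).mul_left
    have e1 : ∫ x, ψ x ^ 2 * ∑ j, pd j (avn ρ N) x ^ 2
        = (N : ℝ)⁻¹ ^ 2 * ∑ k ∈ Finset.range N,
          ∫ x, ψ x ^ 2 * ∑ j, pd j (cutb (Finset.univ : Finset (Fin n)) (2 ^ k * ρ)) x ^ 2 := by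
      rw [← integral_finsetSum _ hi, ← integral_const_mul]
      congr 1; ext x
      rw [avn_grad hρ0, ← Finset.mul_sum]
      ring
    rw [e1]
    have hk : ∀ k ∈ Finset.range N,
        ∫ x, ψ x ^ 2 * ∑ j, pd j (cutb (Finset.univ : Finset (Fin n)) (2 ^ k * ρ)) x ^ 2 ≤ K := by
      intro k hkN
      set r : ℝ := 2 ^ k * ρ with hr
      have h2k : (1:ℝ) ≤ 2 ^ k := one_le_pow₀ (by norm_num)
      have hr0 : 0 < r := by positivity
      have hr1 : ρ ≤ r := by rw [hr]; nlinarith
      have i2 : Integrable (fun x => ψ x ^ 2 * ph (2 * r) x) :=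
        ((hψ.continuous.pow 2).mul (ph_contDiff _).continuous).integrable_of_hasCompactSupport
          (ph_hasCompactSupport (by positivity)).mul_left
      calc ∫ x, ψ x ^ 2 * ∑ j, pd j (cutb (Finset.univ : Finset (Fin n)) r) x ^ 2
          ≤ ∫ x, (n * (3 * C / r) ^ 2 * 4) * (ψ x ^ 2 * ph (2 * r) x) := by
            apply integral_mono (hi k hkN) (i2.const_mul _)
            intro x
            simp only
            have h2 := cutb_grad_le hC hr0 x
            have h3 := mul_le_mul_of_nonneg_left h2 (sq_nonneg (ψ x))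
            linarith
        _ = (n * (3 * C / r) ^ 2 * 4) * ∫ x, ψ x ^ 2 * ph (2 * r) x := integral_const_mul _ _
        _ ≤ (n * (3 * C / r) ^ 2 * 4) * (B * (2 * r) ^ 2) := by
            apply mul_le_mul_of_nonneg_left _ (by positivity)
            exact hR0 (2 * r) (by linarith)
        _ = K := by
            rw [hK]; field_simp
            ring
    calc (N : ℝ)⁻¹ ^ 2 * ∑ k ∈ Finset.range N,
          ∫ x, ψ x ^ 2 * ∑ j, pd j (cutb (Finset.univ : Finset (Fin n)) (2 ^ k * ρ)) x ^ 2
        ≤ (N : ℝ)⁻¹ ^ 2 * ∑ _k ∈ Finset.range N, K := by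
          apply mul_le_mul_of_nonneg_left (Finset.sum_le_sum hk) (by positivity)
      _ = K / N := by
          rw [Finset.sum_const, Finset.card_range, nsmul_eq_mul]
          field_simp
  -- vanishing of the weighted gradient
  have hXz : ∀ x, X x = 0 := by
    intro x0
    by_contra hne0
    set r : ℝ := 1 + eno x0 with hrd
    have heno : 0 ≤ eno x0 := Real.sqrt_nonneg _
    have hr0 : 0 < r := by positivity
    have hmm : 0 < mm r x0 := by
      unfold mm
      refine lt_of_lt_of_le ?_ (le_pp _)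
      have h1 : esq x0 = eno x0 ^ 2 := (Real.sq_sqrt (esq_nonneg x0)).symm
      have h2 : esq x0 < r ^ 2 := by rw [h1, hrd]; nlinarith
      have h3 : esq x0 / r ^ 2 < 1 := (div_lt_one (by positivity)).mpr h2
      linarith
    have hph : 0 < ph r x0 := by unfold ph; positivity
    have hcont : Continuous (fun x => X x * ph r x) := hXc.mul (ph_contDiff r).continuous
    have hsupp : HasCompactSupport (fun x => X x * ph r x) := (ph_hasCompactSupport hr0).mul_left
    have hpos := Continuous.integral_pos_of_hasCompactSupport_nonneg_nonzero (μ := volume) hcont hsupp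
      (fun x => mul_nonneg (hX0 x) (ph_nonneg _ _)) (x := x0) (mul_ne_zero hne0 hph.ne')
    set d : ℝ := ∫ x, X x * ph r x with hd
    set ρ : ℝ := max (max 1 R0) r with hρd
    have hρ1 : 1 ≤ ρ := (le_max_left _ _).trans (le_max_left _ _)
    have hρR : R0 ≤ ρ := (le_max_right _ _).trans (le_max_left _ _)
    have hρr : r ≤ ρ := le_max_right _ _
    have hρ0 : 0 < ρ := by linarith
    have hle : ∀ N : ℕ, 0 < N → d ≤ 4 * (K / N) := by
      intro N hN
      have hN0 : (0:ℝ) < N := by exact_mod_cast hN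
      refine le_trans ?_ (hmain ρ hρ1 hρR N hN)
      rw [hd]
      apply integral_mono (hcont.integrable_of_hasCompactSupport hsupp)
      · exact (hXc.mul (avn_contDiff.continuous.pow 2)).integrable_of_hasCompactSupport
          (hcs_sq (avn_hasCompactSupport hρ0)).mul_left
      · intro x
        simp only
        apply mul_le_mul_of_nonneg_left _ (hX0 x)
        by_cases hm : mm r x = 0
        · have h0 : ph r x = 0 := by unfold ph; rw [hm]; ring
          rw [h0]; exact sq_nonneg _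
        · have h1 := esq_lt_of_mm_ne hr0 hm
          have h2 : avn ρ N x = 1 := by
            unfold avn
            have : ∀ k ∈ Finset.range N, cutb Finset.univ (2 ^ k * ρ) x = 1 := by
              intro k _
              unfold cutb
              apply th_one
              rw [rho_univ, div_le_one (by positivity)]
              have h2k : (1:ℝ) ≤ 2 ^ k := one_le_pow₀ (by norm_num)
              have h3 : r ≤ 2 ^ k * ρ := by nlinarith
              have h4 := pow_le_pow_left₀ hr0.le h3 2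
              linarith
            rw [Finset.sum_congr rfl this]
            simp only [Finset.sum_const, Finset.card_range, nsmul_eq_mul, mul_one]
            field_simp
          rw [h2]
          have := ph_le_one r x
          linarith
    have hlim : Tendsto (fun N : ℕ => 4 * (K / (N:ℝ))) atTop (𝓝 (4 * 0)) :=
      (tendsto_const_div_atTop_nhds_zero_nat K).const_mul _
    rw [mul_zero] at hlim
    have h5 : d ≤ 0 := ge_of_tendsto hlim (by
      filter_upwards [eventually_gt_atTop 0] with N hN using hle N hN)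
    linarith
  have hpd : ∀ j x, pd j (fun y => ψ y / φ y) x = 0 := by
    intro j x
    have h1 := hXz x
    rw [hX, Finset.sum_eq_zero_iff_of_nonneg fun _ _ => by positivity] at h1
    have h2 := h1 j (Finset.mem_univ j)
    have h3 : φ x ^ 2 ≠ 0 := pow_ne_zero _ (hne x)
    exact pow_eq_zero_iff (two_ne_zero) |>.mp ((mul_eq_zero.mp h2).resolve_left h3)
  refine ⟨ψ 0 / φ 0, fun x => ?_⟩
  have h1 := const_of_pd_zero (hσ.differentiable (by norm_num)) hpd x 0
  rw [← h1]
  field_simp [hne x]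

/-- All partial derivatives except the `p`-th one are multiples of the `q`-th one. -/
theorem pd_mult (hn : n ≤ 4) (h : Mix u p q) (hlow : Low u p q) (i : Fin n) (hi : i ≠ p) :
    ∃ c : ℝ, ∀ x, pd i u x = c * pd q u x := by
  obtain ⟨B, hB, hE⟩ := EX_bound h hlow
  obtain ⟨C, hC, hC1, hC2, -⟩ := h.sol.exists_bound
  have hu := h.sol
  refine liouville_growth (B := B) (contDiff_pd_one hu.c2) (contDiff_pd_one hu.c2) h.pos
    (hu.weakLin hC1 hC2 q) (hu.weakLin hC1 hC2 i) hB ?_
  filter_upwards [hE, eventually_ge_atTop 1] with R h1 h2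
  have hR0 : 0 < R := by linarith
  calc ∫ x, pd i u x ^ 2 * ph R x ≤ EX u p R := by
        unfold EX
        apply integral_mono _ (EX_integrable hu p hR0)
        · intro x
          apply mul_le_mul_of_nonneg_right _ (ph_nonneg _ _)
          exact Finset.single_le_sum (f := fun i => pd i u x ^ 2) (fun _ _ => sq_nonneg _)
            (Finset.mem_erase.mpr ⟨hi, Finset.mem_univ i⟩)
        · exact (((contDiff_pd_one hu.c2).continuous.pow 2).mul
            (ph_contDiff R).continuous).integrable_of_hasCompactSupport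
            (ph_hasCompactSupport hR0).mul_left
    _ ≤ B * (R ^ (n - 1) / R) := h1
    _ ≤ B * R ^ 2 := by
        apply mul_le_mul_of_nonneg_left _ hB
        rw [div_le_iff₀ hR0]
        calc R ^ (n - 1) ≤ R ^ 3 := pow_le_pow_right₀ h2 (by omega)
          _ = R ^ 2 * R := by ring

/-- **Lemma M**: the mixed case is impossible. -/
theorem mixed_false (hn : n ≤ 4) (h : Mix u p q) (hlow : Low u p q) : False := by
  classical
  have hu := h.sol
  have hpq := h.hpq
  have du : Differentiable ℝ u := hu.c2.differentiable (by norm_num)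
  have hmul : ∀ i, ∃ c : ℝ, i ≠ p → ∀ x, pd i u x = c * pd q u x := by
    intro i
    by_cases hi : i = p
    · exact ⟨0, fun h => absurd hi h⟩
    · obtain ⟨c, hc⟩ := pd_mult hn h hlow i hi
      exact ⟨c, fun _ => hc⟩
  choose c hc using hmul
  have hcq : c q = 1 := by
    have h1 := hc q (Ne.symm hpq) 0
    have h2 := h.pos 0
    have h3 : (c q - 1) * pd q u 0 = 0 := by linarith
    rcases mul_eq_zero.mp h3 with h4 | h4
    · linarith
    · exact absurd h4 h2.ne'
  set Λ2 : ℝ := ∑ i ∈ Finset.univ.erase p, c i ^ 2 with hΛ2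
  have hΛ1 : 1 ≤ Λ2 := by
    have h1 : c q ^ 2 ≤ Λ2 := Finset.single_le_sum (f := fun i => c i ^ 2)
      (fun _ _ => sq_nonneg _) (Finset.mem_erase.mpr ⟨Ne.symm hpq, Finset.mem_univ q⟩)
    rw [hcq] at h1
    linarith
  set lam : ℝ := √Λ2 with hlam
  have hlam2 : lam ^ 2 = Λ2 := Real.sq_sqrt (by linarith)
  have hlam0 : 0 < lam := Real.sqrt_pos.mpr (by linarith)
  set L : (Fin 2 → ℝ) →L[ℝ] (Fin n → ℝ) :=
    (ContinuousLinearMap.proj (R := ℝ) (φ := fun _ : Fin 2 => ℝ) 0).smulRight (Pi.single p 1)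
      + (ContinuousLinearMap.proj (R := ℝ) (φ := fun _ : Fin 2 => ℝ) 1).smulRight
        (lam • Pi.single q 1)
    with hL
  have hLa : ∀ y, L y = y 0 • Pi.single p 1 + y 1 • (lam • Pi.single q 1) := fun y => by
    simp [hL]
  have hpdc : ∀ (F : (Fin n → ℝ) → ℝ), Differentiable ℝ F → ∀ y,
      pd 0 (fun y => F (L y)) y = pd p F (L y) ∧ pd 1 (fun y => F (L y)) y = lam * pd q F (L y) := by
    intro F hF y
    have h1 : fderiv ℝ (fun y => F (L y)) y = (fderiv ℝ F (L y)).comp L :=
      ((hF (L y)).hasFDerivAt.comp y L.hasFDerivAt).fderiv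
    unfold pd
    rw [h1]
    constructor
    · simp [hLa]
    · simp [hLa]
  set v : (Fin 2 → ℝ) → ℝ := fun y => u (L y) with hv
  have hpd0 : pd 0 v = fun y => pd p u (L y) := funext fun y => (hpdc u du y).1
  have hpd1 : pd 1 v = fun y => lam * pd q u (L y) := funext fun y => (hpdc u du y).2
  have d1 : ∀ i, Differentiable ℝ (pd i u) := fun i =>
    (contDiff_pd_one hu.c2).differentiable (by norm_num)
  have hsol : Sol v := by
    refine ⟨hu.c2.comp L.contDiff, fun y => hu.bd _, fun y => ?_⟩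
    have e11 : pd 1 (pd 1 v) y = Λ2 * pd q (pd q u) (L y) := by
      have hd : DifferentiableAt ℝ (fun y => pd q u (L y)) y :=
        (d1 q _).comp y L.differentiableAt
      rw [hpd1, pd_mul (differentiableAt_const _) hd, pd_const, (hpdc _ (d1 q) y).2, ← hlam2]
      ring
    rw [Fin.sum_univ_two, hpd0, (hpdc _ (d1 p) y).1, e11, ← hu.eq (L y),
      ← Finset.add_sum_erase _ _ (Finset.mem_univ p), hΛ2, Finset.sum_mul]
    congr 1
    apply Finset.sum_congr rfl
    intro i hi
    have hip := Finset.ne_of_mem_erase hi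
    have e1 : pd i u = fun x => c i * pd q u x := funext fun x => hc i hip x
    have e2 : ∀ x, pd i (pd i u) x = c i * pd i (pd q u) x := by
      intro x
      rw [e1, pd_mul (differentiableAt_const _) (d1 q x), pd_const]
      ring
    have e3 : pd i (pd q u) (L y) = c i * pd q (pd q u) (L y) := by
      rw [pd_comm hu.c2, e1, pd_mul (differentiableAt_const _) (d1 q _), pd_const]
      ring
    rw [e2, e3]; ring
  have hpos2 : ∀ y, 0 < pd 1 v y := fun y => by
    rw [hpd1]; exact mul_pos hlam0 (h.pos _)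
  obtain ⟨κ, hκ⟩ := two_dim hsol hpos2
  have dv : Differentiable ℝ v := hsol.c2.differentiable (by norm_num)
  have hdir : ∀ z : Fin 2 → ℝ, ∑ i, (![1, -κ] : Fin 2 → ℝ) i * pd i v z = 0 := by
    intro z
    rw [Fin.sum_univ_two, hκ z]
    simp
  have hshift : ∀ t : ℝ, u ((1:ℝ) • Pi.single p 1 + (t - lam * κ) • Pi.single q 1)
      = u (t • Pi.single q 1) := by
    intro t
    have h1 := eq_of_fderiv_zero dv hdir (![0, t / lam] : Fin 2 → ℝ)
    simp only [hv, hLa] at h1
    have e1 : ((![0, t / lam] : Fin 2 → ℝ) + ![1, -κ]) 0 = 1 := by simp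
    have e2 : ((![0, t / lam] : Fin 2 → ℝ) + ![1, -κ]) 1 = t / lam - κ := by
      simp; ring
    have e3 : (![0, t / lam] : Fin 2 → ℝ) 0 = 0 := by simp
    have e4 : (![0, t / lam] : Fin 2 → ℝ) 1 = t / lam := by simp
    rw [e1, e2, e3, e4, zero_smul, zero_add, smul_smul, smul_smul] at h1
    have e5 : (t / lam - κ) * lam = t - lam * κ := by field_simp
    have e6 : t / lam * lam = t := by field_simp
    rw [e5, e6] at h1
    exact h1
  have hl1 := h.lim ((1:ℝ) • Pi.single p 1)
  have hl0 := h.lim 0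
  simp only [zero_add] at hl0
  have hsub : Tendsto (fun t : ℝ => t - lam * κ) atTop atTop :=
    tendsto_atTop_add_const_right _ _ tendsto_id
  have hl2 := hl1.comp hsub
  have hl3 : Tendsto (fun t : ℝ => u (t • Pi.single q 1)) atTop
      (𝓝 (gp (((1:ℝ) • Pi.single p 1 : Fin n → ℝ) p))) := by
    refine hl2.congr fun t => ?_
    exact hshift t
  have h1 := tendsto_nhds_unique hl3 hl0
  simp only [one_smul, Pi.single_eq_same, Pi.zero_apply] at h1
  have h2 := gp_strictMono (show (0:ℝ) < 1 by norm_num)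
  linarith

end Vale.Agent.P134.H891
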