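import Vale.Agent.P134.H891.Frame

set_option linter.all false

/-! One pass: L¹ distance to a plane ⇒ height over this plane. -/

namespace Vale.Agent.P134.H891

open Vale.Agent.P134 Vale.Agent.P134.SM MeasureTheory Filter Topology
open Vale.Agent.P134.H787 (rot LI)
open Vale.Agent.P134.H370 (Flat gap J0 JJ TL TILT PA)

variable {n : ℕ}

/-- (2.0) -/
def C20 (n : ℕ) (p : Fin n) (C : ℝ) : Prop := ∀ u : (Fin n → ℝ) → ℝ, Sol u → ∀ a R H : ℝ,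
  1 ≤ R → 0 ≤ H → |a| ≤ R → Flat u p a (2 * R) H →
  JJ u p a R ≤ C * (1 + H) ^ 2 * R ^ (n - 1) ∧ J0 u p a R ≤ C * (1 + H) * R ^ (n - 1)

/-- (2.0') -/
def C20' (n : ℕ) (p : Fin n) (C : ℝ) : Prop := ∀ u : (Fin n → ℝ) → ℝ, Sol u → ∀ a R H : ℝ,
  1 ≤ R → 0 ≤ H → |a| ≤ R → H ≤ R → Flat u p a (2 * R) H →
  JJ u p a R ≤ C * (1 + H + Real.log R) * J0 u p a R + C * R ^ (n - 1)

/-- The class. -/
def Cls (n : ℕ) (p : Fin n) (K : ℝ) (u : (Fin n → ℝ) → ℝ) : Prop := Sol u ∧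
  ∀ R : ℝ, 1 ≤ R → TT (fun _ => 1) u R ≤ TT (fun _ => 1) (GG p) R + K / R ^ 2

/-- (2.1) -/
def C21 (n : ℕ) (p : Fin n) (K C : ℝ) : Prop := ∀ u : (Fin n → ℝ) → ℝ, Cls n p K u → ∀ a R : ℝ,
  1 ≤ R → TILT u p R ≤ C / R ^ 2 * ((1 + a ^ 2) * R ^ (n - 1) + JJ u p a R + |a| * J0 u p a R)

/-- (2.2) -/
def C22 (n : ℕ) (p : Fin n) (C : ℝ) : Prop := ∀ u : (Fin n → ℝ) → ℝ, Sol u → ∀ a R H : ℝ,
  1 ≤ R → 0 ≤ H → |a| ≤ R → H ≤ R → Flat u p a (2 * R) H →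
  PA u p a R ≤ C * (R ^ (n - 1) + JJ u p a R + (1 + H + Real.log R) ^ 2 * TILT u p R)

/-- (2.3) -/
def C23 (n : ℕ) (p : Fin n) (C : ℝ) : Prop := ∀ u : (Fin n → ℝ) → ℝ, Sol u → ∀ a R : ℝ,
  1 ≤ R → ∀ z : Fin n → ℝ, esq z ≤ R ^ 2 → |u z| ≤ 3 / 4 →
  (z p - a) ^ 2 ≤ C * (1 + PA u p a (kap n * R) / R ^ (n - 1))

theorem pass {p : Fin n} {K C : ℝ} (hC : 1 ≤ C) (h20 : C20' n p C) (h21 : C21 n p K C)
    (h22 : C22 n p C) (h23 : C23 n p C) :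
    ∃ C3 : ℝ, 1 ≤ C3 ∧ ∀ u : (Fin n → ℝ) → ℝ, Cls n p K u → ∀ a r H j : ℝ, 1 ≤ r → 0 ≤ H →
      |a| ≤ H → 2 * H < r → Flat u p a (2 * (kap n * r)) H → 0 ≤ j →
      J0 u p a (kap n * r) ≤ j * (kap n * r) ^ (n - 1) →
      1 + H + Real.log (kap n * r) ≤ kap n * r →
      ∀ H' : ℝ, 0 ≤ H' → C3 * (1 + (1 + H + Real.log (kap n * r)) * j +
        (1 + H + Real.log (kap n * r)) ^ 4 / r ^ 2) ≤ H' ^ 2 →
      Flat u p a r H' ∧ (|u 0| ≤ 3 / 4 → |a| ≤ H') := by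
  set κ := kap n with hκ
  have hκ1 : 1 ≤ κ := one_le_kap
  set C2 : ℝ := C * (1 + C + C * (3 + C)) with hC2
  have hC20 : 0 ≤ C2 := by rw [hC2]; positivity
  refine ⟨C * (1 + C2 * κ ^ (n - 1)), ?_, ?_⟩
  · have : 0 ≤ C2 * κ ^ (n - 1) := by positivity
    nlinarith
  intro u hcls a r H j hr hH ha hHr hF hj hJ hΛR H' hH' hH'2
  obtain ⟨hu, hex⟩ := hcls
  set R : ℝ := κ * r with hR
  have hrR : r ≤ R := by rw [hR]; nlinarith
  have hR1 : 1 ≤ R := hr.trans hrR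
  have hlog : 0 ≤ Real.log R := Real.log_nonneg hR1
  set Λ : ℝ := 1 + H + Real.log R with hΛ
  have hΛ1 : 1 ≤ Λ := by linarith
  set X : ℝ := R ^ (n - 1) with hX
  have hX0 : 0 < X := by positivity
  have haR : |a| ≤ R := by linarith
  have hHR : H ≤ R := by linarith
  have j0n : 0 ≤ J0 u p a R := integral_nonneg fun x =>
    mul_nonneg (H370.gap_nonneg u p a x) (mm_nonneg R x)
  -- (1)
  have h1 : JJ u p a R ≤ C * (Λ * j + 1) * X := by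
    have := h20 u hu a R H hR1 hH haR hHR hF
    have h2 : C * Λ * J0 u p a R ≤ C * Λ * (j * X) :=
      mul_le_mul_of_nonneg_left hJ (by positivity)
    nlinarith
  have ha2 : a ^ 2 ≤ Λ ^ 2 := by
    rw [← sq_abs]; exact pow_le_pow_left₀ (abs_nonneg a) (by linarith) 2
  have hΛsq : 1 ≤ Λ ^ 2 := one_le_pow₀ hΛ1
  have hΛj : 0 ≤ Λ * j := by positivity
  -- (2)
  have h2 : TILT u p R ≤ C / R ^ 2 * ((3 + C) * (Λ ^ 2 + Λ * j) * X) := by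
    refine (h21 u ⟨hu, hex⟩ a R hR1).trans ?_
    apply mul_le_mul_of_nonneg_left _ (by positivity)
    have e1 : |a| * J0 u p a R ≤ Λ * (j * X) :=
      mul_le_mul (by linarith) hJ j0n (by linarith)
    have e2 : (1 + a ^ 2) * X ≤ 2 * Λ ^ 2 * X := by
      apply mul_le_mul_of_nonneg_right _ hX0.le
      linarith
    have e3 : C * (Λ * j + 1) * X ≤ C * (Λ ^ 2 + Λ * j) * X := by
      apply mul_le_mul_of_nonneg_right _ hX0.le
      apply mul_le_mul_of_nonneg_left _ (by linarith)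
      linarith
    have e4 : 0 ≤ Λ ^ 2 * X := by positivity
    have e5 : 0 ≤ Λ * j * X := by positivity
    nlinarith
  -- (3)
  have hR2 : (0:ℝ) < R ^ 2 := by positivity
  have hΛR2 : Λ ^ 2 / R ^ 2 ≤ 1 := by
    rw [div_le_one hR2]; exact pow_le_pow_left₀ (by linarith) hΛR 2
  have h3 : Λ ^ 2 * TILT u p R ≤ C * (3 + C) * (Λ ^ 4 / R ^ 2 + Λ * j) * X := by
    calc Λ ^ 2 * TILT u p R ≤ Λ ^ 2 * (C / R ^ 2 * ((3 + C) * (Λ ^ 2 + Λ * j) * X)) :=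
          mul_le_mul_of_nonneg_left h2 (by positivity)
      _ = C * (3 + C) * (Λ ^ 4 / R ^ 2 + Λ ^ 2 / R ^ 2 * (Λ * j)) * X := by ring
      _ ≤ C * (3 + C) * (Λ ^ 4 / R ^ 2 + 1 * (Λ * j)) * X := by gcongr
      _ = _ := by ring
  have hQ : 0 ≤ Λ ^ 4 / R ^ 2 := by positivity
  have h4 : PA u p a R ≤ C2 * (1 + Λ * j + Λ ^ 4 / R ^ 2) * X := by
    have h5 := h22 u hu a R H hR1 hH haR hHR hF
    have h6 : C * (X + JJ u p a R + Λ ^ 2 * TILT u p R)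
        ≤ C * (X + C * (Λ * j + 1) * X + C * (3 + C) * (Λ ^ 4 / R ^ 2 + Λ * j) * X) := by
      apply mul_le_mul_of_nonneg_left _ (by linarith)
      linarith
    refine h5.trans (h6.trans ?_)
    have h7 : C * (X + C * (Λ * j + 1) * X + C * (3 + C) * (Λ ^ 4 / R ^ 2 + Λ * j) * X)
        = C * (1 + C * (Λ * j + 1) + C * (3 + C) * (Λ ^ 4 / R ^ 2 + Λ * j)) * X := by ring
    rw [h7]
    apply mul_le_mul_of_nonneg_right _ hX0.le
    have e1 : 0 ≤ C * (3 + C) := by positivity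
    have e2 : (1 + C + C * (3 + C)) * (1 + Λ * j + Λ ^ 4 / R ^ 2)
        - (1 + C * (Λ * j + 1) + C * (3 + C) * (Λ ^ 4 / R ^ 2 + Λ * j))
        = C * (3 + C) + Λ * j + (1 + C) * (Λ ^ 4 / R ^ 2) := by ring
    have e3 : 0 ≤ (1 + C) * (Λ ^ 4 / R ^ 2) := by positivity
    have e4 : 1 + C * (Λ * j + 1) + C * (3 + C) * (Λ ^ 4 / R ^ 2 + Λ * j)
        ≤ (1 + C + C * (3 + C)) * (1 + Λ * j + Λ ^ 4 / R ^ 2) := by linarith
    calc C * (1 + C * (Λ * j + 1) + C * (3 + C) * (Λ ^ 4 / R ^ 2 + Λ * j))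
        ≤ C * ((1 + C + C * (3 + C)) * (1 + Λ * j + Λ ^ 4 / R ^ 2)) :=
          mul_le_mul_of_nonneg_left e4 (by linarith)
      _ = C2 * (1 + Λ * j + Λ ^ 4 / R ^ 2) := by rw [hC2]; ring
  -- (4)
  have hXr : X / r ^ (n - 1) = κ ^ (n - 1) := by
    rw [hX, hR, mul_pow]; field_simp
  have hQr : Λ ^ 4 / R ^ 2 ≤ Λ ^ 4 / r ^ 2 := by gcongr
  have h5 : ∀ z : Fin n → ℝ, esq z ≤ r ^ 2 → |u z| ≤ 3 / 4 → |z p - a| ≤ H' := by
    intro z hz huz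
    have h6 := h23 u hu a r hr z hz huz
    have h7 : PA u p a (κ * r) / r ^ (n - 1) ≤ C2 * κ ^ (n - 1) * (1 + Λ * j + Λ ^ 4 / r ^ 2) := by
      calc PA u p a (κ * r) / r ^ (n - 1) ≤ C2 * (1 + Λ * j + Λ ^ 4 / R ^ 2) * X / r ^ (n - 1) := by
            gcongr
        _ = C2 * (1 + Λ * j + Λ ^ 4 / R ^ 2) * (X / r ^ (n - 1)) := by ring
        _ = C2 * κ ^ (n - 1) * (1 + Λ * j + Λ ^ 4 / R ^ 2) := by rw [hXr]; ring
        _ ≤ _ := by gcongr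
    have h8 : (z p - a) ^ 2 ≤ H' ^ 2 := by
      refine h6.trans (le_trans ?_ hH'2)
      have h9 : 0 ≤ Λ ^ 4 / r ^ 2 := by positivity
      calc C * (1 + PA u p a (κ * r) / r ^ (n - 1))
          ≤ C * (1 + C2 * κ ^ (n - 1) * (1 + Λ * j + Λ ^ 4 / r ^ 2)) := by gcongr
        _ ≤ C * ((1 + C2 * κ ^ (n - 1)) * (1 + Λ * j + Λ ^ 4 / r ^ 2)) := by
            apply mul_le_mul_of_nonneg_left _ (by linarith)
            have : (1 + C2 * κ ^ (n - 1)) * (1 + Λ * j + Λ ^ 4 / r ^ 2)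
              = (1 + C2 * κ ^ (n - 1) * (1 + Λ * j + Λ ^ 4 / r ^ 2)) + (Λ * j + Λ ^ 4 / r ^ 2) := by
              ring
            linarith
        _ = _ := by ring
    exact abs_le_of_sq_le_sq h8 hH'
  constructor
  · have hF' : Flat u p a r H := flat_mono hF (by linarith) (by linarith) le_rfl
    exact flat_improve hu.c2.continuous (by linarith) hF' (by linarith) h5
  · intro h0
    have := h5 0 (by simp [esq]; positivity) h0
    simpa using this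

end Vale.Agent.P134.H891
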