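import Vale.Agent.P134.H891.Liou
import Mathlib.MeasureTheory.Measure.Lebesgue.Basic
import Mathlib.LinearAlgebra.Matrix.ToLin

set_option linter.all false

open MeasureTheory Filter Topology

namespace Vale.Agent.P134.H891

variable {n : ℕ} {u F G : (Fin n → ℝ) → ℝ} {p q : Fin n}

/-- An orthogonal matrix. -/
structure Orth (M : Fin n → Fin n → ℝ) : Prop where
  row : ∀ i k, ∑ j, M i j * M k j = if i = k then 1 else 0
  col : ∀ i k, ∑ j, M j i * M j k = if i = k then 1 else 0

/-- The linear map with matrix `M`. -/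
noncomputable def rt (M : Fin n → Fin n → ℝ) : (Fin n → ℝ) →L[ℝ] (Fin n → ℝ) :=
  ContinuousLinearMap.pi fun i =>
    ∑ j, M i j • ContinuousLinearMap.proj (R := ℝ) (φ := fun _ : Fin n => ℝ) j

lemma rt_apply (M : Fin n → Fin n → ℝ) (y : Fin n → ℝ) (i : Fin n) :
    rt M y i = ∑ j, M i j * y j := by
  simp [rt]

lemma rt_single (M : Fin n → Fin n → ℝ) (j : Fin n) :
    rt M (Pi.single j 1) = fun i => M i j := by
  ext i
  rw [rt_apply, Finset.sum_eq_single j]
  · simp
  · intro k _ hk; simp [hk]
  · intro h; exact absurd (Finset.mem_univ _) h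

lemma Orth.transpose {M : Fin n → Fin n → ℝ} (h : Orth M) : Orth (fun i j => M j i) :=
  ⟨h.col, h.row⟩

lemma Orth.rt_rt {M : Fin n → Fin n → ℝ} (h : Orth M) (y : Fin n → ℝ) :
    rt M (rt (fun i j => M j i) y) = y := by
  ext i
  rw [rt_apply]
  simp_rw [rt_apply, Finset.mul_sum]
  rw [Finset.sum_comm]
  have : ∀ k, ∑ j, M i j * (M k j * y k) = (if i = k then 1 else 0) * y k := by
    intro k
    rw [← h.row i k, Finset.sum_mul]
    exact Finset.sum_congr rfl fun j _ => by ring
  simp_rw [this]
  simp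

lemma Orth.rt_rt' {M : Fin n → Fin n → ℝ} (h : Orth M) (y : Fin n → ℝ) :
    rt (fun i j => M j i) (rt M y) = y := h.transpose.rt_rt y

lemma Orth.dot {M : Fin n → Fin n → ℝ} (h : Orth M) (y z : Fin n → ℝ) :
    ∑ i, rt M y i * rt M z i = ∑ i, y i * z i := by
  have e : ∀ i, rt M y i * rt M z i = ∑ j, ∑ k, (M i j * M i k) * (y j * z k) := by
    intro i
    rw [rt_apply, rt_apply, Finset.sum_mul_sum]
    apply Finset.sum_congr rfl; intro j _
    apply Finset.sum_congr rfl; intro k _
    ring
  simp_rw [e]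
  rw [Finset.sum_comm]
  apply Finset.sum_congr rfl; intro j _
  rw [Finset.sum_comm]
  have : ∀ k, ∑ i, M i j * M i k * (y j * z k) = (if j = k then 1 else 0) * (y j * z k) := by
    intro k
    rw [← Finset.sum_mul, h.col]
  simp_rw [this]
  simp

lemma Orth.esq {M : Fin n → Fin n → ℝ} (h : Orth M) (y : Fin n → ℝ) : esq (rt M y) = esq y := by
  have := h.dot y y
  unfold Vale.Agent.P134.esq
  simp only [sq]
  exact this

lemma pd_rt (M : Fin n → Fin n → ℝ) (hF : Differentiable ℝ F) (j : Fin n) (y : Fin n → ℝ) :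
    pd j (fun y => F (rt M y)) y = ∑ i, M i j * pd i F (rt M y) := by
  have h1 : fderiv ℝ (fun y => F (rt M y)) y = (fderiv ℝ F (rt M y)).comp (rt M) :=
    ((hF (rt M y)).hasFDerivAt.comp y (rt M).hasFDerivAt).fderiv
  unfold pd
  rw [h1, ContinuousLinearMap.comp_apply, rt_single, fderiv_eq_sum_pd]
  rfl

lemma Orth.sum_pd_sq {M : Fin n → Fin n → ℝ} (h : Orth M) (hF : Differentiable ℝ F)
    (y : Fin n → ℝ) : ∑ j, pd j (fun y => F (rt M y)) y ^ 2 = ∑ i, pd i F (rt M y) ^ 2 := by
  have h1 : ∀ j, pd j (fun y => F (rt M y)) y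
      = rt (fun i j => M j i) (fun i => pd i F (rt M y)) j := by
    intro j
    rw [pd_rt M hF, rt_apply]
  simp_rw [h1]
  exact h.transpose.esq _

lemma Orth.lap {M : Fin n → Fin n → ℝ} (h : Orth M) (hF : ContDiff ℝ 2 F)
    (y : Fin n → ℝ) : ∑ j, pd j (pd j (fun y => F (rt M y))) y = ∑ i, pd i (pd i F) (rt M y) := by
  have dF : Differentiable ℝ F := hF.differentiable (by norm_num)
  have d1 : ∀ i, Differentiable ℝ (pd i F) := fun i =>
    (contDiff_pd_one hF).differentiable (by norm_num)
  have h1 : ∀ j, pd j (fun y => F (rt M y)) = fun y => ∑ i, M i j * pd i F (rt M y) := fun j =>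
    funext fun y => pd_rt M dF j y
  have h2 : ∀ j, pd j (pd j (fun y => F (rt M y))) y
      = ∑ i, ∑ k, (M i j * M k j) * pd k (pd i F) (rt M y) := by
    intro j
    rw [h1 j]
    have dd : ∀ i ∈ (Finset.univ : Finset (Fin n)),
        DifferentiableAt ℝ (fun y => M i j * pd i F (rt M y)) y := fun i _ =>
      (((d1 i) (rt M y)).comp y (rt M).differentiableAt).const_mul _
    rw [pd_sum Finset.univ (F := fun i y => M i j * pd i F (rt M y)) dd]
    apply Finset.sum_congr rfl; intro i _
    have e : pd j (fun y => M i j * pd i F (rt M y)) y = M i j * pd j (fun y => pd i F (rt M y)) y := by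
      have hd : DifferentiableAt ℝ (fun y => pd i F (rt M y)) y :=
        ((d1 i) (rt M y)).comp y (rt M).differentiableAt
      rw [pd_mul (differentiableAt_const _) hd, pd_const]
      ring
    rw [e, pd_rt M (d1 i), Finset.mul_sum]
    apply Finset.sum_congr rfl; intro k _
    ring
  simp_rw [h2]
  rw [Finset.sum_comm]
  apply Finset.sum_congr rfl; intro i _
  rw [Finset.sum_comm]
  have : ∀ k, ∑ j, M i j * M k j * pd k (pd i F) (rt M y)
      = (if i = k then 1 else 0) * pd k (pd i F) (rt M y) := by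
    intro k
    rw [← Finset.sum_mul, h.row]
  simp_rw [this]
  simp

lemma Orth.sol {M : Fin n → Fin n → ℝ} (h : Orth M) (hu : Sol u) : Sol (fun y => u (rt M y)) where
  c2 := hu.c2.comp (rt M).contDiff
  bd := fun y => hu.bd _
  eq := fun y => by rw [h.lap hu.c2, hu.eq]

lemma Orth.en {M : Fin n → Fin n → ℝ} (h : Orth M) (hu : Sol u) (y : Fin n → ℝ) :
    en (fun y => u (rt M y)) y = en u (rt M y) := by
  unfold Vale.Agent.P134.en
  rw [h.sum_pd_sq (hu.c2.differentiable (by norm_num))]

lemma Orth.defi {M : Fin n → Fin n → ℝ} (h : Orth M) (hu : Sol u) (y : Fin n → ℝ) :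
    defi (fun y => u (rt M y)) y = defi u (rt M y) := by
  unfold Vale.Agent.P134.defi psi
  rw [h.sum_pd_sq (hu.c2.differentiable (by norm_num))]

lemma Orth.mm {M : Fin n → Fin n → ℝ} (h : Orth M) (r : ℝ) (y : Fin n → ℝ) :
    mm r (rt M y) = mm r y := by
  unfold H891.mm
  rw [h.esq]

lemma Orth.ph {M : Fin n → Fin n → ℝ} (h : Orth M) (r : ℝ) (y : Fin n → ℝ) :
    ph r (rt M y) = ph r y := by
  unfold H891.ph
  rw [h.mm]

/-- The homeomorphism. -/
noncomputable def Orth.homeo {M : Fin n → Fin n → ℝ} (h : Orth M) : (Fin n → ℝ) ≃ₜ (Fin n → ℝ) where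
  toFun := rt M
  invFun := rt (fun i j => M j i)
  left_inv := h.rt_rt'
  right_inv := h.rt_rt
  continuous_toFun := (rt M).continuous
  continuous_invFun := (rt _).continuous

lemma Orth.measurePreserving {M : Fin n → Fin n → ℝ} (h : Orth M) :
    MeasurePreserving (rt M) (volume : Measure (Fin n → ℝ)) volume := by
  set Mm : Matrix (Fin n) (Fin n) ℝ := Matrix.of M with hMm
  have hf : ∀ y, (Matrix.toLin' Mm) y = rt M y := by
    intro y; ext i
    rw [Matrix.toLin'_apply, rt_apply]
    rfl
  have hdet : Mm.det * Mm.det = 1 := by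
    have h1 : Mm * Mm.transpose = 1 := by
      ext i k
      rw [Matrix.mul_apply, Matrix.one_apply]
      simp only [Matrix.transpose_apply, hMm, Matrix.of_apply]
      exact h.row i k
    have h2 := congrArg Matrix.det h1
    rwa [Matrix.det_mul, Matrix.det_transpose, Matrix.det_one] at h2
  have hne : LinearMap.det (Matrix.toLin' Mm) ≠ 0 := by
    rw [LinearMap.det_toLin']
    intro h0
    rw [h0] at hdet
    norm_num at hdet
  have h3 := Real.map_linearMap_volume_pi_eq_smul_volume_pi hne
  have h4 : |(LinearMap.det (Matrix.toLin' Mm))⁻¹| = 1 := by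
    rw [LinearMap.det_toLin', abs_inv]
    have : |Mm.det| = 1 := by
      have h5 : |Mm.det| * |Mm.det| = 1 := by rw [← abs_mul, hdet, abs_one]
      nlinarith [abs_nonneg Mm.det]
    rw [this, inv_one]
  rw [h4, ENNReal.ofReal_one, one_smul] at h3
  have h5 : (Matrix.toLin' Mm : (Fin n → ℝ) → (Fin n → ℝ)) = rt M := funext hf
  rw [h5] at h3
  exact ⟨(rt M).continuous.measurable, h3⟩

lemma Orth.integral {M : Fin n → Fin n → ℝ} (h : Orth M) (F : (Fin n → ℝ) → ℝ) :
    ∫ y, F (rt M y) = ∫ x, F x :=
  h.measurePreserving.integral_comp h.homeo.measurableEmbedding F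

lemma Orth.TT_one {M : Fin n → Fin n → ℝ} (h : Orth M) (hu : Sol u) (r : ℝ) :
    TT (fun _ => 1) (fun y => u (rt M y)) r = TT (fun _ => 1) u r := by
  rw [TT_one_eq, TT_one_eq]
  congr 1
  rw [← h.integral (fun x => Vale.Agent.P134.en u x * H891.ph r x)]
  congr 1; ext y
  rw [h.en hu, h.ph]

lemma Orth.QQ_one {M : Fin n → Fin n → ℝ} (h : Orth M) (hu : Sol u) (r : ℝ) :
    QQ (fun _ => 1) (fun y => u (rt M y)) r = QQ (fun _ => 1) u r := by
  unfold QQ
  rw [← h.integral (fun x => (1:ℝ) * PP u r x)]
  congr 1; ext y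
  unfold PP
  rw [h.defi hu, h.ph, h.mm]
  congr 3
  have h1 : rd (fun y => u (rt M y)) y = rd u (rt M y) := by
    unfold rd
    have e : ∀ j, pd j (fun y => u (rt M y)) y
        = rt (fun i j => M j i) (fun i => pd i u (rt M y)) j := by
      intro j
      rw [pd_rt M (hu.c2.differentiable (by norm_num)), rt_apply]
    simp_rw [e]
    have h2 := h.transpose.dot (rt M y) (fun i => pd i u (rt M y))
    rw [h.rt_rt'] at h2
    exact h2
  rw [h1]

/-- Householder matrix exchanging `ν` and `e_p`. -/
lemma exists_orth {ν : Fin n → ℝ} (hν : ∑ i, ν i ^ 2 = 1) (p : Fin n) :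
    ∃ M : Fin n → Fin n → ℝ, Orth M ∧ (∀ i, M i p = ν i) ∧
      (∀ k, k ≠ p → ν k = 0 → ∀ i, M i k = if i = k then 1 else 0) ∧ (∀ i j, M i j = M j i) := by
  by_cases h1 : ν p = 1
  · have h0 : ∀ i, i ≠ p → ν i = 0 := by
      intro i hi
      have h2 : ∑ i ∈ Finset.univ.erase p, ν i ^ 2 = 0 := by
        have := Finset.add_sum_erase Finset.univ (fun i => ν i ^ 2) (Finset.mem_univ p)
        rw [hν, h1] at this
        linarith
      have h3 := (Finset.sum_eq_zero_iff_of_nonneg fun i _ => sq_nonneg (ν i)).mp h2 i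
        (Finset.mem_erase.mpr ⟨hi, Finset.mem_univ i⟩)
      exact pow_eq_zero_iff (two_ne_zero) |>.mp h3
    refine ⟨fun i j => if i = j then 1 else 0, ⟨?_, ?_⟩, ?_, ?_, ?_⟩
    · intro i k; simp
    · intro i k
      simp only [ite_mul, one_mul, zero_mul]
      rw [Finset.sum_eq_single i]
      · simp
      · intro j _ hj; simp [hj]
      · intro h; exact absurd (Finset.mem_univ _) h
    · intro i
      by_cases hi : i = p
      · subst hi; simp [h1]
      · simp [hi, h0 i hi]
    · intro k hk hk0 i; rfl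
    · intro i j; simp only [eq_comm]
  · have hp1 : ν p ≤ 1 := by
      have : ν p ^ 2 ≤ 1 := by
        rw [← hν]
        exact Finset.single_le_sum (f := fun i => ν i ^ 2) (fun i _ => sq_nonneg _) (Finset.mem_univ p)
      nlinarith
    have hlt : 0 < 1 - ν p := by
      rcases hp1.lt_or_eq with h | h
      · linarith
      · exact absurd h h1
    set v : Fin n → ℝ := fun i => ν i - if i = p then 1 else 0 with hv
    set c : ℝ := (1 - ν p)⁻¹ with hc
    have hcc : c * (1 - ν p) = 1 := inv_mul_cancel₀ hlt.ne'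
    have hvv : ∑ i, v i * v i = 2 * (1 - ν p) := by
      have e : ∀ i, v i * v i = ν i ^ 2 - (if i = p then 2 * ν i - 1 else 0) := by
        intro i
        simp only [hv]
        split_ifs <;> ring
      simp_rw [e]
      rw [Finset.sum_sub_distrib, hν]
      simp
      ring
    have key : ∀ i k, ∑ j, ((if i = j then 1 else 0) - c * (v i * v j))
        * ((if k = j then 1 else 0) - c * (v k * v j)) = if i = k then 1 else 0 := by
      intro i k
      have e : ∀ j, ((if i = j then (1:ℝ) else 0) - c * (v i * v j))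
          * ((if k = j then 1 else 0) - c * (v k * v j))
          = (if i = j then (if k = j then 1 else 0) else 0) - (if i = j then c * (v k * v j) else 0)
            - (if k = j then c * (v i * v j) else 0) + c ^ 2 * v i * v k * (v j * v j) := by
        intro j
        split_ifs <;> ring
      simp_rw [e]
      rw [Finset.sum_add_distrib, Finset.sum_sub_distrib, Finset.sum_sub_distrib, ← Finset.mul_sum,
        hvv]
      simp only [Finset.sum_ite_eq, Finset.mem_univ, if_true]
      by_cases hik : i = k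
      · subst hik
        simp only [if_true]
        linear_combination (2 * c * v i * v i) * hcc
      · rw [if_neg hik, if_neg (fun h => hik h.symm)]
        linear_combination (2 * c * v i * v k) * hcc
    refine ⟨fun i j => (if i = j then 1 else 0) - c * (v i * v j), ⟨key, ?_⟩, ?_, ?_, ?_⟩
    · intro i k
      rw [← key i k]
      apply Finset.sum_congr rfl; intro j _
      have e1 : (if j = i then (1:ℝ) else 0) = if i = j then 1 else 0 := by simp only [eq_comm]
      have e2 : (if j = k then (1:ℝ) else 0) = if k = j then 1 else 0 := by simp only [eq_comm]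
      simp only [e1, e2]
      ring
    · intro i
      simp only
      have hvp : v p = -(1 - ν p) := by simp [hv]
      rw [hvp]
      simp only [hv]
      linear_combination (ν i - if i = p then (1:ℝ) else 0) * hcc
    · intro k hk hk0 i
      simp only
      have : v k = 0 := by simp [hv, hk, hk0]
      rw [this]; simp
    · intro i j
      simp only
      have e1 : (if j = i then (1:ℝ) else 0) = if i = j then 1 else 0 := by simp only [eq_comm]
      rw [e1]; ring

end Vale.Agent.P134.H891
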