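import Vale.Agent.P134.H891.Decay

set_option linter.all false

open MeasureTheory Filter Topology

namespace Vale.Agent.P134.H891

variable {n : ℕ} {u v χ w : (Fin n → ℝ) → ℝ} {p q : Fin n}

/-- The behaviour at `-∞`. -/
def Low (u : (Fin n → ℝ) → ℝ) (p q : Fin n) : Prop :=
  (∀ x, Tendsto (fun t : ℝ => u (x + t • Pi.single q 1)) atBot (𝓝 (-1))) ∨
    ∃ c : ℝ, ∀ x, gp (x p - c) ≤ u x

lemma en_pos_integral (h : Mix u p q) : 0 < TT (fun _ => 1) u 1 := by
  rw [TT_one_eq, one_pow, div_one]
  have hc : Continuous (fun x => en u x * ph 1 x) :=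
    (en_contDiff h.sol.c2).continuous.mul (ph_contDiff 1).continuous
  have hs : HasCompactSupport (fun x => en u x * ph 1 x) :=
    (ph_hasCompactSupport one_pos).mul_left
  have hne : en u (0 : Fin n → ℝ) * ph 1 (0 : Fin n → ℝ) ≠ 0 := by
    intro h1
    have h2 : ph 1 (0 : Fin n → ℝ) = 1 := by
      unfold ph mm esq pp
      simp
    rw [h2, mul_one] at h1
    have h3 : pd q u 0 ^ 2 ≤ ∑ j, pd j u 0 ^ 2 :=
      Finset.single_le_sum (f := fun j => pd j u 0 ^ 2) (fun j _ => sq_nonneg _) (Finset.mem_univ q)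
    have h4 := h.pos 0
    have h5 : 0 < pd q u 0 ^ 2 := by positivity
    have h6 : 0 ≤ (1 - u 0 ^ 2) ^ 2 / 4 := by positivity
    unfold en at h1
    linarith
  exact Continuous.integral_pos_of_hasCompactSupport_nonneg_nonzero hc hs
    (fun x => mul_nonneg (en_nonneg _ _) (ph_nonneg _ _)) hne

lemma flux_low (h : Mix u p q)
    (hlow : ∀ x, Tendsto (fun t : ℝ => u (x + t • Pi.single q 1)) atBot (𝓝 (-1)))
    {R : ℝ} (hR : 0 < R) :
    ∫ x, en u x * ph R x ≤ 4 / R * ∫ x, Psi (u x) * mm R x := by
  have hD : HasCompactSupport (fun x : Fin n → ℝ => 4 / R * mm R x) :=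
    (mm_hasCompactSupport hR).mul_left
  have cD : Continuous (fun x : Fin n → ℝ => 4 / R * mm R x) := continuous_const.mul (continuous_mm R)
  have hl : ∀ x, Tendsto (fun t : ℝ => u (x + (-1 * t) • Pi.single q 1)) atTop (𝓝 (-1)) := by
    intro x
    have h1 : Tendsto (fun t : ℝ => -1 * t) atTop atBot := by
      simpa using tendsto_neg_atTop_atBot (G := ℝ)
    exact (hlow x).comp h1
  have hE : ∀ x, Tendsto (fun t : ℝ => en u (x + (-1 * t) • Pi.single q 1)) atTop (𝓝 0) := by
    intro x
    have h2 : Tendsto (fun t : ℝ => psi u (x + (-1 * t) • Pi.single q 1) ^ 2 / 2) atTop (𝓝 0) := by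
      have h3 := (((hl x).pow 2).const_sub 1).pow 2 |>.div_const 2
      norm_num at h3
      simpa [psi] using h3
    exact squeeze_zero (fun t => en_nonneg _ _) (fun t => h.sol.en_le _) h2
  have key := flux (σ := -1) (χ := ph R) h.sol h.pos (by norm_num) (ph_contDiff R)
    (ph_hasCompactSupport hR) (ph_nonneg R) cD hD
    (fun x => mul_nonneg (by positivity) (mm_nonneg R x)) (ph_grad_le hR) (E := fun _ => 0)
    (U := fun _ => -1) hE hl
  have c1 : Continuous (en u) := (en_contDiff h.sol.c2).continuous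
  have cp := (ph_contDiff (n := n) R).continuous
  have sp := ph_hasCompactSupport (n := n) hR
  have i1 : Integrable (fun x => en u x * ph R x) :=
    (c1.mul cp).integrable_of_hasCompactSupport sp.mul_left
  have i3 : Integrable (fun x => Psi (u x) * (4 / R * mm R x)) :=
    ((Psi_comp_continuous h.sol).mul cD).integrable_of_hasCompactSupport hD.mul_left
  rw [integral_add i1 (i3.const_mul _), integral_const_mul] at key
  have e0 : ∫ x : Fin n → ℝ, ((0:ℝ) * ph R x + -1 * (Psi (-1) * (4 / R * mm R x))) = 0 := by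
    rw [Psi_neg_one]; simp
  rw [e0] at key
  have e : 4 / R * ∫ x, Psi (u x) * mm R x = ∫ x, Psi (u x) * (4 / R * mm R x) := by
    rw [← integral_const_mul]
    congr 1; ext x; ring
  rw [e]
  linarith

/-- Negative sign above the height gives vanishing energy. -/
lemma neg_energy_small (h : Mix u p q)
    (hlow : ∀ x, Tendsto (fun t : ℝ => u (x + t • Pi.single q 1)) atBot (𝓝 (-1)))
    {R ℓ : ℝ} (hR : 0 < R) (hℓ : 0 ≤ ℓ)
    (hneg : ∀ x ∈ box n (2 * R), ℓ < x p → u x ≤ -(3 / 4)) :
    TT (fun _ => 1) u R ≤ 4 / R * ((4 * Kd n + 2 * ℓ) * 2 ^ (n - 1)) := by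
  obtain ⟨hG, -⟩ := h.profile
  have h1 := flux_low h hlow hR
  have hK := Kd_nonneg (n := n)
  have hdec : ∀ x ∈ box n R, 2 * ℓ < x p → 1 + u x ≤ 2 * n * Real.exp (-(x p / 2)) := by
    intro x hx hxp
    have := Dec_of_pos (p := p) h.sol.neg hR.le hℓ (fun y hy hyp => by
      have := hneg y hy hyp
      show 3 / 4 ≤ -u y
      linarith) x hx hxp
    linarith
  have h2 : ∫ x, Psi (u x) * mm R x ≤ (4 * Kd n + 1 * (2 * ℓ)) * (2 * R) ^ (n - 1) := by
    refine slab (p := p) (F := fun x => Psi (u x) * mm R x) (K := Kd n)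
      (a := 0) (M := 1) (L := 2 * ℓ) hK (by norm_num) (by linarith) hR.le
      (((Psi_comp_continuous h.sol).mul (continuous_mm R)).integrable_of_hasCompactSupport
        (mm_hasCompactSupport hR).mul_left) ?_ ?_
    · intro x hx
      rw [mm_eq_zero_of_notMem hR le_rfl hx, mul_zero]
    · intro x hx
      have h2 := mm_le_one (r := R) x
      have h3 := mm_nonneg R x
      have h5 := Psi_nonneg (h.sol.bd x)
      have h4 : Psi (u x) * mm R x ≤ Psi (u x) := by nlinarith
      refine h4.trans ?_
      rcases le_or_gt (x p) 0 with hx0 | hx0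
      · refine le_trans ?_ (maj_ge_left (by norm_num))
        rw [sub_zero]
        have h6 := h.Psi_le x
        have h7 := Psi_le_sq (GG_abs p x)
        have h8 : (1 + GG p x) ^ 2 ≤ 12 / (1 + x p ^ 2) := by
          have a3 := one_add_gp_le (x p)
          have a4 := neg_one_lt_gp (x p)
          have a5 : (1 + GG p x) ^ 2 ≤ 4 * Real.exp (-(-(x p))) := by
            calc (1 + GG p x) ^ 2 ≤ (2 * Real.exp (√2 * x p)) ^ 2 := pow_le_pow_left₀ (by
                  have : GG p x = gp (x p) := rfl
                  linarith) a3 2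
              _ = 4 * Real.exp (√2 * x p) ^ 2 := by ring
              _ ≤ _ := by
                  rw [← Real.exp_nat_mul, neg_neg]
                  apply mul_le_mul_of_nonneg_left _ (by norm_num)
                  apply Real.exp_le_exp.mpr
                  push_cast
                  nlinarith [one_lt_sqrt2]
          have a6 := exp_neg_le (t := -(x p)) (by linarith)
          rw [neg_sq] at a6
          calc _ ≤ _ := a5
            _ ≤ 4 * (3 / (1 + x p ^ 2)) := by linarith
            _ = _ := by ring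
        have h9 : 12 / (1 + x p ^ 2) ≤ Kd n / (1 + x p ^ 2) := by
          apply div_le_div_of_nonneg_right _ (by positivity)
          unfold Kd; nlinarith [sq_nonneg (n:ℝ)]
        linarith
      · rcases le_or_gt (x p) (2 * ℓ) with hxL | hxL
        · refine le_trans ?_ (maj_ge_right hK hx0.le hxL)
          exact Psi_le_one (h.sol.bd x)
        · refine le_trans ?_ (maj_ge_left (by norm_num))
          rw [sub_zero]
          have h6 := hdec x hx hxL
          have h7 := abs_le.mp (h.sol.bd x)
          have h8 : (1 + u x) ^ 2 ≤ 4 * n ^ 2 * Real.exp (-(x p)) := by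
            calc (1 + u x) ^ 2 ≤ (2 * n * Real.exp (-(x p / 2))) ^ 2 :=
                  pow_le_pow_left₀ (by linarith) h6 2
              _ = 4 * n ^ 2 * Real.exp (-(x p / 2)) ^ 2 := by ring
              _ = _ := by
                rw [← Real.exp_nat_mul]
                congr 2
                push_cast; ring
          have h9 := exp_neg_le hx0.le
          calc Psi (u x) ≤ (1 + u x) ^ 2 := Psi_le_sq (h.sol.bd x)
            _ ≤ 4 * n ^ 2 * Real.exp (-(x p)) := h8
            _ ≤ 4 * n ^ 2 * (3 / (1 + x p ^ 2)) :=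
                mul_le_mul_of_nonneg_left h9 (by positivity)
            _ = 12 * n ^ 2 / (1 + x p ^ 2) := by ring
            _ ≤ _ := by
                apply div_le_div_of_nonneg_right _ (by positivity)
                unfold Kd; nlinarith [sq_nonneg (n:ℝ)]
  rw [TT_one_eq, div_le_iff₀ (by positivity)]
  have h3 : 4 / R * ∫ x, Psi (u x) * mm R x
      ≤ 4 / R * ((4 * Kd n + 1 * (2 * ℓ)) * (2 * R) ^ (n - 1)) :=
    mul_le_mul_of_nonneg_left h2 (by positivity)
  rw [mul_pow] at h3
  linarith

/-- Eventually the decay property holds above a multiple of the height functional. -/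
theorem exists_Dec (h : Mix u p q) (hlow : Low u p q) : ∃ C : ℝ, 1 ≤ C ∧
    ∀ᶠ R in atTop, Dec u p R (C * SS p u (2 * kap n * R)) := by
  obtain ⟨C, hC, hht⟩ := height p
  have hk := one_le_kap (n := n)
  refine ⟨2 * C, by linarith, ?_⟩
  set ℓ : ℝ → ℝ := fun R => C * SS p u (2 * kap n * R) with hℓ
  have hsmall : ∀ ε : ℝ, 0 < ε → ∀ᶠ R in atTop, ℓ R ≤ ε * R := by
    intro ε hε
    have h1 := SS_small h (ε := ε / (C * (2 * kap n))) (by positivity)
    have h2 : Tendsto (fun R : ℝ => 2 * kap n * R) atTop atTop :=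
      tendsto_id.const_mul_atTop (by positivity)
    filter_upwards [h2.eventually h1] with R hR
    calc C * SS p u (2 * kap n * R) ≤ C * (ε / (C * (2 * kap n)) * (2 * kap n * R)) :=
          mul_le_mul_of_nonneg_left hR (by linarith)
      _ = ε * R := by field_simp
  have hpos : ∀ᶠ R : ℝ in atTop, 0 ≤ ℓ R ∧ ∀ x ∈ box n (2 * R), ℓ R < x p → 3 / 4 ≤ u x := by
    have hbase : ∀ R : ℝ, 1 ≤ R → 0 ≤ ℓ R ∧ ∀ z ∈ box n (2 * R), |u z| ≤ 3 / 4 → z p ≤ ℓ R := by
      intro R hR
      have h1 := SS_ge_one h.sol h.le (r := 2 * kap n * R) (by nlinarith)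
      refine ⟨by simp only [hℓ]; nlinarith, ?_⟩
      intro z hz huz
      have h2 := hht u h.sol h.le (2 * R) (by linarith) z hz huz
      have e : kap n * (2 * R) = 2 * kap n * R := by ring
      rw [e] at h2
      exact h2
    rcases hlow with hl | ⟨c, hl⟩
    · -- energy argument
      have hE := en_pos_integral h
      set E : ℝ := TT (fun _ => 1) u 1 with hEd
      have h2 := hsmall (E / (32 * 2 ^ (n - 1))) (by positivity)
      have h3 : ∀ᶠ R : ℝ in atTop, 64 * Kd n * 2 ^ (n - 1) < E * R :=
        (tendsto_id.const_mul_atTop hE).eventually_gt_atTop _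
      filter_upwards [h2, h3, eventually_ge_atTop 1] with R h4 h5 h6
      obtain ⟨h7, h8⟩ := hbase R h6
      refine ⟨h7, ?_⟩
      rcases sign_dichotomy h.sol h8 with h9 | h9
      · exact h9
      · exfalso
        have hR0 : 0 < R := by linarith
        have h10 := neg_energy_small h hl hR0 h7 h9
        have h11 := Th_mono h.sol p (Set.mem_Ioi.mpr one_pos) (Set.mem_Ioi.mpr hR0) h6
        have h12 : 4 / R * ((4 * Kd n + 2 * ℓ R) * 2 ^ (n - 1)) < E := by
          rw [div_mul_eq_mul_div, div_lt_iff₀ hR0]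
          have h13 : ℓ R * 2 ^ (n - 1) ≤ E / (32 * 2 ^ (n - 1)) * R * 2 ^ (n - 1) :=
            mul_le_mul_of_nonneg_right h4 (by positivity)
          have h14 : E / (32 * 2 ^ (n - 1)) * R * 2 ^ (n - 1) = E * R / 32 := by
            field_simp
          rw [h14] at h13
          have h15 : 4 * ((4 * Kd n + 2 * ℓ R) * 2 ^ (n - 1))
              = 16 * Kd n * 2 ^ (n - 1) + 8 * (ℓ R * 2 ^ (n - 1)) := by ring
          rw [h15]
          have h16 : 0 < E * R := by positivity
          linarith
        linarith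
    · have h2 := hsmall (1 / 2) (by norm_num)
      filter_upwards [h2, eventually_gt_atTop c, eventually_ge_atTop 1] with R h4 h5 h6
      obtain ⟨h7, h8⟩ := hbase R h6
      refine ⟨h7, ?_⟩
      rcases sign_dichotomy h.sol h8 with h9 | h9
      · exact h9
      · exfalso
        have hR0 : 0 < R := by linarith
        have h10 := h9 (R • Pi.single p 1) (by
          rw [mem_box]
          intro i
          rw [Pi.smul_apply, smul_eq_mul, abs_mul, abs_of_pos hR0]
          have : |(Pi.single p 1 : Fin n → ℝ) i| ≤ 1 := by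
            rw [Pi.single_apply]; split_ifs <;> simp
          nlinarith) (by simp; linarith)
        have h11 := hl (R • Pi.single p 1)
        simp only [Pi.smul_apply, Pi.single_eq_same, smul_eq_mul, mul_one] at h11
        have h12 : gp 0 ≤ gp (R - c) := gp_strictMono.monotone (by linarith)
        have h13 : gp 0 = 0 := by unfold gp; norm_num
        linarith
  filter_upwards [hpos, eventually_ge_atTop 0] with R h1 hR
  have := Dec_of_pos h.sol hR h1.1 h1.2
  have e : 2 * ℓ R = 2 * C * SS p u (2 * kap n * R) := by simp only [hℓ]; ring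
  rwa [e] at this

lemma clean_of_Dec (h : Mix u p q) {C : ℝ} (hC : 1 ≤ C)
    (hD : ∀ᶠ R in atTop, Dec u p R (C * SS p u (2 * kap n * R))) : Clean u p := by
  intro ε hε
  have hk := one_le_kap (n := n)
  have h1 := SS_small h (ε := ε / (C * (2 * kap n))) (by positivity)
  have h2 : Tendsto (fun R : ℝ => 2 * kap n * R) atTop atTop :=
    tendsto_id.const_mul_atTop (by positivity)
  filter_upwards [h2.eventually h1, hD, eventually_ge_atTop 1] with R hR h3 h4
  refine ⟨_, ?_, ?_, h3⟩
  · have := SS_ge_one h.sol h.le (r := 2 * kap n * R) (by nlinarith)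
    nlinarith
  · calc C * SS p u (2 * kap n * R) ≤ C * (ε / (C * (2 * kap n)) * (2 * kap n * R)) :=
          mul_le_mul_of_nonneg_left hR (by linarith)
      _ = ε * R := by field_simp

end Vale.Agent.P134.H891
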