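import Mathlib.Analysis.SpecialFunctions.Integrals.Basic
import Vale.Agent.P134.H891.Flux

set_option linter.all false

open MeasureTheory Filter Topology

namespace Vale.Agent.P134.H891

variable {n : ℕ} {u χ w : (Fin n → ℝ) → ℝ}

/-! ### Elementary exponential bounds -/

lemma pow_le_exp {t : ℝ} (ht : 0 ≤ t) (k : ℕ) : t ^ k ≤ k.factorial * Real.exp t := by
  have h := Real.pow_div_factorial_le_exp t ht k
  rw [div_le_iff₀ (by positivity)] at h
  linarith

/-- `t e^{-t} ≤ 10/(1+t²)`. -/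
lemma mul_exp_neg_le {t : ℝ} (ht : 0 ≤ t) : t * Real.exp (-t) ≤ 10 / (1 + t ^ 2) := by
  rw [le_div_iff₀ (by positivity), Real.exp_neg]
  have h1 := pow_le_exp ht 1
  have h3 := pow_le_exp ht 3
  have he := Real.exp_pos t
  simp [Nat.factorial] at h1 h3
  rw [mul_assoc, inv_mul_eq_div, mul_div_assoc', div_le_iff₀ he]
  nlinarith

lemma exp_neg_le {t : ℝ} (ht : 0 ≤ t) : Real.exp (-t) ≤ 3 / (1 + t ^ 2) := by
  rw [le_div_iff₀ (by positivity), Real.exp_neg]
  have h0 := Real.add_one_le_exp t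
  have h2 := pow_le_exp ht 2
  have he := Real.exp_pos t
  simp [Nat.factorial] at h2
  rw [inv_mul_eq_div, div_le_iff₀ he]
  nlinarith

/-! ### The profile -/

/-- The one dimensional profile `tanh (s/√2)`. -/
noncomputable def gp (s : ℝ) : ℝ := 1 - 2 / (Real.exp (√2 * s) + 1)

lemma gp_lt_one (s : ℝ) : gp s < 1 := by
  unfold gp
  have := Real.exp_pos (√2 * s)
  have h : 0 < 2 / (Real.exp (√2 * s) + 1) := by positivity
  linarith

lemma neg_one_lt_gp (s : ℝ) : -1 < gp s := by
  unfold gp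
  have := Real.exp_pos (√2 * s)
  have h : 2 / (Real.exp (√2 * s) + 1) < 2 := by
    rw [div_lt_iff₀ (by positivity)]; linarith
  linarith

lemma gp_abs (s : ℝ) : |gp s| ≤ 1 := abs_le.mpr ⟨(neg_one_lt_gp s).le, (gp_lt_one s).le⟩

lemma one_add_gp_le (s : ℝ) : 1 + gp s ≤ 2 * Real.exp (√2 * s) := by
  unfold gp
  have h := Real.exp_pos (√2 * s)
  have h2 : 1 + (1 - 2 / (Real.exp (√2 * s) + 1)) = 2 * Real.exp (√2 * s) / (Real.exp (√2 * s) + 1) := by
    field_simp; ring
  rw [h2, div_le_iff₀ (by positivity)]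
  nlinarith

lemma one_sub_gp_le (s : ℝ) : 1 - gp s ≤ 2 * Real.exp (-(√2 * s)) := by
  unfold gp
  have h := Real.exp_pos (√2 * s)
  rw [Real.exp_neg]
  have h2 : 1 - (1 - 2 / (Real.exp (√2 * s) + 1)) = 2 / (Real.exp (√2 * s) + 1) := by ring
  rw [h2, div_le_iff₀ (by positivity), mul_assoc, inv_mul_eq_div, mul_div_assoc', le_div_iff₀ h]
  nlinarith

lemma hasDerivAt_gp (s : ℝ) : HasDerivAt gp ((1 - gp s ^ 2) / √2) s := by
  have h := Real.exp_pos (√2 * s)
  have h1 : HasDerivAt (fun s : ℝ => Real.exp (√2 * s) + 1) (Real.exp (√2 * s) * √2) s := by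
    have := ((hasDerivAt_id s).const_mul (√2)).exp.add_const 1
    simpa using this
  have h2 := ((hasDerivAt_const s (2:ℝ)).div h1 (by positivity)).const_sub 1
  refine h2.congr_deriv ?_
  unfold gp
  have h3 := sqrt2_pos
  have h4 := sqrt2_sq
  field_simp
  linear_combination (2 * Real.exp (√2 * s)) * h4

lemma continuous_gp : Continuous gp :=
  continuous_iff_continuousAt.mpr fun s => (hasDerivAt_gp s).continuousAt

lemma gp_strictMono : StrictMono gp := by
  intro a b hab
  unfold gp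
  have h1 : Real.exp (√2 * a) < Real.exp (√2 * b) := by
    apply Real.exp_lt_exp.mpr
    exact mul_lt_mul_of_pos_left hab sqrt2_pos
  have h2 := Real.exp_pos (√2 * a)
  have : 2 / (Real.exp (√2 * b) + 1) < 2 / (Real.exp (√2 * a) + 1) := by
    apply div_lt_div_of_pos_left (by norm_num) (by positivity); linarith
  linarith

/-- `ψ² ≤ 48/(1+s²)` for a function below the profile, at `s ≤ 0` etc. -/
lemma psi_le_exp (hu : Sol u) {p : Fin n} (hle : ∀ x, u x ≤ gp (x p)) (x : Fin n → ℝ) :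
    psi u x ≤ 4 * Real.exp (√2 * x p) := by
  have h1 := one_add_gp_le (x p)
  have h2 := hle x
  have h3 := abs_le.mp (hu.bd x)
  unfold psi
  nlinarith [mul_nonneg (by linarith : 0 ≤ 1 - u x) (by linarith : 0 ≤ 1 + u x)]

lemma psi_sq_le_exp (hu : Sol u) {p : Fin n} (hle : ∀ x, u x ≤ gp (x p)) {x : Fin n → ℝ}
    (hx : x p ≤ 0) : psi u x ^ 2 ≤ 16 * Real.exp (-(-(x p))) := by
  have h1 := psi_le_exp hu hle x
  have h2 := hu.psi_nonneg x
  have h3 : psi u x ^ 2 ≤ 16 * Real.exp (√2 * x p) ^ 2 := by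
    calc psi u x ^ 2 ≤ (4 * Real.exp (√2 * x p)) ^ 2 := pow_le_pow_left₀ h2 h1 2
      _ = _ := by ring
  have h4 : Real.exp (√2 * x p) ^ 2 ≤ Real.exp (x p) := by
    rw [← Real.exp_nat_mul]
    apply Real.exp_le_exp.mpr
    push_cast
    nlinarith [one_lt_sqrt2]
  rw [neg_neg]
  linarith

lemma neg_part_le (hu : Sol u) {p : Fin n} (hle : ∀ x, u x ≤ gp (x p)) (x : Fin n → ℝ) :
    pp (-(x p)) * psi u x ^ 2 ≤ 160 / (1 + (x p) ^ 2) := by
  by_cases hx : x p ≤ 0
  · have h1 := psi_sq_le_exp hu hle hx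
    have h2 := mul_exp_neg_le (t := -(x p)) (by linarith)
    rw [pp_of_nonneg (by linarith)]
    rw [neg_sq] at h2
    calc -(x p) * psi u x ^ 2 ≤ -(x p) * (16 * Real.exp (-(-(x p)))) :=
          mul_le_mul_of_nonneg_left h1 (by linarith)
      _ = 16 * (-(x p) * Real.exp (-(-(x p)))) := by ring
      _ ≤ 16 * (10 / (1 + (x p) ^ 2)) := by linarith
      _ = _ := by ring
  · push Not at hx
    rw [pp_of_nonpos (by linarith), zero_mul]
    positivity

/-! ### Slab integrals -/

/-- The majorant. -/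
noncomputable def maj (K a M L : ℝ) (s : ℝ) : ℝ :=
  K * (1 + (s - a) ^ 2)⁻¹ + M * (Set.Icc 0 L).indicator (fun _ => (1:ℝ)) s

lemma intervalIntegrable_ind (L a b : ℝ) :
    IntervalIntegrable ((Set.Icc 0 L).indicator (fun _ => (1:ℝ))) volume a b := by
  rw [intervalIntegrable_iff]
  exact (integrableOn_const (by simp)).indicator measurableSet_Icc

lemma interval_ind_le {L : ℝ} (hL : 0 ≤ L) {r : ℝ} (hr : 0 ≤ r) :
    ∫ s in (-r)..r, (Set.Icc 0 L).indicator (fun _ => (1:ℝ)) s ≤ L := by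
  rw [intervalIntegral.integral_of_le (by linarith)]
  calc ∫ s in Set.Ioc (-r) r, (Set.Icc 0 L).indicator (fun _ => (1:ℝ)) s
      ≤ ∫ s, (Set.Icc 0 L).indicator (fun _ => (1:ℝ)) s := by
        apply setIntegral_le_integral
        · exact (integrableOn_const (by simp)).integrable_indicator measurableSet_Icc
        · exact Eventually.of_forall fun s => Set.indicator_nonneg (fun _ _ => zero_le_one) s
    _ = L := by
        rw [integral_indicator measurableSet_Icc, setIntegral_const]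
        simp [Measure.real, hL]

lemma interval_arctan_le (a r : ℝ) : ∫ s in (-r)..r, (1 + (s - a) ^ 2)⁻¹ ≤ Real.pi := by
  have h := intervalIntegral.integral_comp_sub_right (a := -r) (b := r)
    (fun s : ℝ => (1 + s ^ 2)⁻¹) a
  rw [h, integral_inv_one_add_sq]
  have h1 := Real.arctan_lt_pi_div_two (r - a)
  have h2 := Real.neg_pi_div_two_lt_arctan (-r - a)
  linarith

lemma intervalIntegrable_arctan (a b c : ℝ) :
    IntervalIntegrable (fun s : ℝ => (1 + (s - a) ^ 2)⁻¹) volume b c := by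
  apply Continuous.intervalIntegrable
  refine Continuous.inv₀ (by fun_prop) fun s => by positivity

lemma interval_maj_le {K a M L r : ℝ} (hK : 0 ≤ K) (hM : 0 ≤ M) (hL : 0 ≤ L) (hr : 0 ≤ r) :
    ∫ s in (-r)..r, maj K a M L s ≤ 4 * K + M * L := by
  unfold maj
  rw [intervalIntegral.integral_add ((intervalIntegrable_arctan _ _ _).const_mul _)
    ((intervalIntegrable_ind _ _ _).const_mul _), intervalIntegral.integral_const_mul,
    intervalIntegral.integral_const_mul]
  have h1 := interval_arctan_le a r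
  have h2 := interval_ind_le hL hr
  have h3 := Real.pi_le_four
  have h4 := mul_le_mul_of_nonneg_left (h1.trans h3) hK
  have h5 := mul_le_mul_of_nonneg_left h2 hM
  linarith

lemma measurable_maj (K a M L : ℝ) : Measurable (maj K a M L) := by
  unfold maj
  apply Measurable.add
  · apply Measurable.const_mul
    apply Measurable.inv
    fun_prop
  · exact (Measurable.indicator measurable_const measurableSet_Icc).const_mul _

lemma maj_bounded {K a M L : ℝ} (hK : 0 ≤ K) (hM : 0 ≤ M) (s : ℝ) : |maj K a M L s| ≤ K + M := by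
  unfold maj
  have h1 : (1 + (s - a) ^ 2)⁻¹ ≤ 1 := inv_le_one_of_one_le₀ (by nlinarith [sq_nonneg (s - a)])
  have h1' : 0 ≤ (1 + (s - a) ^ 2)⁻¹ := by positivity
  have h2 : (Set.Icc 0 L).indicator (fun _ => (1:ℝ)) s ≤ 1 := by
    by_cases h : s ∈ Set.Icc 0 L
    · rw [Set.indicator_of_mem h]
    · rw [Set.indicator_of_notMem h]; norm_num
  have h2' : 0 ≤ (Set.Icc 0 L).indicator (fun _ => (1:ℝ)) s :=
    Set.indicator_nonneg (fun _ _ => zero_le_one) s
  rw [abs_of_nonneg (by positivity)]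
  nlinarith

/-- Slab lemma. -/
lemma slab {p : Fin n} {F : (Fin n → ℝ) → ℝ} {K a M L r : ℝ} (hK : 0 ≤ K) (hM : 0 ≤ M)
    (hL : 0 ≤ L) (hr : 0 ≤ r) (hF : Integrable F) (h0 : ∀ x, x ∉ box n r → F x ≤ 0)
    (hb : ∀ x ∈ box n r, F x ≤ maj K a M L (x p)) :
    ∫ x, F x ≤ (4 * K + M * L) * (2 * r) ^ (n - 1) := by
  have hm : MeasurableSet (box n r) := measurableSet_Icc
  have hi : IntegrableOn (fun x : Fin n → ℝ => maj K a M L (x p)) (box n r) := by
    apply Measure.integrableOn_of_bounded (M := K + M) (volume_box_ne_top r)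
    · exact ((measurable_maj K a M L).comp (measurable_pi_apply p)).aestronglyMeasurable
    · exact Eventually.of_forall fun x => by
        rw [Real.norm_eq_abs]; exact maj_bounded hK hM _
  have h1 : ∫ x, F x ≤ ∫ x in box n r, maj K a M L (x p) := by
    rw [← integral_indicator hm]
    apply integral_mono hF (hi.integrable_indicator hm)
    intro x
    by_cases hx : x ∈ box n r
    · rw [Set.indicator_of_mem hx]; exact hb x hx
    · rw [Set.indicator_of_notMem hx]; exact h0 x hx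
  rw [box_integral_coord p hr] at h1
  refine h1.trans ?_
  rw [mul_comm]
  exact mul_le_mul_of_nonneg_right (interval_maj_le hK hM hL hr) (by positivity)

lemma maj_ge_left {K a M L s : ℝ} (hM : 0 ≤ M) : K / (1 + (s - a) ^ 2) ≤ maj K a M L s := by
  unfold maj
  have h2' : 0 ≤ (Set.Icc 0 L).indicator (fun _ => (1:ℝ)) s :=
    Set.indicator_nonneg (fun _ _ => zero_le_one) s
  rw [div_eq_mul_inv]
  nlinarith [mul_nonneg hM h2']

lemma maj_ge_right {K a M L s : ℝ} (hK : 0 ≤ K) (hs : 0 ≤ s) (hsL : s ≤ L) :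
    M ≤ maj K a M L s := by
  unfold maj
  rw [Set.indicator_of_mem (Set.mem_Icc.mpr ⟨hs, hsL⟩)]
  have : 0 ≤ K * (1 + (s - a) ^ 2)⁻¹ := by positivity
  linarith

end Vale.Agent.P134.H891
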