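import Vale.Agent.P134.H891.Pass
import Vale.Agent.P134.H3.NP

set_option linter.all false

/-! The improvement step (2.7). -/

namespace Vale.Agent.P134.H891

open Vale.Agent.P134 Vale.Agent.P134.SM MeasureTheory Filter Topology
open Vale.Agent.P134.H787 (rot LI)
open Vale.Agent.P134.H370 (Flat gap J0 JJ TL TILT PA)

variable {n : ℕ}

lemma tt_rot {v : (Fin n → ℝ) → ℝ} (hv : Sol v) (L : LI n) (R : ℝ) :
    TT (fun _ => 1) (fun x => v (rot L x)) R = TT (fun _ => 1) v R := by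
  rw [TT_one_eq, TT_one_eq]
  congr 1
  have e : ∀ x, en (fun x => v (rot L x)) x * ph R x
      = (fun y => en v y * ph R y) (rot L x) := by
    intro x
    simp only
    rw [H787.en_comp_rot (hv.c2.differentiable (by norm_num))]
    have : ph R (rot L x) = ph R x := by
      unfold ph mm; rw [esq_rot]
    rw [this]
  simp only [e]
  exact H787.integral_rot L (fun y => en v y * ph R y)

lemma cls_rot {p : Fin n} {K : ℝ} {v : (Fin n → ℝ) → ℝ} (hv : Cls n p K v) (L : LI n) :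
    Cls n p K (fun x => v (rot L x)) :=
  ⟨H787.Sol.rot hv.1 L, fun R hR => by rw [tt_rot hv.1]; exact hv.2 R hR⟩

/-- TILT bound from flatness. -/
lemma tilt_flat {K C : ℝ} {p : Fin 4} (hC : 1 ≤ C) (h20 : C20 4 p C) (h21 : C21 4 p K C) :
    ∀ v : (Fin 4 → ℝ) → ℝ, Cls 4 p K v → ∀ a R H : ℝ, 1 ≤ R → 0 ≤ H → |a| ≤ H → H ≤ R →
      Flat v p a (2 * R) H → TILT v p R ≤ 3 * C ^ 2 * (1 + H) ^ 2 * R := by
  intro v hv a R H hR hH ha hHR hF
  obtain ⟨h1, h2⟩ := h20 v hv.1 a R H hR hH (ha.trans hHR) hF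
  have h3 := h21 v hv a R hR
  norm_num at h1 h2 h3
  refine h3.trans ?_
  have ha2 : a ^ 2 ≤ H ^ 2 := by rw [← sq_abs]; exact pow_le_pow_left₀ (abs_nonneg a) ha 2
  have hR3 : 0 < R ^ 3 := by positivity
  have e1 : (1 + a ^ 2) * R ^ 3 ≤ C * (1 + H) ^ 2 * R ^ 3 := by
    apply mul_le_mul_of_nonneg_right _ hR3.le
    nlinarith [sq_nonneg (1 + H)]
  have e2 : |a| * J0 v p a R ≤ C * (1 + H) ^ 2 * R ^ 3 := by
    have j0n : 0 ≤ J0 v p a R := integral_nonneg fun x =>
      mul_nonneg (H370.gap_nonneg v p a x) (mm_nonneg R x)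
    calc |a| * J0 v p a R ≤ (1 + H) * (C * (1 + H) * R ^ 3) :=
          mul_le_mul (by linarith) h2 j0n (by linarith)
      _ = _ := by ring
  calc C / R ^ 2 * ((1 + a ^ 2) * R ^ 3 + JJ v p a R + |a| * J0 v p a R)
      ≤ C / R ^ 2 * (C * (1 + H) ^ 2 * R ^ 3 + C * (1 + H) ^ 2 * R ^ 3 + C * (1 + H) ^ 2 * R ^ 3) := by
        apply mul_le_mul_of_nonneg_left _ (by positivity)
        linarith
    _ = 3 * C ^ 2 * (1 + H) ^ 2 * R := by field_simp; ring

lemma L1_mono {v : (Fin n → ℝ) → ℝ} (hv : Sol v) {e : Fin n → ℝ} {a ρ ρ' : ℝ} (h0 : 0 ≤ ρ)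
    (h : ρ ≤ ρ') : L1 v e a ρ ≤ L1 v e a ρ' := by
  unfold L1
  apply setIntegral_mono_set
  · apply Measure.integrableOn_of_bounded (M := 1) (volume_esq_lt_top ρ').ne
    · have hc : Continuous (fun x => Psi (v x)) := Psi_comp_continuous hv
      have m1 : Measurable (fun x : Fin n → ℝ => jp a (∑ i, e i * x i)) :=
        (measurable_jp a).comp (by fun_prop)
      exact (continuous_abs.measurable.comp (hc.measurable.sub m1)).aestronglyMeasurable
    · refine Eventually.of_forall fun x => ?_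
      have h1 := Psi_nonneg (hv.bd x)
      have h2 := Psi_le_one (hv.bd x)
      have h3 := jp_nonneg a (∑ i, e i * x i)
      have h4 := jp_le_one a (∑ i, e i * x i)
      rw [Real.norm_eq_abs, abs_abs, abs_le]; constructor <;> linarith
  · exact Eventually.of_forall fun x => abs_nonneg _
  · apply HasSubset.Subset.eventuallyLE
    intro x hx
    simp only [Set.mem_setOf_eq] at hx ⊢
    exact hx.trans (pow_le_pow_left₀ h0 h 2)

/-- The new frame: rotated solution, flatness of the same order, small L¹ distance. -/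
lemma newframe {p : Fin 4} {K C C5 : ℝ} (hC : 1 ≤ C) (hC5 : 1 ≤ C5) (h20 : C20 4 p C)
    (h21 : C21 4 p K C) (hL : H3.NPlane 3 C5) : ∃ Cb : ℝ, 1 ≤ Cb ∧
      ∀ v : (Fin 4 → ℝ) → ℝ, Cls 4 p K v → ∀ R a H : ℝ, 1 ≤ R → 0 ≤ H → Cb * (1 + H) ≤ R →
        |a| ≤ H → Flat v p a (8 * R) H → ∃ (L : LI 4) (a'' : ℝ), |a''| ≤ Cb * (1 + H) ∧
          Flat (fun x => v (rot L x)) p a'' (8 * R) (Cb * (1 + H)) ∧
          ∀ r, 1 ≤ r → r ≤ R / 4 → J0 (fun x => v (rot L x)) p a'' r ≤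
            Cb * (r ^ 3 + (r / R) ^ 2 * (1 + H) * r ^ 3 + (1 + H) ^ 2 * R ^ 2) := by
  refine ⟨12 * C5 * C ^ 2 + 400 * C5 ^ 3, ?_, ?_⟩
  · have h1 : 1 ≤ C5 ^ 3 := one_le_pow₀ hC5
    have h2 : 0 ≤ C5 * C ^ 2 := by positivity
    linarith
  intro v hv R a H hR0 hH hHR ha hF
  have hRp : 0 < R := by linarith
  have hC53 : 1 ≤ C5 ^ 3 := one_le_pow₀ hC5
  have hC52 : 1 ≤ C5 ^ 2 := one_le_pow₀ hC5
  have hCC : C5 ≤ C5 ^ 3 := by nlinarith
  have h1H : 0 ≤ 1 + H := by linarith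
  have hCb : (0:ℝ) ≤ 12 * C5 * C ^ 2 := by positivity
  have hHR8 : C5 * (1 + H) ≤ R / 8 := by
    nlinarith [mul_nonneg hCb h1H, mul_nonneg (show 0 ≤ C5 ^ 3 - C5 by linarith) h1H]
  have hHR9 : 1 + H ≤ R / 8 := by nlinarith
  obtain ⟨a', b, hb0, ha', ha1, hb, hint⟩ := hL v p a R H hv.1 hR0 hH ha (by linarith)
    (flat_mono hF (by linarith) (by linarith) le_rfl)
  obtain ⟨L, a'', hL1, hL2, hL3⟩ := newplane hb0 a'
  -- size of b
  have hq : ∀ i, b i ^ 2 ≤ (C5 * (1 + H) / R) ^ 2 := by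
    intro i
    rw [← sq_abs]; exact pow_le_pow_left₀ (abs_nonneg _) (hb i) 2
  have hbs : ∑ i, b i ^ 2 ≤ 4 * (C5 * (1 + H) / R) ^ 2 := by
    rw [Fin.sum_univ_four]
    have := hq 0; have := hq 1; have := hq 2; have := hq 3
    linarith
  have hb1 : C5 * (1 + H) / R ≤ 1 / 8 := by
    rw [div_le_iff₀ hRp]; linarith
  have hb2 : 0 ≤ C5 * (1 + H) / R := by positivity
  have hb3 : ∑ i, b i ^ 2 ≤ 1 := by nlinarith
  -- size of a''
  have ha2 : |a'' - a'| ≤ C5 * (1 + H) := by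
    refine hL2.trans ?_
    calc |a'| * ∑ i, b i ^ 2 ≤ (C5 * (1 + H)) * 1 :=
          mul_le_mul ha1 hb3 (Finset.sum_nonneg fun _ _ => sq_nonneg _) (by positivity)
      _ = _ := by ring
  have ha3 : |a'' - a| ≤ 2 * C5 * (1 + H) := by
    have h1 : |a'' - a| ≤ |a'' - a'| + |a' - a| := abs_sub_le _ _ _
    linarith
  have ha4 : |a''| ≤ 2 * C5 * (1 + H) := by
    have h1 : |a''| ≤ |a'' - a'| + |a'| := by
      have := abs_add_le (a'' - a') a'
      simpa using this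
    linarith
  have hbig : 2 * C5 ≤ 12 * C5 * C ^ 2 + 400 * C5 ^ 3 := by linarith
  refine ⟨L, a'', ?_, ?_, ?_⟩
  · exact ha4.trans (mul_le_mul_of_nonneg_right hbig h1H)
  · rw [flat_rot]
    have hFE : FlatE v (Pi.single p 1) a (8 * R) H := by
      intro x hx
      rw [single_dot]; exact hF x hx
    apply flatE_change hFE (by linarith) (δ := 3 * (C5 * (1 + H) / R)) (by positivity)
    · refine hL1.trans ?_
      nlinarith [sq_nonneg (C5 * (1 + H) / R)]
    · have e1 : 3 * (C5 * (1 + H) / R) * (8 * R) = 24 * C5 * (1 + H) := by field_simp; ring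
      rw [e1]
      have e2 : H + 26 * C5 * (1 + H) ≤ 27 * C5 * (1 + H) := by nlinarith
      have e3 : 27 * C5 ≤ 12 * C5 * C ^ 2 + 400 * C5 ^ 3 := by linarith
      have e4 := mul_le_mul_of_nonneg_right e3 h1H
      linarith
  · intro r hr hrR
    have hrp : 0 < r := by linarith
    have hv' := H787.Sol.rot hv.1 L
    have h1 := J0_le (p := p) hv' hrp a''
    rw [L1_rot] at h1
    have h3 : L1 v (rot L (Pi.single p 1)) a'' r
        = ∫ x in {x : Fin 4 → ℝ | esq x ≤ r ^ 2},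
          |Psi (v x) - if a' + ∑ j, b j * x j < x p then Psi 1 else 0| := by
      unfold L1
      congr 1
      funext x
      have : jp a'' (∑ i, rot L (Pi.single p 1) i * x i)
          = if a' + ∑ j, b j * x j < x p then Psi 1 else 0 := by
        unfold jp
        by_cases hx : a' + ∑ i, b i * x i < x p
        · rw [if_pos hx, if_pos ((hL3 x).mpr hx)]
        · rw [if_neg hx, if_neg (fun h => hx ((hL3 x).mp h))]
      rw [this]
    have h2 := hint r hr hrR
    rw [← h3] at h2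
    have h4 := tilt_flat hC h20 h21 v hv a (4 * R) H (by linarith) hH ha (by linarith)
      (by convert hF using 1; ring)
    have h4' : ∫ x, TL v p x * ph (4 * R) x = TILT v p (4 * R) := rfl
    rw [h4'] at h2
    have h5 : C5 * (R * TILT v p (4 * R)) ≤ 12 * C5 * C ^ 2 * ((1 + H) ^ 2 * R ^ 2) := by
      calc C5 * (R * TILT v p (4 * R)) ≤ C5 * (R * (3 * C ^ 2 * (1 + H) ^ 2 * (4 * R))) := by
            gcongr
        _ = _ := by ring
    set A : ℝ := r ^ 3 with hA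
    set B : ℝ := (r / R) ^ 2 * (1 + H) * r ^ 3 with hB
    set D : ℝ := (1 + H) ^ 2 * R ^ 2 with hD
    have hA0 : 0 ≤ A := by positivity
    have hB0 : 0 ≤ B := by positivity
    have hD0 : 0 ≤ D := by positivity
    have h6 : 48 * (2 * r) ^ (4 - 1) = 384 * A := by norm_num; rw [hA]; ring
    rw [h6] at h1
    have h7 : C5 * (A + B + R * TILT v p (4 * R)) = C5 * A + C5 * B + C5 * (R * TILT v p (4 * R)) := by
      ring
    rw [h7] at h2
    have e1 : C5 * A + 384 * A ≤ (12 * C5 * C ^ 2 + 400 * C5 ^ 3) * A := by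
      rw [← add_mul]
      apply mul_le_mul_of_nonneg_right _ hA0
      linarith
    have e2 : C5 * B ≤ (12 * C5 * C ^ 2 + 400 * C5 ^ 3) * B := by
      apply mul_le_mul_of_nonneg_right _ hB0
      linarith
    have e3 : 12 * C5 * C ^ 2 * D ≤ (12 * C5 * C ^ 2 + 400 * C5 ^ 3) * D := by
      apply mul_le_mul_of_nonneg_right _ hD0
      linarith
    have e4 : (12 * C5 * C ^ 2 + 400 * C5 ^ 3) * (A + B + D) =
      (12 * C5 * C ^ 2 + 400 * C5 ^ 3) * A + (12 * C5 * C ^ 2 + 400 * C5 ^ 3) * B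
      + (12 * C5 * C ^ 2 + 400 * C5 ^ 3) * D := by ring
    rw [e4]
    linarith

end Vale.Agent.P134.H891
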