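import Vale.Agent.P134.H891.Step

set_option linter.all false

/-! The improvement step (2.7): two passes. -/

namespace Vale.Agent.P134.H891

open Vale.Agent.P134 Vale.Agent.P134.SM MeasureTheory Filter Topology
open Vale.Agent.P134.H787 (rot LI)
open Vale.Agent.P134.H370 (Flat gap J0 JJ TL TILT PA)

/-- The output of `pass`. -/
def PassP (p : Fin 4) (K C3 : ℝ) : Prop := ∀ u : (Fin 4 → ℝ) → ℝ, Cls 4 p K u →
  ∀ a r H j : ℝ, 1 ≤ r → 0 ≤ H →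
      |a| ≤ H → 2 * H < r → Flat u p a (2 * (20 * r)) H → 0 ≤ j →
      J0 u p a (20 * r) ≤ j * (20 * r) ^ 3 →
      1 + H + Real.log (20 * r) ≤ 20 * r →
      ∀ H' : ℝ, 0 ≤ H' → C3 * (1 + (1 + H + Real.log (20 * r)) * j +
        (1 + H + Real.log (20 * r)) ^ 4 / r ^ 2) ≤ H' ^ 2 →
      Flat u p a r H' ∧ (|u 0| ≤ 3 / 4 → |a| ≤ H')

/-- The output of `newframe`. -/
def FrameP (p : Fin 4) (K Cb : ℝ) : Prop :=
      ∀ v : (Fin 4 → ℝ) → ℝ, Cls 4 p K v → ∀ R a H : ℝ, 1 ≤ R → 0 ≤ H → Cb * (1 + H) ≤ R →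
        |a| ≤ H → Flat v p a (8 * R) H → ∃ (L : LI 4) (a'' : ℝ), |a''| ≤ Cb * (1 + H) ∧
          Flat (fun x => v (rot L x)) p a'' (8 * R) (Cb * (1 + H)) ∧
          ∀ r, 1 ≤ r → r ≤ R / 4 → J0 (fun x => v (rot L x)) p a'' r ≤
            Cb * (r ^ 3 + (r / R) ^ 2 * (1 + H) * r ^ 3 + (1 + H) ^ 2 * R ^ 2)

/-- Numerics of the L¹ term. -/
lemma j_num {Cb θ R H r : ℝ} (hCb : 1 ≤ Cb) (hθ : 0 < θ) (hR : 0 < R) (hr : 0 < r)
    (h1 : 1 ≤ θ ^ 2 * H) (hH : 1 ≤ H) (h2 : H ≤ θ ^ 5 * R) (hrθ : r ≤ θ * R)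
    (hrθ' : θ * R ≤ 40 * r) :
    Cb * (r ^ 3 + (r / R) ^ 2 * (1 + H) * r ^ 3 + (1 + H) ^ 2 * R ^ 2)
      ≤ 300000 * Cb * (θ ^ 2 * H) * r ^ 3 := by
  have e1 : r ^ 3 ≤ θ ^ 2 * H * r ^ 3 := by
    have : 0 < r ^ 3 := by positivity
    nlinarith
  have e2 : (r / R) ^ 2 * (1 + H) * r ^ 3 ≤ 2 * (θ ^ 2 * H) * r ^ 3 := by
    have h3 : r / R ≤ θ := by rw [div_le_iff₀ hR]; exact hrθ
    calc (r / R) ^ 2 * (1 + H) * r ^ 3 ≤ θ ^ 2 * (2 * H) * r ^ 3 := by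
          gcongr; linarith
      _ = _ := by ring
  have e3 : (1 + H) ^ 2 * R ^ 2 ≤ 256000 * (θ ^ 2 * H) * r ^ 3 := by
    have h4 : (θ * R) ^ 3 ≤ 64000 * r ^ 3 := by
      calc (θ * R) ^ 3 ≤ (40 * r) ^ 3 := pow_le_pow_left₀ (by positivity) hrθ' 3
        _ = _ := by ring
    calc (1 + H) ^ 2 * R ^ 2 ≤ (2 * H) ^ 2 * R ^ 2 := by gcongr; linarith
      _ = 4 * H * R ^ 2 * H := by ring
      _ ≤ 4 * H * R ^ 2 * (θ ^ 5 * R) := by gcongr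
      _ = 4 * (θ ^ 2 * H) * (θ * R) ^ 3 := by ring
      _ ≤ 4 * (θ ^ 2 * H) * (64000 * r ^ 3) := by gcongr
      _ = _ := by ring
  have e4 : 0 ≤ (θ ^ 2 * H) * r ^ 3 := by positivity
  calc Cb * (r ^ 3 + (r / R) ^ 2 * (1 + H) * r ^ 3 + (1 + H) ^ 2 * R ^ 2)
      ≤ Cb * (θ ^ 2 * H * r ^ 3 + 2 * (θ ^ 2 * H) * r ^ 3 + 256000 * (θ ^ 2 * H) * r ^ 3) := by
        gcongr
    _ = 256003 * Cb * ((θ ^ 2 * H) * r ^ 3) := by ring
    _ ≤ 300000 * Cb * ((θ ^ 2 * H) * r ^ 3) := by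
        apply mul_le_mul_of_nonneg_right _ e4
        linarith
    _ = _ := by ring

/-- Numerics of a pass. -/
lemma pass_num {C3 Λ j r A B D X : ℝ} (hC3 : 0 ≤ C3) (hr : 0 < r) (h1 : 1 ≤ X) (hΛ0 : 0 ≤ Λ)
    (hj0 : 0 ≤ j) (hΛj : Λ * j ≤ A * X) (hΛr : Λ ^ 4 / r ^ 2 ≤ B * X) (hD : C3 * (1 + A + B) ≤ D) :
    C3 * (1 + Λ * j + Λ ^ 4 / r ^ 2) ≤ D * X := by
  calc C3 * (1 + Λ * j + Λ ^ 4 / r ^ 2) ≤ C3 * (X + A * X + B * X) := by gcongr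
    _ = C3 * (1 + A + B) * X := by ring
    _ ≤ D * X := mul_le_mul_of_nonneg_right hD (by linarith)

lemma num1 {θ R0 H : ℝ} (hθ : 0 < θ) (hθ1 : θ ≤ 1 / 100) (hR0 : Real.exp (8 / θ) ≤ R0)
    (hH : 1 / θ * Real.log R0 ≤ H) :
    Real.log R0 ≤ θ * H ∧ 8 ≤ θ * H ∧ 8 ≤ θ ^ 2 * H ∧ 8 ≤ H := by
  have hR0p : 0 < R0 := (Real.exp_pos _).trans_le hR0
  have hlog0 : 8 / θ ≤ Real.log R0 := by
    rw [Real.le_log_iff_exp_le hR0p]; exact hR0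
  have h8θ : 8 ≤ 8 / θ := by
    rw [le_div_iff₀ hθ]; linarith
  have hlog1 : Real.log R0 ≤ θ * H := by
    rw [one_div, ← div_eq_inv_mul, div_le_iff₀ hθ] at hH
    linarith
  have hθH : 8 / θ ≤ θ * H := hlog0.trans hlog1
  have hθH1 : 8 ≤ θ * H := h8θ.trans hθH
  have hH0 : 0 < H := by
    by_contra hcon
    push Not at hcon
    nlinarith
  have hθ2H : 8 ≤ θ ^ 2 * H := by
    rw [div_le_iff₀ hθ] at hθH
    linarith
  refine ⟨hlog1, hθH1, hθ2H, ?_⟩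
  have : θ * H ≤ 1 * H := mul_le_mul_of_nonneg_right (by linarith) hH0.le
  linarith

lemma num2 {θ c R H Cb C6 : ℝ} (hθ : 0 < θ) (hθ1 : θ ≤ 1 / 100) (hCb : 1 ≤ Cb) (hC6 : 1 ≤ C6)
    (hc : 100000 * Cb * C6 * c = θ ^ 5) (hH : 8 ≤ H) (hR : 0 < R) (hHc : H ≤ c * R) :
    100000 * Cb * H ≤ θ * R ∧ 100000 * C6 * H ≤ θ * R ∧ 100000 * H ≤ θ ^ 2 * R ∧
      H ≤ θ ^ 5 * R ∧ 1 ≤ θ * R ∧ θ * R ≤ R / 100 ∧ 100000 ≤ θ * R := by
  have hH0 : 0 < H := by linarith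
  have hθ1' : θ ≤ 1 := by linarith
  have hH5 : 100000 * Cb * C6 * H ≤ θ ^ 5 * R := by
    calc 100000 * Cb * C6 * H ≤ 100000 * Cb * C6 * (c * R) := by gcongr
      _ = (100000 * Cb * C6 * c) * R := by ring
      _ = _ := by rw [hc]
  have hpw : θ ^ 5 ≤ θ := by
    calc θ ^ 5 = θ * θ ^ 4 := by ring
      _ ≤ θ * 1 := mul_le_mul_of_nonneg_left (pow_le_one₀ hθ.le hθ1') hθ.le
      _ = θ := by ring
  have hpw2 : θ ^ 5 ≤ θ ^ 2 := by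
    calc θ ^ 5 = θ ^ 2 * θ ^ 3 := by ring
      _ ≤ θ ^ 2 * 1 := mul_le_mul_of_nonneg_left (pow_le_one₀ hθ.le hθ1') (by positivity)
      _ = θ ^ 2 := by ring
  have q1 : 100000 * Cb * H ≤ 100000 * Cb * C6 * H := by
    have : 100000 * Cb * H * 1 ≤ 100000 * Cb * H * C6 := by gcongr
    linarith
  have q2 : 100000 * C6 * H ≤ 100000 * Cb * C6 * H := by
    have : 100000 * C6 * H * 1 ≤ 100000 * C6 * H * Cb := by gcongr
    linarith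
  have q3 : 100000 * H ≤ 100000 * Cb * H := by
    have : 100000 * H * 1 ≤ 100000 * H * Cb := by gcongr
    linarith
  have q4 : θ ^ 5 * R ≤ θ * R := mul_le_mul_of_nonneg_right hpw hR.le
  have q5 : θ ^ 5 * R ≤ θ ^ 2 * R := mul_le_mul_of_nonneg_right hpw2 hR.le
  have q6 : θ * R ≤ 1 / 100 * R := mul_le_mul_of_nonneg_right hθ1 hR.le
  refine ⟨by linarith, by linarith, by linarith, by linarith, by linarith, by linarith, by linarith⟩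

lemma pass1 {p : Fin 4} {K C3 Cb Cg C6 θ R H a'' : ℝ} (hC3 : 1 ≤ C3) (hCb : 1 ≤ Cb)
    (hCg : Cg = 300000 * Cb) (hC6 : C6 = C3 * (1 + 4 * Cb * Cg + (4 * Cb) ^ 4)) (hC61 : 1 ≤ C6)
    (hP : PassP p K C3) {w : (Fin 4 → ℝ) → ℝ} (hw : Cls 4 p K w) (hw0 : |w 0| ≤ 3 / 4)
    (hθ : 0 < θ) (hθ1 : θ ≤ 1 / 100) (hR : 0 < R) (hH : 8 ≤ H) (hθ2H : 8 ≤ θ ^ 2 * H)
    (n1 : 100000 * Cb * H ≤ θ * R) (n2 : 100000 * H ≤ θ ^ 2 * R) (n3 : H ≤ θ ^ 5 * R)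
    (n4 : θ * R ≤ R / 100) (n5 : 100000 ≤ θ * R)
    (hlog : Real.log (θ * R) ≤ H) (ha'' : |a''| ≤ Cb * (1 + H))
    (hfl : Flat w p a'' (8 * R) (Cb * (1 + H)))
    (hJ : ∀ r, 1 ≤ r → r ≤ R / 4 → J0 w p a'' r ≤
            Cb * (r ^ 3 + (r / R) ^ 2 * (1 + H) * r ^ 3 + (1 + H) ^ 2 * R ^ 2)) :
    Flat w p a'' (θ * R / 20) (C6 * θ * H) ∧ |a''| ≤ C6 * θ * H := by
  have hH0 : 0 < H := by linarith
  have hb2 : Cb * (1 + H) ≤ 2 * Cb * H := by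
    have : Cb * 1 ≤ Cb * H := by gcongr; linarith
    linarith
  set r1 : ℝ := θ * R / 20 with hr1
  have hr1p : 0 < r1 := by positivity
  have e20 : 20 * r1 = θ * R := by rw [hr1]; ring
  have hX1 : 1 ≤ θ ^ 2 * H ^ 2 := by
    have : θ ^ 2 * H ^ 2 = (θ ^ 2 * H) * H := by ring
    rw [this]
    have : 1 * 1 ≤ (θ ^ 2 * H) * H := mul_le_mul (by linarith) (by linarith) (by norm_num) (by positivity)
    linarith
  set Λ : ℝ := 1 + 2 * Cb * H + Real.log (θ * R) with hΛ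
  have hlogn : 0 ≤ Real.log (θ * R) := Real.log_nonneg (by linarith)
  have hΛ0 : 0 ≤ Λ := by positivity
  have hCbH : H ≤ Cb * H := by
    have : 1 * H ≤ Cb * H := by gcongr
    linarith
  have hΛ1 : Λ ≤ 4 * Cb * H := by linarith
  have hj : J0 w p a'' (20 * r1) ≤ Cg * (θ ^ 2 * H) * (20 * r1) ^ 3 := by
    rw [e20, hCg]
    refine (hJ (θ * R) (by linarith) (by linarith)).trans ?_
    exact j_num hCb hθ hR (by positivity) (by linarith) (by linarith) n3 le_rfl (by linarith)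
  have hCg0 : 0 ≤ Cg := by rw [hCg]; positivity
  have q := pass_num (C3 := C3) (Λ := Λ) (j := Cg * (θ ^ 2 * H)) (r := r1) (A := 4 * Cb * Cg)
        (B := (4 * Cb) ^ 4) (D := C6) (X := θ ^ 2 * H ^ 2) (by linarith) hr1p hX1 hΛ0
        (by positivity)
        (by
          calc Λ * (Cg * (θ ^ 2 * H)) ≤ 4 * Cb * H * (Cg * (θ ^ 2 * H)) := by gcongr
            _ = _ := by ring)
        (by
          rw [div_le_iff₀ (by positivity)]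
          have h3 : H ^ 2 ≤ θ ^ 2 * r1 ^ 2 := by
            have h4 : H ≤ θ * r1 := by rw [hr1]; linarith
            calc H ^ 2 ≤ (θ * r1) ^ 2 := pow_le_pow_left₀ hH0.le h4 2
              _ = _ := by ring
          calc Λ ^ 4 ≤ (4 * Cb * H) ^ 4 := pow_le_pow_left₀ hΛ0 hΛ1 4
            _ = (4 * Cb) ^ 4 * H ^ 2 * H ^ 2 := by ring
            _ ≤ (4 * Cb) ^ 4 * H ^ 2 * (θ ^ 2 * r1 ^ 2) := by gcongr
            _ = _ := by ring)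
        hC6.ge
  have hfin : C3 * (1 + Λ * (Cg * (θ ^ 2 * H)) + Λ ^ 4 / r1 ^ 2) ≤ (C6 * θ * H) ^ 2 := by
    refine q.trans ?_
    calc C6 * (θ ^ 2 * H ^ 2) = C6 * (1 * (θ ^ 2 * H ^ 2)) := by ring
      _ ≤ C6 * (C6 * (θ ^ 2 * H ^ 2)) := by gcongr
      _ = _ := by ring
  have p1 := hP w hw a'' r1 (2 * Cb * H) (Cg * (θ ^ 2 * H)) (by linarith) (by positivity)
    (ha''.trans hb2) (by linarith)
    (flat_mono hfl (by positivity) (by rw [e20]; linarith) hb2) (by positivity)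
    hj (by rw [e20]; linarith) (C6 * θ * H) (by positivity) (by rw [e20]; exact hfin)
  exact ⟨p1.1, p1.2 hw0⟩

lemma pass2 {p : Fin 4} {K C3 Cb Cg C6 C7 θ R H a'' : ℝ} (hC3 : 1 ≤ C3) (hCb : 1 ≤ Cb)
    (hCg : Cg = 300000 * Cb) (hC7 : C7 = C3 * (1 + 3 * C6 * Cg + (3 * C6) ^ 4)) (hC61 : 1 ≤ C6)
    (hP : PassP p K C3) {w : (Fin 4 → ℝ) → ℝ} (hw : Cls 4 p K w) (hw0 : |w 0| ≤ 3 / 4)
    (hθ : 0 < θ) (hθ1 : θ ≤ 1 / 100) (hR : 0 < R) (hH : 8 ≤ H) (hθ2H : 8 ≤ θ ^ 2 * H)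
    (hθH : 8 ≤ θ * H) (hθ7 : C7 * θ * 6400 ^ 2 = 1)
    (n1 : 100000 * C6 * H ≤ θ * R) (n3 : H ≤ θ ^ 5 * R)
    (n4 : θ * R ≤ R / 100) (n5 : 100000 ≤ θ * R)
    (hlog : Real.log (θ * R / 40) ≤ θ * H)
    (hfl : Flat w p a'' (θ * R / 20) (C6 * θ * H)) (ha'' : |a''| ≤ C6 * θ * H)
    (hJ : ∀ r, 1 ≤ r → r ≤ R / 4 → J0 w p a'' r ≤
            Cb * (r ^ 3 + (r / R) ^ 2 * (1 + H) * r ^ 3 + (1 + H) ^ 2 * R ^ 2)) :
    Flat w p a'' (θ * R / 800) (θ / 6400 * H) ∧ |a''| ≤ θ / 6400 * H := by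
  have hH0 : 0 < H := by linarith
  set r2 : ℝ := θ * R / 800 with hr2
  have hr2p : 0 < r2 := by positivity
  have e40 : 2 * (20 * r2) = θ * R / 20 := by rw [hr2]; ring
  have e20 : 20 * r2 = θ * R / 40 := by rw [hr2]; ring
  have hX2 : 1 ≤ θ ^ 3 * H ^ 2 := by
    have h1 : 1 ≤ (θ ^ 2 * H) ^ 2 := one_le_pow₀ (by linarith)
    have h3 : (θ ^ 2 * H) ^ 2 = θ * (θ ^ 3 * H ^ 2) := by ring
    have h4 : 0 ≤ θ ^ 3 * H ^ 2 := by positivity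
    have h5 : θ * (θ ^ 3 * H ^ 2) ≤ 1 * (θ ^ 3 * H ^ 2) :=
      mul_le_mul_of_nonneg_right (by linarith) h4
    linarith
  set Λ : ℝ := 1 + C6 * θ * H + Real.log (θ * R / 40) with hΛ
  have hlogn : 0 ≤ Real.log (θ * R / 40) := Real.log_nonneg (by linarith)
  have hΛ0 : 0 ≤ Λ := by positivity
  have hC6H : θ * H ≤ C6 * (θ * H) := by
    have : 1 * (θ * H) ≤ C6 * (θ * H) := by gcongr
    linarith
  have hΛ1 : Λ ≤ 3 * C6 * (θ * H) := by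
    have : C6 * θ * H = C6 * (θ * H) := by ring
    linarith
  have hj : J0 w p a'' (20 * r2) ≤ Cg * (θ ^ 2 * H) * (20 * r2) ^ 3 := by
    rw [e20, hCg]
    refine (hJ (θ * R / 40) (by linarith) (by linarith)).trans ?_
    exact j_num hCb hθ hR (by positivity) (by linarith) (by linarith) n3 (by linarith) (by linarith)
  have hCg0 : 0 ≤ Cg := by rw [hCg]; positivity
  have hC6θ : C6 * θ * H ≤ C6 * H := by
    have : C6 * H * θ ≤ C6 * H * 1 := by gcongr; linarith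
    linarith
  have hC6H' : H ≤ C6 * H := by
    have : 1 * H ≤ C6 * H := by gcongr
    linarith
  have q := pass_num (C3 := C3) (Λ := Λ) (j := Cg * (θ ^ 2 * H)) (r := r2) (A := 3 * C6 * Cg)
        (B := (3 * C6) ^ 4) (D := C7) (X := θ ^ 3 * H ^ 2) (by linarith) hr2p hX2 hΛ0
        (by positivity)
        (by
          calc Λ * (Cg * (θ ^ 2 * H)) ≤ 3 * C6 * (θ * H) * (Cg * (θ ^ 2 * H)) := by gcongr
            _ = _ := by ring)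
        (by
          rw [div_le_iff₀ (by positivity)]
          have h3 : H ^ 2 ≤ r2 ^ 2 := by
            have h4 : H ≤ r2 := by rw [hr2]; linarith
            exact pow_le_pow_left₀ hH0.le h4 2
          have h5 : θ ^ 4 ≤ θ ^ 3 := by
            calc θ ^ 4 = θ ^ 3 * θ := by ring
              _ ≤ θ ^ 3 * 1 := mul_le_mul_of_nonneg_left (by linarith) (by positivity)
              _ = _ := by ring
          calc Λ ^ 4 ≤ (3 * C6 * (θ * H)) ^ 4 := pow_le_pow_left₀ hΛ0 hΛ1 4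
            _ = (3 * C6) ^ 4 * (θ ^ 4 * H ^ 2) * H ^ 2 := by ring
            _ ≤ (3 * C6) ^ 4 * (θ ^ 3 * H ^ 2) * r2 ^ 2 := by gcongr
            _ = _ := by ring)
        hC7.ge
  have hfin : C3 * (1 + Λ * (Cg * (θ ^ 2 * H)) + Λ ^ 4 / r2 ^ 2) ≤ (θ / 6400 * H) ^ 2 := by
    refine q.trans ?_
    have : (θ / 6400 * H) ^ 2 = θ ^ 2 * H ^ 2 / 6400 ^ 2 := by ring
    rw [this, le_div_iff₀ (by norm_num)]
    have h6 : C7 * (θ ^ 3 * H ^ 2) * 6400 ^ 2 = (C7 * θ * 6400 ^ 2) * (θ ^ 2 * H ^ 2) := by ring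
    rw [h6, hθ7]
    linarith
  have hθHH : θ * H ≤ H := by
    have : θ * H ≤ 1 * H := by gcongr; linarith
    linarith
  have p1 := hP w hw a'' r2 (C6 * θ * H) (Cg * (θ ^ 2 * H)) (by rw [hr2]; linarith) (by positivity)
    ha'' (by rw [hr2]; linarith) (by rw [e40]; exact hfl) (by positivity)
    hj (by rw [e20]; linarith) (θ / 6400 * H) (by positivity) (by rw [e20]; exact hfin)
  exact ⟨p1.1, p1.2 hw0⟩

theorem step_core {p : Fin 4} {K C3 Cb : ℝ} (hC3 : 1 ≤ C3) (hCb : 1 ≤ Cb) (hP : PassP p K C3)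
    (hF : FrameP p K Cb) : ∃ θ c1 C1 R1 : ℝ, 0 < θ ∧ θ < 1 ∧ 0 < c1 ∧
    ∀ v : (Fin 4 → ℝ) → ℝ, Cls 4 p K v → |v 0| ≤ 3 / 4 → ∀ R a H : ℝ, R1 ≤ R →
      C1 * Real.log R ≤ H → H ≤ c1 * R → |a| ≤ H → Flat v p a R H →
      ∃ (L : LI 4) (a' : ℝ), |a'| ≤ θ * H ∧
        Flat (fun x => v (rot L x)) p a' (θ * R) (θ * H) := by
  -- constants
  obtain ⟨Cg, hCg⟩ : ∃ Cg : ℝ, Cg = 300000 * Cb := ⟨_, rfl⟩
  have hCg0 : 0 ≤ Cg := by rw [hCg]; positivity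
  obtain ⟨C6, hC6⟩ : ∃ C6 : ℝ, C6 = C3 * (1 + 4 * Cb * Cg + (4 * Cb) ^ 4) := ⟨_, rfl⟩
  have hC61 : 1 ≤ C6 := by
    rw [hC6]
    have h1 : 1 ≤ 1 + 4 * Cb * Cg + (4 * Cb) ^ 4 := by
      have : 0 ≤ 4 * Cb * Cg + (4 * Cb) ^ 4 := by positivity
      linarith
    exact one_le_mul_of_one_le_of_one_le hC3 h1
  obtain ⟨C7, hC7⟩ : ∃ C7 : ℝ, C7 = C3 * (1 + 3 * C6 * Cg + (3 * C6) ^ 4) := ⟨_, rfl⟩
  have hC71 : 1 ≤ C7 := by
    rw [hC7]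
    have h1 : 1 ≤ 1 + 3 * C6 * Cg + (3 * C6) ^ 4 := by
      have : 0 ≤ 3 * C6 * Cg + (3 * C6) ^ 4 := by positivity
      linarith
    exact one_le_mul_of_one_le_of_one_le hC3 h1
  obtain ⟨θ, hθ⟩ : ∃ θ : ℝ, θ = 1 / (C7 * 6400 ^ 2) := ⟨_, rfl⟩
  have hθ0 : 0 < θ := by rw [hθ]; positivity
  have hθ7 : C7 * θ * 6400 ^ 2 = 1 := by rw [hθ]; field_simp
  have hθ1 : θ ≤ 1 / 100 := by
    rw [hθ]
    apply one_div_le_one_div_of_le (by norm_num)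
    linarith
  obtain ⟨c, hc⟩ : ∃ c : ℝ, c = θ ^ 5 / (100000 * Cb * C6) := ⟨_, rfl⟩
  have hc0 : 0 < c := by rw [hc]; positivity
  have hc5 : 100000 * Cb * C6 * c = θ ^ 5 := by rw [hc]; field_simp
  refine ⟨θ / 6400, c / 8, 1 / θ, Real.exp (8 / θ), by positivity, by linarith, by positivity, ?_⟩
  intro v hv hv0 R0 a H hR0 hHlog hHR ha hflat
  obtain ⟨m1, m2, m3, m4⟩ := num1 hθ0 hθ1 hR0 hHlog
  have hR0p : 0 < R0 := (Real.exp_pos _).trans_le hR0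
  obtain ⟨R, hR⟩ : ∃ R : ℝ, R = R0 / 8 := ⟨_, rfl⟩
  have hR08 : R0 = 8 * R := by rw [hR]; ring
  have hRp : 0 < R := by rw [hR]; positivity
  have hHc : H ≤ c * R := by rw [hR]; linarith
  obtain ⟨n1, n2, n3, n4, n5, n6, n7⟩ := num2 hθ0 hθ1 hCb hC61 hc5 m4 hRp hHc
  have hlogle : ∀ ρ : ℝ, 0 < ρ → ρ ≤ R → Real.log ρ ≤ θ * H := by
    intro ρ hρ hρR
    exact (Real.log_le_log hρ (by linarith)).trans m1
  have hθHH : θ * H ≤ H := by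
    have : θ * H ≤ 1 * H := mul_le_mul_of_nonneg_right (by linarith) (by linarith)
    linarith
  have hcb : Cb * (1 + H) ≤ R := by
    have h1 : Cb * 1 ≤ Cb * H := mul_le_mul_of_nonneg_left (by linarith) (by linarith)
    have h2 : Cb * (1 + H) = Cb * 1 + Cb * H := by ring
    linarith
  obtain ⟨L, a'', ha'', hfl, hJ⟩ := hF v hv R a H (by linarith) (by linarith) hcb ha
    (by rw [← hR08]; exact hflat)
  have hwc : Cls 4 p K (fun x => v (rot L x)) := cls_rot hv L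
  have hw0 : |(fun x => v (rot L x)) 0| ≤ 3 / 4 := by
    have : rot L 0 = 0 := map_zero _
    show |v (rot L 0)| ≤ 3 / 4
    rw [this]; exact hv0
  have l1 := hlogle (θ * R) (by positivity) (by linarith)
  have l2 := hlogle (θ * R / 40) (by positivity) (by linarith)
  obtain ⟨f1, a1⟩ := pass1 hC3 hCb hCg hC6 hC61 hP hwc hw0 hθ0 hθ1 hRp m4 m3 n1 n3 n4 n6 n7
    (by linarith) ha'' hfl hJ
  obtain ⟨f2, a2⟩ := pass2 hC3 hCb hCg hC7 hC61 hP hwc hw0 hθ0 hθ1 hRp m4 m3 m2 hθ7 n2 n4 n6 n7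
    l2 f1 a1 hJ
  refine ⟨L, a'', a2, ?_⟩
  have e : θ / 6400 * R0 = θ * R / 800 := by rw [hR08]; ring
  rw [e]
  exact f2

end Vale.Agent.P134.H891
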