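import Vale.Agent.P134.H891.Rot

set_option linter.all false

open MeasureTheory Filter Topology

namespace Vale.Agent.P134.H891

variable {n : ℕ} {u U : (Fin n → ℝ) → ℝ} {p q : Fin n}

lemma gp_exp {t a : ℝ} (ha : -1 < a) (ha' : a < 1)
    (h : Real.log (1 + a) - Real.log (1 - a) = √2 * t) : a = gp t := by
  have h1 : 0 < 1 + a := by linarith
  have h2 : 0 < 1 - a := by linarith
  rw [← Real.log_div h1.ne' h2.ne'] at h
  have h3 : (1 + a) / (1 - a) = Real.exp (√2 * t) := by
    rw [← h, Real.exp_log (by positivity)]
  unfold gp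
  rw [← h3]
  field_simp
  ring

/-- Explicit form of solutions with vanishing deficit. -/
theorem explicit (hU : Sol U) (hD : ∀ x, defi U x = 0) (hpos : ∀ x, 0 < psi U x) :
    ∃ ν : Fin n → ℝ, ∑ i, ν i ^ 2 = 1 ∧ (∀ x i, pd i U x = ν i * (psi U x / √2)) ∧
      ∃ c : ℝ, ∀ x, U x = gp (∑ i, ν i * x i - c) := by
  rcases hU.rigid hD with h0 | ⟨ν, hν, hpd⟩
  · exact absurd (h0 0) (hpos 0).ne'
  refine ⟨ν, hν, hpd, ?_⟩
  have hlt : ∀ x, -1 < U x ∧ U x < 1 := by
    intro x
    have h1 := hpos x
    have hb := abs_le.mp (hU.bd x)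
    unfold psi at h1
    constructor
    · rcases hb.1.lt_or_eq with h2 | h2
      · exact h2
      · rw [← h2] at h1; norm_num at h1
    · rcases hb.2.lt_or_eq with h2 | h2
      · exact h2
      · rw [h2] at h1; norm_num at h1
  set L : (Fin n → ℝ) → ℝ := fun x =>
    (Real.log (1 + U x) - Real.log (1 - U x)) - ∑ i, (√2 * ν i) * x i with hL
  have dU : Differentiable ℝ U := hU.c2.differentiable (by norm_num)
  have dlin : Differentiable ℝ (fun x : Fin n → ℝ => ∑ i, (√2 * ν i) * x i) := by fun_prop
  have d1 : ∀ x, DifferentiableAt ℝ (fun y => 1 + U y) x := fun x => (dU x).const_add 1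
  have d2 : ∀ x, DifferentiableAt ℝ (fun y => 1 - U y) x := fun x => (dU x).const_sub 1
  have p1 : ∀ x, 0 < 1 + U x := fun x => by linarith [(hlt x).1]
  have p2 : ∀ x, 0 < 1 - U x := fun x => by linarith [(hlt x).2]
  have dlog : Differentiable ℝ (fun x => Real.log (1 + U x) - Real.log (1 - U x)) := fun x =>
    ((d1 x).log (p1 x).ne').sub ((d2 x).log (p2 x).ne')
  have dL : Differentiable ℝ L := dlog.sub dlin
  have hz : ∀ i x, pd i L x = 0 := by
    intro i x
    have e1 : pd i (fun y => 1 + U y) x = pd i U x := by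
      rw [pd_add (by fun_prop) (dU x), pd_const, zero_add]
    have e2 : pd i (fun y => 1 - U y) x = - pd i U x := by
      rw [pd_sub (by fun_prop) (dU x), pd_const, zero_sub]
    have e3 : pd i (fun x : Fin n → ℝ => ∑ k, (√2 * ν k) * x k) x = √2 * ν i := by
      rw [pd_sum Finset.univ (F := fun k (y : Fin n → ℝ) => (√2 * ν k) * y k)
        (fun k _ => by fun_prop)]
      have : ∀ k, pd i (fun y : Fin n → ℝ => (√2 * ν k) * y k) x = if k = i then √2 * ν i else 0 := by
        intro k
        rw [pd_mul (differentiableAt_const _) (by fun_prop), pd_const, pd_coord]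
        by_cases hk : k = i
        · subst hk; simp
        · simp [hk]
      simp_rw [this]
      simp
    rw [hL, pd_sub (dlog x) (dlin x), e3,
      pd_sub ((d1 x).log (p1 x).ne') ((d2 x).log (p2 x).ne'),
      pd_comp (h := Real.log) (Real.differentiableAt_log (p1 x).ne') (d1 x),
      pd_comp (h := Real.log) (Real.differentiableAt_log (p2 x).ne') (d2 x), e1, e2,
      Real.deriv_log, Real.deriv_log, hpd]
    have h3 : psi U x = (1 + U x) * (1 - U x) := by unfold psi; ring
    have h4 := sqrt2_sq
    have h5 := sqrt2_pos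
    have h6 := (p1 x).ne'
    have h7 := (p2 x).ne'
    rw [h3]
    field_simp
    rw [h4]
    ring
  refine ⟨-(L 0) / √2, fun x => ?_⟩
  apply gp_exp (hlt x).1 (hlt x).2
  have h1 := const_of_pd_zero dL hz x 0
  have h2 : L x = (Real.log (1 + U x) - Real.log (1 - U x)) - √2 * ∑ i, ν i * x i := by
    simp only [hL, Finset.mul_sum]
    congr 1
    apply Finset.sum_congr rfl; intro i _; ring
  rw [h2] at h1
  have h3 := sqrt2_pos
  have h4 : √2 * (∑ i, ν i * x i - -(L 0) / √2) = √2 * ∑ i, ν i * x i + L 0 := by
    field_simp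
    ring
  rw [h4]
  linarith

lemma gp_le_iff {a b : ℝ} : gp a ≤ gp b ↔ a ≤ b := gp_strictMono.le_iff_le

/-- An affine function bounded above is constant. -/
lemma lin_le {ν ν' : Fin n → ℝ} {c c' : ℝ} (h : ∀ x : Fin n → ℝ, ∑ i, ν' i * x i - c' ≤ ∑ i, ν i * x i - c) :
    ν' = ν := by
  by_contra hne
  set d : Fin n → ℝ := fun i => ν' i - ν i with hd
  have h1 : 0 < ∑ i, d i ^ 2 := by
    obtain ⟨i, hi⟩ := Function.ne_iff.mp hne
    have h2 : 0 < d i ^ 2 := by
      have : d i ≠ 0 := sub_ne_zero.mpr hi
      positivity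
    exact lt_of_lt_of_le h2 (Finset.single_le_sum (f := fun i => d i ^ 2)
      (fun i _ => sq_nonneg _) (Finset.mem_univ i))
  set t : ℝ := (|c' - c| + 1) / ∑ i, d i ^ 2 with ht
  have h2 := h (fun i => t * d i)
  have h3 : ∑ i, ν' i * (t * d i) - ∑ i, ν i * (t * d i) = t * ∑ i, d i ^ 2 := by
    rw [← Finset.sum_sub_distrib, Finset.mul_sum]
    apply Finset.sum_congr rfl; intro i _
    simp only [hd]; ring
  have h4 : t * ∑ i, d i ^ 2 = |c' - c| + 1 := by rw [ht]; field_simp
  have h5 := le_abs_self (c' - c)
  linarith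

/-- The upper profile is `1`. -/
theorem upper_one (hn : n ≤ 4) (hu : Sol u) (hpos : ∀ x, 0 < pd q u x) {U U' : (Fin n → ℝ) → ℝ}
    (hU : Sol U) (hU' : Sol U')
    (hlim : ∀ x, Tendsto (fun t : ℝ => u (x + t • Pi.single q 1)) atTop (𝓝 (U x)))
    (hlim' : ∀ x, Tendsto (fun t : ℝ => u (x + t • Pi.single q 1)) atBot (𝓝 (U' x)))
    (hD : ∀ x, defi U x = 0) (hD' : ∀ x, defi U' x = 0) : ∀ x, U x = 1 := by
  have du : Differentiable ℝ u := hu.c2.differentiable (by norm_num)
  have hmono : ∀ x, StrictMono (fun t : ℝ => u (x + t • Pi.single q 1)) := by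
    intro x
    apply strictMono_of_deriv_pos
    intro s
    rw [(hasDerivAt_dir (du _)).deriv]
    exact hpos _
  have hlt : ∀ x, u x < U x := by
    intro x
    have h1 := hmono x (show (0:ℝ) < 1 by norm_num)
    have h2 := (hmono x).monotone.ge_of_tendsto (hlim x) 1
    simp only [zero_smul, add_zero] at h1
    exact lt_of_lt_of_le h1 h2
  have hgt : ∀ x, U' x < u x := by
    intro x
    have h1 := hmono x (show (-1:ℝ) < 0 by norm_num)
    have h2 := (hmono x).monotone.le_of_tendsto (hlim' x) (-1)
    simp only [zero_smul, add_zero] at h1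
    exact lt_of_le_of_lt h2 h1
  have hUm : ∀ x, -1 < U x := fun x => lt_of_le_of_lt (abs_le.mp (hu.bd x)).1 (hlt x)
  have hU'm : ∀ x, U' x < 1 := fun x => lt_of_lt_of_le (hgt x) (abs_le.mp (hu.bd x)).2
  rcases hU.psi_dichotomy with h0 | hψ
  · intro x
    have h1 := h0 x
    unfold psi at h1
    have h2 := hUm x
    have h3 : (1 - U x) * (1 + U x) = 0 := by linarith
    rcases mul_eq_zero.mp h3 with h4 | h4 <;> linarith
  · exfalso
    obtain ⟨ν, hν, hpd, c, hc⟩ := explicit hU hD hψ
    -- `U` does not depend on `x_q`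
    have hinv : ∀ x (t : ℝ), U (x + t • Pi.single q 1) = U x := by
      intro x t
      have h4 : Tendsto (fun s : ℝ => u (x + (s + t) • Pi.single q 1)) atTop (𝓝 (U x)) :=
        (hlim x).comp (tendsto_atTop_add_const_right atTop t tendsto_id)
      have h5 := hlim (x + t • Pi.single q 1)
      have e : (fun s : ℝ => u (x + t • Pi.single q 1 + s • Pi.single q 1))
          = fun s : ℝ => u (x + (s + t) • Pi.single q 1) := by
        funext s
        congr 1
        rw [add_smul]; abel
      rw [e] at h5
      exact tendsto_nhds_unique h5 h4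
    have hνq : ν q = 0 := by
      have h1 := hinv 0 1
      rw [hc, hc] at h1
      have h2 := gp_strictMono.injective h1
      simp only [one_smul, zero_add, Pi.zero_apply, mul_zero, Finset.sum_const_zero] at h2
      have h3 : ∑ i, ν i * (Pi.single q 1 : Fin n → ℝ) i = ν q := by
        rw [Finset.sum_eq_single q]
        · simp
        · intro j _ hj; simp [hj]
        · intro h; exact absurd (Finset.mem_univ _) h
      rw [h3] at h2
      linarith
    obtain ⟨p, hp⟩ : ∃ p, ν p ≠ 0 := by
      by_contra hcon
      push Not at hcon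
      simp [hcon] at hν
    have hpq : p ≠ q := fun h => hp (h ▸ hνq)
    obtain ⟨M, hM, hMp, hMk, hMs⟩ := exists_orth hν p
    have hMq : ∀ i, M i q = if i = q then 1 else 0 := hMk q (Ne.symm hpq) hνq
    have hMT : (fun i j => M j i) = M := by ext i j; exact hMs j i
    have hMν : ∀ y : Fin n → ℝ, ∑ i, ν i * rt M y i = y p := by
      intro y
      have h1 := hM.dot (Pi.single p 1) y
      rw [rt_single] at h1
      simp only [hMp] at h1
      rw [h1, Finset.sum_eq_single p]
      · simp
      · intro j _ hj; simp [hj]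
      · intro h; exact absurd (Finset.mem_univ _) h
    have hMe : ∀ (y : Fin n → ℝ) (t : ℝ), rt M (y + t • Pi.single q 1) = rt M y + t • Pi.single q 1 := by
      intro y t
      rw [map_add, map_smul, rt_single]
      congr 2
      ext i
      rw [hMq, Pi.single_apply]
    set v : (Fin n → ℝ) → ℝ := fun y => (fun z => u (z + c • ν)) (rt M y) with hv
    have hv1 : Sol (fun z => u (z + c • ν)) := hu.translate _
    have hvS : Sol v := hM.sol hv1
    have hνν : ∑ i, ν i * (c • ν) i = c := by
      have : ∀ i, ν i * (c • ν) i = c * ν i ^ 2 := by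
        intro i; rw [Pi.smul_apply, smul_eq_mul]; ring
      simp_rw [this]
      rw [← Finset.mul_sum, hν, mul_one]
    have hmix : Mix v p q := by
      refine ⟨hvS, hpq, ?_, ?_⟩
      · intro y
        rw [hv, pd_rt M (hv1.c2.differentiable (by norm_num))]
        simp_rw [hMq, pd_translate]
        simp
        exact hpos _
      · intro y
        have h1 := hlim (rt M y + c • ν)
        have e : U (rt M y + c • ν) = gp (y p) := by
          rw [hc]
          congr 1
          have : ∀ i, ν i * (rt M y + c • ν) i = ν i * rt M y i + ν i * (c • ν) i := by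
            intro i; rw [Pi.add_apply, mul_add]
          simp_rw [this]
          rw [Finset.sum_add_distrib, hMν, hνν]; ring
        rw [e] at h1
        refine h1.congr fun t => ?_
        simp only [hv]
        rw [hMe]
        congr 1
        abel
    have hlow : Low v p q := by
      rcases hU'.psi_dichotomy with h0 | hψ'
      · left
        intro y
        have h1 := hlim' (rt M y + c • ν)
        have e : U' (rt M y + c • ν) = -1 := by
          have h2 := h0 (rt M y + c • ν)
          have h3 := hU'm (rt M y + c • ν)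
          unfold psi at h2
          have h4 : (1 - U' (rt M y + c • ν)) * (1 + U' (rt M y + c • ν)) = 0 := by linarith
          rcases mul_eq_zero.mp h4 with h5 | h5 <;> linarith
        rw [e] at h1
        refine h1.congr fun t => ?_
        simp only [hv]
        rw [hMe]
        congr 1
        abel
      · right
        obtain ⟨ν', hν', -, c', hc'⟩ := explicit hU' hD' hψ'
        have hle : ∀ x : Fin n → ℝ, ∑ i, ν' i * x i - c' ≤ ∑ i, ν i * x i - c := by
          intro x
          rw [← gp_le_iff, ← hc', ← hc]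
          exact ((hgt x).trans (hlt x)).le
        have hνν' : ν' = ν := lin_le hle
        refine ⟨c' - c, fun y => ?_⟩
        have h1 := (hgt (rt M y + c • ν)).le
        have e : U' (rt M y + c • ν) = gp (y p - (c' - c)) := by
          rw [hc', hνν']
          congr 1
          have : ∀ i, ν i * (rt M y + c • ν) i = ν i * rt M y i + ν i * (c • ν) i := by
            intro i; rw [Pi.add_apply, mul_add]
          simp_rw [this]
          rw [Finset.sum_add_distrib, hMν, hνν]; ring
        rw [e] at h1
        exact h1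
    exact mixed_false hn hmix hlow

/-- The reflection in the coordinate `q`. -/
noncomputable def rfM (q : Fin n) : Fin n → Fin n → ℝ := fun i j =>
  if i = j then (if i = q then -1 else 1) else 0

lemma rfM_orth (q : Fin n) : Orth (rfM q) := by
  constructor
  · intro i k
    unfold rfM
    rw [Finset.sum_eq_single i]
    · by_cases h : i = k
      · subst h; simp; split_ifs <;> norm_num
      · simp [h, Ne.symm h]
    · intro j _ hj; simp [Ne.symm hj]
    · intro h; exact absurd (Finset.mem_univ _) h
  · intro i k
    unfold rfM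
    rw [Finset.sum_eq_single i]
    · by_cases h : i = k
      · subst h; simp; split_ifs <;> norm_num
      · simp [h]
    · intro j _ hj; simp [hj]
    · intro h; exact absurd (Finset.mem_univ _) h

lemma rt_rfM_add (q : Fin n) (y : Fin n → ℝ) (t : ℝ) :
    rt (rfM q) (y + t • Pi.single q 1) = rt (rfM q) y + (-t) • Pi.single q 1 := by
  rw [map_add, map_smul, rt_single]
  congr 1
  ext i
  unfold rfM
  by_cases h : i = q
  · subst h; simp
  · simp [h]

/-- **Structure theorem**: if both profiles have vanishing Modica deficit (are one-dimensional),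
then they are the constants `1` and `-1`. -/
theorem limits_pm_one (hn : n ≤ 4) (hu : Sol u) (hpos : ∀ x, 0 < pd q u x)
    {U U' : (Fin n → ℝ) → ℝ} (hU : Sol U) (hU' : Sol U')
    (hlim : ∀ x, Tendsto (fun t : ℝ => u (x + t • Pi.single q 1)) atTop (𝓝 (U x)))
    (hlim' : ∀ x, Tendsto (fun t : ℝ => u (x + t • Pi.single q 1)) atBot (𝓝 (U' x)))
    (hD : ∀ x, defi U x = 0) (hD' : ∀ x, defi U' x = 0) :
    (∀ x, U x = 1) ∧ ∀ x, U' x = -1 := by
  refine ⟨upper_one hn hu hpos hU hU' hlim hlim' hD hD', ?_⟩
  have hR := rfM_orth q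
  set v : (Fin n → ℝ) → ℝ := fun y => (fun z => - u z) (rt (rfM q) y) with hv
  set V : (Fin n → ℝ) → ℝ := fun y => (fun z => - U' z) (rt (rfM q) y) with hV
  set V' : (Fin n → ℝ) → ℝ := fun y => (fun z => - U z) (rt (rfM q) y) with hV'
  have hneg : ∀ {w : (Fin n → ℝ) → ℝ}, Sol w → ∀ x, defi (fun z => - w z) x = defi w x := by
    intro w hw x
    unfold defi psi
    have : ∀ i, pd i (fun z => - w z) x = - pd i w x := by
      intro i
      have := pd_mul (i := i) (f := fun _ => (-1:ℝ)) (g := w) (x := x) (differentiableAt_const _)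
        (hw.c2.differentiable (by norm_num) x)
      rw [pd_const] at this
      have e : (fun z => - w z) = fun z => (-1:ℝ) * w z := by ext z; ring
      rw [e, this]; ring
    simp_rw [this]
    simp
  have hv' : ∀ x, 0 < pd q v x := by
    intro x
    rw [hv, pd_rt (rfM q) (hu.neg.c2.differentiable (by norm_num)), Finset.sum_eq_single q]
    · have := pd_mul (i := q) (f := fun _ => (-1:ℝ)) (g := u) (x := rt (rfM q) x) (differentiableAt_const _)
        (hu.c2.differentiable (by norm_num) _)
      rw [pd_const] at this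
      have e : (fun z => - u z) = fun z => (-1:ℝ) * u z := by ext z; ring
      rw [e, this]
      have h1 := hpos (rt (rfM q) x)
      have h2 : rfM q q q = -1 := by simp [rfM]
      rw [h2]
      linarith
    · intro j _ hj
      simp [rfM, hj]
    · intro h; exact absurd (Finset.mem_univ _) h
  have h1 := upper_one (q := q) hn (hR.sol hu.neg) hv' (hR.sol hU'.neg) (hR.sol hU.neg)
    (by
      intro x
      have h2 : Tendsto (fun t : ℝ => -t) atTop atBot := tendsto_neg_atTop_atBot
      have h3 := ((hlim' (rt (rfM q) x)).comp h2).neg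
      refine h3.congr fun t => ?_
      simp only [Function.comp]
      rw [rt_rfM_add])
    (by
      intro x
      have h2 : Tendsto (fun t : ℝ => -t) atBot atTop := tendsto_neg_atBot_atTop
      have h3 := ((hlim (rt (rfM q) x)).comp h2).neg
      refine h3.congr fun t => ?_
      simp only [Function.comp]
      rw [rt_rfM_add])
    (by
      intro x
      rw [hR.defi hU'.neg, hneg hU', hD'])
    (by
      intro x
      rw [hR.defi hU.neg, hneg hU, hD])
  intro x
  have h2 := h1 (rt (fun i j => rfM q j i) x)
  rw [hR.rt_rt] at h2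
  linarith

end Vale.Agent.P134.H891
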